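import Vale.Agent.P141.PL.H855.RootG

/-!
# P141, line W: the total of four node functions, expansion in the slots
-/

namespace Vale.Agent.P141.PL.H855

open Finset
open Vale.Agent.P141.PL.H571 (W ell_mem_W)
open Vale.Agent.P141.PL.H620 (loc1 nn ell pt pts sg)

noncomputable section

theorem wN_congr {o : ℤ} (ho : o = 1 ∨ o = -1) {N : ℕ × ℤ} {f g : Fin 4 → ℤ → ℝ}
    (h : ∀ j, ∀ y ∈ W N.1 N.2, f j y = g j y) : wN o f N = wN o g N := by
  unfold wN loc1
  congr 2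
  refine sum_congr rfl fun x hx => ?_
  congr 1
  exact prod_congr rfl fun j _ => h j _ (ell_mem_W ho hx j)

theorem loc1_update_add (k : ℕ) (u : Fin 4 → ℤ) (f : Fin 4 → ℤ → ℝ) (j : Fin 4) (a b : ℤ → ℝ) :
    loc1 k u (Function.update f j (a + b)) =
      loc1 k u (Function.update f j a) + loc1 k u (Function.update f j b) := by
  unfold loc1
  rw [← mul_add, ← sum_add_distrib]
  congr 1
  refine sum_congr rfl fun x _ => ?_
  rw [← mul_add]
  congr 1
  have key : ∀ c : ℤ → ℝ, ∏ i, Function.update f j c i (ell i (pt k u x)) =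
      c (ell j (pt k u x)) * ∏ i ∈ univ.erase j, f i (ell i (pt k u x)) := by
    intro c
    rw [← mul_prod_erase univ _ (mem_univ j), Function.update_self]
    congr 1
    exact prod_congr rfl fun i hi => by rw [Function.update_of_ne (ne_of_mem_erase hi)]
  rw [key, key, key, Pi.add_apply, add_mul]

theorem loc1_update_smul (k : ℕ) (u : Fin 4 → ℤ) (f : Fin 4 → ℤ → ℝ) (j : Fin 4) (c : ℝ)
    (a : ℤ → ℝ) : loc1 k u (Function.update f j (c • a)) = c * loc1 k u (Function.update f j a) := by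
  unfold loc1
  have h1 : ∑ x ∈ pts k, (∏ i, sg k (x i)) * ∏ i, Function.update f j (c • a) i (ell i (pt k u x)) =
      c * ∑ x ∈ pts k, (∏ i, sg k (x i)) * ∏ i, Function.update f j a i (ell i (pt k u x)) := by
    rw [mul_sum]
    refine sum_congr rfl fun x _ => ?_
    rw [mul_left_comm c]
    congr 1
    have key : ∀ c : ℤ → ℝ, ∏ i, Function.update f j c i (ell i (pt k u x)) =
        c (ell j (pt k u x)) * ∏ i ∈ univ.erase j, f i (ell i (pt k u x)) := by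
      intro c
      rw [← mul_prod_erase univ _ (mem_univ j), Function.update_self]
      congr 1
      exact prod_congr rfl fun i hi => by rw [Function.update_of_ne (ne_of_mem_erase hi)]
    rw [key, key, Pi.smul_apply, smul_eq_mul, mul_assoc]
  rw [h1]
  ring

theorem wN_update_add (o : ℤ) (f : Fin 4 → ℤ → ℝ) (j : Fin 4) (a b : ℤ → ℝ) (N : ℕ × ℤ) :
    wN o (Function.update f j (a + b)) N =
      wN o (Function.update f j a) N + wN o (Function.update f j b) N := by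
  unfold wN
  rw [loc1_update_add, mul_add]

theorem wN_update_smul (o : ℤ) (f : Fin 4 → ℤ → ℝ) (j : Fin 4) (c : ℝ) (a : ℤ → ℝ) (N : ℕ × ℤ) :
    wN o (Function.update f j (c • a)) N = c * wN o (Function.update f j a) N := by
  unfold wN
  rw [loc1_update_smul]
  ring

theorem wN_update_zero (o : ℤ) (f : Fin 4 → ℤ → ℝ) (j : Fin 4) (N : ℕ × ℤ) :
    wN o (Function.update f j 0) N = 0 := by
  have h := wN_update_smul o f j 0 0 N
  rwa [zero_smul, zero_mul] at h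

theorem wN_update_neg (o : ℤ) (f : Fin 4 → ℤ → ℝ) (j : Fin 4) (a : ℤ → ℝ) (N : ℕ × ℤ) :
    wN o (Function.update f j (-a)) N = - wN o (Function.update f j a) N := by
  have h := wN_update_smul o f j (-1) a N
  rwa [neg_one_smul, neg_one_mul] at h

theorem wN_update_sum {ι : Type*} (s : Finset ι) (o : ℤ) (f : Fin 4 → ℤ → ℝ) (j : Fin 4)
    (a : ι → ℤ → ℝ) (N : ℕ × ℤ) :
    wN o (Function.update f j (∑ i ∈ s, a i)) N = ∑ i ∈ s, wN o (Function.update f j (a i)) N := by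
  classical
  induction s using Finset.induction_on with
  | empty => rw [sum_empty, sum_empty, wN_update_zero]
  | insert i s hi ih => rw [sum_insert hi, sum_insert hi, wN_update_add, ih]

/-- the total of four node functions -/
def TT (o : ℤ) (𝒲 : Finset (ℕ × ℤ)) (A : Fin 4 → ℕ × ℤ → ℤ → ℝ) : ℝ :=
  ∑ N ∈ 𝒲, |wN o (fun j => A j N) N|

theorem TT_nonneg (o : ℤ) (𝒲 : Finset (ℕ × ℤ)) (A : Fin 4 → ℕ × ℤ → ℤ → ℝ) : 0 ≤ TT o 𝒲 A :=
  sum_nonneg fun _ _ => abs_nonneg _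

theorem TT_congr {o : ℤ} (ho : o = 1 ∨ o = -1) {𝒲 : Finset (ℕ × ℤ)}
    {A B : Fin 4 → ℕ × ℤ → ℤ → ℝ}
    (h : ∀ N ∈ 𝒲, ∀ j, ∀ y ∈ W N.1 N.2, A j N y = B j N y) : TT o 𝒲 A = TT o 𝒲 B :=
  sum_congr rfl fun N hN => by rw [wN_congr ho (h N hN)]

theorem TT_mono {o : ℤ} {𝒲 𝒲' : Finset (ℕ × ℤ)} (h : 𝒲 ⊆ 𝒲') (A : Fin 4 → ℕ × ℤ → ℤ → ℝ) :
    TT o 𝒲 A ≤ TT o 𝒲' A :=
  sum_le_sum_of_subset_of_nonneg h fun _ _ _ => abs_nonneg _

theorem update_apply_node (A : Fin 4 → ℕ × ℤ → ℤ → ℝ) (j : Fin 4) (B : ℕ × ℤ → ℤ → ℝ) (N : ℕ × ℤ) :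
    (fun i => Function.update A j B i N) = Function.update (fun i => A i N) j (B N) := by
  funext i
  by_cases h : i = j
  · subst h; simp only [Function.update_self]
  · simp only [Function.update_of_ne h]

theorem TT_update_add_le (o : ℤ) (𝒲 : Finset (ℕ × ℤ)) (A : Fin 4 → ℕ × ℤ → ℤ → ℝ) (j : Fin 4)
    (B C : ℕ × ℤ → ℤ → ℝ) : TT o 𝒲 (Function.update A j (B + C)) ≤
      TT o 𝒲 (Function.update A j B) + TT o 𝒲 (Function.update A j C) := by
  unfold TT
  rw [← sum_add_distrib]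
  refine sum_le_sum fun N _ => ?_
  rw [update_apply_node, update_apply_node, update_apply_node, Pi.add_apply, wN_update_add]
  exact abs_add_le _ _

theorem TT_update_neg (o : ℤ) (𝒲 : Finset (ℕ × ℤ)) (A : Fin 4 → ℕ × ℤ → ℤ → ℝ) (j : Fin 4)
    (B : ℕ × ℤ → ℤ → ℝ) : TT o 𝒲 (Function.update A j (-B)) = TT o 𝒲 (Function.update A j B) := by
  unfold TT
  refine sum_congr rfl fun N _ => ?_
  rw [update_apply_node, update_apply_node, Pi.neg_apply, wN_update_neg, abs_neg]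

theorem TT_update_sub_le (o : ℤ) (𝒲 : Finset (ℕ × ℤ)) (A : Fin 4 → ℕ × ℤ → ℤ → ℝ) (j : Fin 4)
    (B C : ℕ × ℤ → ℤ → ℝ) : TT o 𝒲 (Function.update A j (B - C)) ≤
      TT o 𝒲 (Function.update A j B) + TT o 𝒲 (Function.update A j C) := by
  rw [sub_eq_add_neg, ← TT_update_neg o 𝒲 A j C]
  exact TT_update_add_le o 𝒲 A j B (-C)

theorem TT_update_sum_le {ι : Type*} (s : Finset ι) (o : ℤ) (𝒲 : Finset (ℕ × ℤ))
    (A : Fin 4 → ℕ × ℤ → ℤ → ℝ) (j : Fin 4) (B : ι → ℕ × ℤ → ℤ → ℝ) :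
    TT o 𝒲 (Function.update A j (∑ i ∈ s, B i)) ≤
      ∑ i ∈ s, TT o 𝒲 (Function.update A j (B i)) := by
  unfold TT
  rw [sum_comm]
  refine sum_le_sum fun N _ => ?_
  rw [update_apply_node, Finset.sum_apply, wN_update_sum]
  refine (abs_sum_le_sum_abs _ _).trans (le_of_eq (sum_congr rfl fun i _ => ?_))
  rw [update_apply_node]

/-- splitting of the set of nodes in disjoint windows -/
theorem TT_biUnion {ι : Type*} [DecidableEq ι] (s : Finset ι) (o : ℤ) (w : ι → Finset (ℕ × ℤ))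
    (hd : (s : Set ι).PairwiseDisjoint w) (A : Fin 4 → ℕ × ℤ → ℤ → ℝ) :
    TT o (s.biUnion w) A = ∑ i ∈ s, TT o (w i) A := by
  classical
  unfold TT
  exact sum_biUnion hd

theorem TT_le_sum {ι : Type*} (s : Finset ι) (o : ℤ) (𝒲 : Finset (ℕ × ℤ))
    (w : ι → Finset (ℕ × ℤ)) (h : ∀ N ∈ 𝒲, ∃ i ∈ s, N ∈ w i) (A : Fin 4 → ℕ × ℤ → ℤ → ℝ) :
    TT o 𝒲 A ≤ ∑ i ∈ s, TT o (w i) A := by
  classical
  have h1 : 𝒲 ⊆ s.biUnion w := fun N hN => by
    obtain ⟨i, hi, hN'⟩ := h N hN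
    exact mem_biUnion.2 ⟨i, hi, hN'⟩
  refine (TT_mono h1 A).trans ?_
  unfold TT
  clear h1 h
  induction s using Finset.induction_on with
  | empty => simp
  | insert i s hi ih =>
    rw [sum_insert hi, biUnion_insert]
    have h2 : ∑ N ∈ w i ∪ s.biUnion w, |wN o (fun j => A j N) N| ≤
        ∑ N ∈ w i, |wN o (fun j => A j N) N| + ∑ N ∈ s.biUnion w, |wN o (fun j => A j N) N| := by
      rw [← sum_union_inter]
      linarith [sum_nonneg (s := w i ∩ s.biUnion w)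
        (f := fun N => |wN o (fun j => A j N) N|) fun _ _ => abs_nonneg _]
    linarith

end

end Vale.Agent.P141.PL.H855
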