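import Vale.Agent.P141.PL.H855.AtSum
import Vale.Agent.P141.H610.EndGlue

/-!
# P141, line W: the input and the output of END, everything static

`EndIn`: on one region with top `(Λ, x)` the static function `P` (role slot `i`) is the difference of
two combinations of atoms (of the systems `S i`, `S' i`; local mass at most `M`), and it is a
`C`-uniform function plus a function of small local energy `e0`; `G1` (slot `a`) is `C`-uniform.
`EndStm`: the END estimate for two block slots of energy `e` and hereditary packing `K`.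
`endHyp_of_stm`: the form `H610.EndHyp` of the recursion.
-/

namespace Vale.Agent.P141.PL.H855

open Finset Function
open Vale.Agent.P141.H315 Vale.Agent.P141.PL.H318
open Vale.Agent.P141.H347 (LW cd cd_pos)
open Vale.Agent.P141.H8
open Vale.Agent.P141.H610 (EndHyp)

noncomputable section

open scoped Classical

variable {X ι κ α : Type*} {g : Grid X}

/-- **The input of END** on one region with top `(Λ, x)`. -/
structure EndIn {S S' : Fin 4 → CSys g ι} (w : ∀ m, LW (S m)) (w' : ∀ m, LW (S' m))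
    (U : Fin 4 → CSys g κ) (L Λ : ℕ) (x : X) (ud : ℕ → X → Prop) (i a : Fin 4) (M C e0 : ℝ)
    (P G1 : X → ℝ) : Prop where
  at_ : ∃ P1 P2 : X → ℝ, AtS (w i) L Λ x M P1 ∧ AtS (w' i) L Λ x M P2 ∧
    ∀ y ∈ g.cube Λ x, P y = P1 y - P2 y
  gp : ∃ GP D : X → ℝ, (∀ y ∈ g.cube Λ x, P y = GP y + D y) ∧ Un (U i) C ud GP ∧
    En g ud GP C ∧ En g ud D (C * e0)
  unG : Un (U a) C ud G1
  enG : En g ud G1 C

/-- **END**: role slot `i` (`P`), uniform slot `a` (`G1`), two block slots. -/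
def EndStm (nv : N4 g α) (gd : ℕ → X → Prop) (L : ℕ) {S S' : Fin 4 → CSys g ι}
    (w : ∀ m, LW (S m)) (w' : ∀ m, LW (S' m)) (U : Fin 4 → CSys g κ) (M C e0 e K c : ℝ) : Prop :=
  ∀ (σ : Equiv.Perm (Fin 4)) (Λ : ℕ) (x : X) (ud : ℕ → X → Prop), Λ ≤ L → Rgn g gd Λ x ud →
    ud Λ x → ∀ P G1 : X → ℝ,
    EndIn w w' U L Λ x ud (σ.symm 0) (σ.symm 1) M C e0 P G1 → ∀ t F, Fam2 g ud Λ t F e K →
      T4 (nv.toNV σ) ud (st P) (st G1) (mv t (F 0)) (mv t (F 1)) ≤ c * cd g Λ x

variable {nv : N4 g α} {gd gd' : ℕ → X → Prop} {L : ℕ} {S S' : Fin 4 → CSys g ι}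
  {w : ∀ m, LW (S m)} {w' : ∀ m, LW (S' m)} {U : Fin 4 → CSys g κ} {M C e0 e K c : ℝ}

/-- the form of the recursion: `P`, `G1` have the properties of `EndIn` on every region -/
theorem endHyp_of_stm (h : EndStm nv gd L w w' U M C e0 e K c) (σ : Equiv.Perm (Fin 4))
    (hg : ∀ k y, gd' k y → gd k y) (hL : ∀ k y, gd' k y → k ≤ L) {P G1 : X → ℝ}
    (hin : ∀ (Λ : ℕ) (x : X) (ud : ℕ → X → Prop), Rgn g gd' Λ x ud → ud Λ x →
      EndIn w w' U L Λ x ud (σ.symm 0) (σ.symm 1) M C e0 P G1) :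
    EndHyp (nv.toNV σ) gd' G1 (st P) e K c := by
  intro Λ x ud hR hx t F hF
  exact h σ Λ x ud (hL Λ x (hR.sub Λ x hx))
    ⟨hR.const, hR.up, hR.bel, fun k y hy => hg k y (hR.sub k y hy)⟩ hx P G1
    (hin Λ x ud hR hx) t F hF

end

end Vale.Agent.P141.PL.H855
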