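import Vale.Agent.P141.PL.H855.StepDefs

/-!
# P141, line W: the static payments with gain, in one definition

`PayU nv gd L w UA UB CA CB EA EB EZ c`: an atom of the systems `S` (local weights `w`) in a slot
`m`; the companion in the slot `a` is `CA`-uniform for the systems `UA` with local energy at most
`EA`, the one in the slot `b` is `CB`-uniform for `UB` with energy at most `EB`, the third one (slot
`d`) has local energy at most `ez ≤ EZ`; all the companions are static, on any region of used cells.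
The total of the region is at most `c √ez ω cd`.
`payU_of_nodes`: from sums over sets of nodes (the form of `H347.Fi.Pay`).
-/

namespace Vale.Agent.P141.PL.H855

open Finset Function
open Vale.Agent.P141.PL.H571 (W)
open Vale.Agent.P141.PL.H95 (gr)
open Vale.Agent.P141.PL.H318 (CSys)
open Vale.Agent.P141.H315
open Vale.Agent.P141.H347 (LW cd cd_pos)
open Vale.Agent.P141.H8

noncomputable section

open scoped Classical

section gen

variable {X α ι κ κ' : Type*} {g : Grid X}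

/-- **The static payments** with two uniform companions. -/
def PayU (nv : N4 g α) (gd : ℕ → X → Prop) (L : ℕ) {S : Fin 4 → CSys g ι} (w : ∀ m, LW (S m))
    (UA : Fin 4 → CSys g κ) (UB : Fin 4 → CSys g κ') (CA CB EA EB EZ c : ℝ) : Prop :=
  ∀ m a b d : Fin 4, [m, a, b, d].Nodup → ∀ (Λ : ℕ) (x : X) (ud : ℕ → X → Prop), Λ ≤ L →
    Rgn g gd Λ x ud → ud Λ x → ∀ h : Fin 4 → X → ℝ,
    En g ud (h a) EA → Un (UA a) CA ud (h a) → En g ud (h b) EB → Un (UB b) CB ud (h b) →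
    ∀ ez : ℝ, 0 ≤ ez → ez ≤ EZ → En g ud (h d) ez → ∀ j, Λ ≤ j → j ≤ L → ∀ i,
      TR nv ud (update (fun l => st (h l)) m (st ((S m).a j i))) ≤
        c * √ez * (w m).ω j Λ x i * cd g Λ x

variable {nv : N4 g α} {gd : ℕ → X → Prop} {L : ℕ} {S : Fin 4 → CSys g ι} {w : ∀ m, LW (S m)}
  {UA : Fin 4 → CSys g κ} {UB : Fin 4 → CSys g κ'} {CA CB EA EB EZ c : ℝ}

theorem PayU.mono_c (h : PayU nv gd L w UA UB CA CB EA EB EZ c) {c' : ℝ} (hc : c ≤ c') :
    PayU nv gd L w UA UB CA CB EA EB EZ c' := by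
  intro m a b d hn Λ x ud h1 h2 h3 f h4 h5 h6 h7 ez h8 h9 h10 j h11 h12 i
  refine (h m a b d hn Λ x ud h1 h2 h3 f h4 h5 h6 h7 ez h8 h9 h10 j h11 h12 i).trans ?_
  have := (w m).nonneg j Λ x i
  have h13 := (cd_pos g Λ x).le
  gcongr

theorem PayU.mono_E (h : PayU nv gd L w UA UB CA CB EA EB EZ c) {EA' EB' EZ' : ℝ} (hA : EA' ≤ EA)
    (hB : EB' ≤ EB) (hZ : EZ' ≤ EZ) : PayU nv gd L w UA UB CA CB EA' EB' EZ' c := by
  intro m a b d hn Λ x ud h1 h2 h3 f h4 h5 h6 h7 ez h8 h9 h10 j h11 h12 i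
  have hm : ∀ {F : X → ℝ} {e e' : ℝ}, e ≤ e' → En g ud F e → En g ud F e' := fun he hF k y hy =>
    (hF k y hy).trans (mul_le_mul_of_nonneg_right he (cd_pos g k y).le)
  exact h m a b d hn Λ x ud h1 h2 h3 f (hm hA h4) h5 (hm hB h6) h7 ez h8 (h9.trans hZ) h10 j h11
    h12 i

/-- a smaller region of used cells, a smaller scale -/
theorem PayU.sub (h : PayU nv gd L w UA UB CA CB EA EB EZ c) {gd' : ℕ → X → Prop} {L' : ℕ}
    (hg : ∀ k y, gd' k y → gd k y) (hL : L' ≤ L) : PayU nv gd' L' w UA UB CA CB EA EB EZ c := by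
  intro m a b d hn Λ x ud h1 h2 h3 f h4 h5 h6 h7 ez h8 h9 h10 j h11 h12 i
  exact h m a b d hn Λ x ud (h1.trans hL) ⟨h2.const, h2.up, h2.bel, fun k y hy => hg k y
    (h2.sub k y hy)⟩ h3 f h4 h5 h6 h7 ez h8 h9 h10 j h11 (h12.trans hL) i

/-- the two uniform companions exchanged -/
theorem PayU.swap (h : PayU nv gd L w UA UB CA CB EA EB EZ c) :
    PayU nv gd L w UB UA CB CA EB EA EZ c := by
  intro m a b d hn Λ x ud h1 h2 h3 f h4 h5 h6 h7 ez h8 h9 h10 j h11 h12 i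
  refine h m b a d ?_ Λ x ud h1 h2 h3 f h6 h7 h4 h5 ez h8 h9 h10 j h11 h12 i
  simp only [List.nodup_cons, List.mem_cons, List.not_mem_nil, not_or, or_false,
    List.nodup_nil, and_true, not_false_eq_true] at hn ⊢
  obtain ⟨⟨h1, h2, h3⟩, ⟨h4, h5⟩, h6⟩ := hn
  exact ⟨⟨h2, h1, h3⟩, ⟨fun h => h4 h.symm, h6⟩, h5⟩

end gen

/-! ### The model -/

section model

variable {ι κ κ' : Type*} {s : ℤ} {S : Fin 4 → CSys (gr 7 s) ι} {w : ∀ m, LW (S m)}
  {UA : Fin 4 → CSys (gr 7 s) κ} {UB : Fin 4 → CSys (gr 7 s) κ'}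

/-- **from sums over sets of nodes** -/
theorem payU_of_nodes {o : ℤ} (ho : o = 1 ∨ o = -1) {nd : Finset (ℕ × ℤ)} {le : ℕ × ℤ → ℤ}
    (hsub : ∀ N ∈ nd, W N.1 N.2 ⊆ (gr 7 s).cube N.1 (le N)) {gd : ℕ → ℤ → Prop} {L : ℕ}
    {CA CB EA EB EZ c : ℝ}
    (h : ∀ m a b d : Fin 4, [m, a, b, d].Nodup → ∀ (Λ : ℕ) (x : ℤ) (ud : ℕ → ℤ → Prop), Λ ≤ L →
      Rgn (gr 7 s) gd Λ x ud → ud Λ x → ∀ h : Fin 4 → ℤ → ℝ,
      En (gr 7 s) ud (h a) EA → Un (UA a) CA ud (h a) → En (gr 7 s) ud (h b) EB →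
      Un (UB b) CB ud (h b) → ∀ ez : ℝ, 0 ≤ ez → ez ≤ EZ → En (gr 7 s) ud (h d) ez →
      ∀ 𝒲 : Finset (ℕ × ℤ), 𝒲 ⊆ nd → (∀ N ∈ 𝒲, ud N.1 (le N)) → ∀ j, Λ ≤ j → j ≤ L → ∀ i,
        ∑ N ∈ 𝒲, |wN o (update h m ((S m).a j i)) N| ≤
          c * √ez * (w m).ω j Λ x i * cd (gr 7 s) Λ x) :
    PayU (n4T s ho nd le hsub) gd L w UA UB CA CB EA EB EZ c := by
  intro m a b d hn Λ x ud h1 h2 h3 f h4 h5 h6 h7 ez h8 h9 h10 j h11 h12 i
  have key := h m a b d hn Λ x ud h1 h2 h3 f h4 h5 h6 h7 ez h8 h9 h10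
    (nd.filter fun N => ud N.1 (le N)) (filter_subset _ _)
    (fun N hN => (mem_filter.1 hN).2) j h11 h12 i
  rw [TR_n4T]
  refine le_trans (le_of_eq ?_) key
  unfold TT
  refine sum_congr rfl fun N _ => ?_
  congr 2
  funext l
  by_cases hl : l = m
  · subst hl
    simp only [update_self]
    rfl
  · simp only [update_of_ne hl]
    rfl

end model

end

end Vale.Agent.P141.PL.H855
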