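import Vale.Agent.P141.H379.Top
import Vale.Agent.P141.H444.TopStep
import Vale.Agent.P141.PL.H855.PayDefs
import Vale.Agent.P141.PL.H855.EndDefs
import Vale.Agent.P141.H8.Num

/-!
# P141, line W: what the payments (CE) and END have to deliver, in one Prop

`LevIn`: one level `j`, one type `b`, one datum: the static payments with gain, the systems of the
rounds of the recursion, END, the comparability of two consecutive levels.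
`StepIn`: all levels, with exponents.
-/

namespace Vale.Agent.P141.PL.H855

open Finset
open Vale.Agent.P141.H315 (Grid)
open Vale.Agent.P141.PL.H318 (CSys)
open Vale.Agent.P141.H347 (LW Dat2 Root2)
open Vale.Agent.P141.H782 (gb LSys LSys.S LSys.w used)
open Vale.Agent.P141.H8 (Un K1 MM)
open Vale.Agent.P141.H297 (Mix)
open Vale.Agent.P141.H379 (nvF)
open Vale.Agent.P141.H444 (TSys TDat GenL)
open Vale.Agent.P141.H922 (CgP)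

noncomputable section

/-- the constant of the windows of 8 paths -/
def cC2 (Cg : ℝ) : ℝ := 32 * (1 + 2 * Cg)

/-- the constant of the local energies -/
def cE0 (Cg : ℝ) : ℝ := 4 * (2 * cC2 Cg + 3) + 2 * (1 + 2 * Cg)

/-- the constant of the static companions -/
def cCk (Cg C0 : ℝ) : ℝ := 16 * cE0 Cg + 256 + 2 * (Cg + C0)

/-- the energy at the start of the round `i` -/
def eI (Cg τ e0 : ℝ) (i : ℕ) : ℝ := Vale.Agent.P141.H8.ee 2 Cg τ (cE0 Cg * e0) i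

/-- **One level**: `S^j = 𝒮.S j b`, `S^(j+1)`, systems `R i` of the rounds `i < nR`; `gd` = used
cells, `K` = root scale, `nv` = nodes.  `e0` = threshold of the windows, `τ` = ratio of the rounds;
`pg`, `Pm`, `Q1`, `cE` = numbers of the payments, of the rounds, of END. -/
structure LevIn {n : ℕ} {ι ι' α : Type} (𝒮 : LSys n ι) (j : ℕ) (b : Bool)
    (R : ℕ → Fin 4 → CSys (gb n b) ι') (wR : ∀ i m, LW (R i m)) (nv : N4 (gb n b) α)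
    (gd : ℕ → ℤ → Prop) (K nR : ℕ) (Cg C0 e0 τ pg Pm Q1 cE : ℝ) : Prop where
  /-- (H1), payer of the old level -/
  payo : PayU nv gd K (fun m => 𝒮.w j b m) (𝒮.S j b) (𝒮.S j b) (cCk Cg C0) (cCk Cg C0)
    (cCk Cg C0) (cCk Cg C0) (cCk Cg C0) pg
  /-- (H1), payer of the new level -/
  payn : PayU nv gd K (fun m => 𝒮.w (j + 1) b m) (𝒮.S j b) (𝒮.S j b) (cCk Cg C0) (cCk Cg C0)
    (cCk Cg C0) (cCk Cg C0) (cCk Cg C0) pg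
  /-- (H5), comparability of the levels -/
  cmp : ∀ (m : Fin 4) (ud : ℕ → ℤ → Prop) (G : ℤ → ℝ), Un (𝒮.S (j + 1) b m) Cg ud G →
    Un (𝒮.S j b m) C0 ud G
  mixR : ∀ i < nR, ∀ m, Mix (R i m) Cg
  /-- (H2), (H3): the rounds -/
  rnd : ∀ i < nR, ∃ c2 c3 : ℝ, 0 ≤ c2 ∧ 0 ≤ c3 ∧
    c2 * √(K1 2 Cg * eI Cg τ e0 i) ≤ Pm ∧
    c3 * √(K1 2 Cg * eI Cg τ e0 i) * (32 * 4 + 2 * e0) ≤
      Q1 * eI Cg τ e0 i ∧
    (∀ L', PayU nv gd L' (wR i) (𝒮.S j b) (𝒮.S j b) (cCk Cg C0) (cCk Cg C0) (cCk Cg C0)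
      (cCk Cg C0) (K1 2 Cg * eI Cg τ e0 i) c2) ∧
    PayU nv gd K (fun m => 𝒮.w j b m) (𝒮.S j b) (R i) (cCk Cg C0) Cg (cCk Cg C0)
      (K1 2 Cg * eI Cg τ e0 i) (K1 2 Cg * eI Cg τ e0 i) c3 ∧
    PayU nv gd K (fun m => 𝒮.w (j + 1) b m) (𝒮.S j b) (R i) (cCk Cg C0) Cg (cCk Cg C0)
      (K1 2 Cg * eI Cg τ e0 i) (K1 2 Cg * eI Cg τ e0 i) c3
  /-- (H4), END at the energy of the last round -/
  endS : ∀ K' : ℝ, 1 ≤ K' → cE0 Cg * e0 * (K1 2 Cg * τ) ^ nR * K' ≤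
      cE0 Cg * e0 * (K1 2 Cg * MM 2) ^ nR →
    EndStm nv gd K (fun m => 𝒮.w j b m) (fun m => 𝒮.w (j + 1) b m) (𝒮.S j b) (16 * 4 + e0)
      (cCk Cg C0) e0 (cE0 Cg * e0 * (K1 2 Cg * τ) ^ nR) K' cE

/-- **What CE and END have to deliver**, all levels: `e0 = 2 ^ (-κ j)`, `τ = 2 ^ (-c j)`; exponents
`g` (payments), `p1`, `q1` (rounds), `eE` (END), `kK` (`L²` constants of the atoms). -/
def StepIn : Prop := ∃ (Cg C0 A κ c g p1 q1 eE kK : ℝ) (nR : ℕ) (D Kf cg : ℕ → ℝ),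
  CgP ≤ Cg ∧ 0 ≤ C0 ∧ 0 ≤ A ∧ 0 < κ ∧ 0 < c ∧ κ < g ∧ c < p1 ∧ c < q1 ∧ c < κ / 2 ∧ 0 < eE ∧
  0 ≤ kK ∧ (∀ j, 0 ≤ cg j) ∧ (∀ j : ℕ, Kf j ≤ A * 2 ^ (kK * (j : ℝ))) ∧
  ∀ (n : ℕ) (P : ℝ), 0 ≤ P → Root2 n P → ∃ (κ' : Type) (t : TSys n κ') (ι' : Type)
    (R : ∀ (_ : ℕ) (b : Bool) (_ : ℕ), Fin 4 → CSys (gb n b) ι') (wR : ∀ j b i m, LW (R j b i m)),
    (∀ ε : ℝ, 0 < ε → ∃ J, ∀ j, J ≤ j → t.δ j ≤ ε) ∧ (∀ j, (t.δ j)⁻¹ ≤ D j) ∧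
    (∀ j, 1 ≤ t.K j ∧ t.K j ≤ Kf j) ∧ (∀ j b i, (t.P j b i).C ≤ Cg) ∧ (∀ j, GenL t j (cg j)) ∧
    ∀ f o K V 𝒩 (hd : Dat2 n f o K V 𝒩), ∀ j : ℕ, 1 ≤ j → ∀ b,
      LevIn t.sys j b (R j b) (wR j b) (nvF hd b ∅) (used n K V f b) K nR Cg C0
        (2 ^ (-(κ * (j : ℝ)))) (2 ^ (-(c * (j : ℝ)))) (A * 2 ^ (-(g * (j : ℝ))))
        (A * 2 ^ (-(p1 * (j : ℝ)))) (A * 2 ^ (-(q1 * (j : ℝ))))
        (A * 2 ^ (-((κ + eE) * (j : ℝ))) * (1 + P))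

end

end Vale.Agent.P141.PL.H855
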