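import Vale.Agent.P141.PL.H855.CSlot
import Vale.Agent.P141.PL.H855.Mov0

/-!
# P141, line W, scale-invariant version: moving slots on the cells of a grid, without heights

`CBlk0 s Λ A e K`: block family on the cells of `gr 7 s` of scale `≤ Λ` (`A k y` = value at the
scale `k` at the point `y`).  `CSlot0`: convergent sum of such families.  `mbb_cell0`: the black box
for four moving slots on the nodes below one cell.
-/

namespace Vale.Agent.P141.PL.H855

open Finset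
open Vale.Agent.P141.PL.H571 (W mem_W)
open Vale.Agent.P141.PL.H95 (gr mem_gr card_gr)
open Vale.Agent.P141.H315 (dot)

noncomputable section

open scoped Classical in
/-- **From cells to nodes**, no heights. -/
theorem blk0_of_cells {s : ℤ} {A : ℕ → ℤ → ℝ} {ev : ℕ → ℤ → Prop} {w : ℕ × ℤ}
    {𝒲 : Finset (ℕ × ℤ)} (hW : Reg 𝒲 w)
    (hc : ∀ k x y, y ∈ (gr 7 s).cube k x → (ev k y ↔ ev k x))
    (hA : ∀ k y, k < w.1 → ¬ ev k y → A k y = A (k + 1) y)
    {Kc e : ℝ}
    (hK : ∀ k₀ ≤ w.1, ∀ x, ∑ z ∈ (gr 7 s).cube k₀ x, ∑ k ∈ range (k₀ + 1),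
      (if ev k z then (1 : ℝ) else 0) ≤ Kc * 2 ^ (k₀ + 7))
    (he : ∀ k ≤ w.1, ∀ x, dot ((gr 7 s).cube k x) (A k) (A k) ≤ e * 2 ^ (k + 7)) :
    Blk0 𝒲 (fun N => A N.1) (8 * e) (1 + 1152 * Kc) := by
  refine ⟨⟨topN ev w, fun T => A T.1, ⟨?_, ?_, ?_, ?_⟩, ?_⟩, ?_⟩
  · -- mem
    intro N hN
    obtain ⟨d, e1, -, -, h3⟩ := topN_eq (ev := ev) (hW.bel N hN)
    rw [e1]
    exact hW.cl N hN _ (bel_anc d N) (bel_cmp (bel_anc d N) (hW.bel N hN) (by
      simp only [anc]; exact h3))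
  · intro N hN
    obtain ⟨d, e1, -, -, -⟩ := topN_eq (ev := ev) (hW.bel N hN)
    rw [e1]
    exact bel_anc d N
  · intro N hN M hM hNM hMT
    have e1 : anc (M.1 - N.1) N = M := anc_of_bel hNM
    have h1 := topN_conv (ev := ev) (i := M.1 - N.1) (hW.bel N hN) (by rw [e1]; exact hMT)
    rwa [e1] at h1
  · -- packing
    intro M hM
    have hMw : M.1 ≤ w.1 := (hW.bel M hM).1
    have h1 : ∀ N ∈ tops 𝒲 (topN ev w) M, N ≠ w → ∃ y ∈ W N.1 N.2, ev N.1 y := by
      intro N hN hNw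
      rw [mem_tops] at hN
      obtain ⟨d, e1, h1, -, h3⟩ := topN_eq (ev := ev) (hW.bel N hN.1)
      have hd : d = 0 := by
        have : (anc d N).1 = N.1 := by rw [← e1, hN.2.2]
        simp only [anc] at this
        omega
      subst hd
      unfold Stop at h1
      rw [anc_zero] at h1
      rcases h1 with h1 | h1
      · exfalso
        apply hNw
        have := anc_of_bel (hW.bel N hN.1)
        rw [show w.1 - N.1 = 0 by omega, anc_zero] at this
        exact this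
      · simpa using h1
    have h2 : ∀ N ∈ (tops 𝒲 (topN ev w) M).erase w, (2 : ℝ) ^ N.1 ≤
        (2 ^ 7 : ℝ)⁻¹ * ∑ z ∈ Wl M, (if z ∈ Wl N ∧ ev N.1 z then (1 : ℝ) else 0) := by
      intro N hN
      obtain ⟨hNw, hN⟩ := mem_erase.1 hN
      obtain ⟨y, hy, hev⟩ := h1 N hN hNw
      have hNM : Bel N M := (mem_tops.1 hN).2.1
      have hsub : (gr 7 s).cube N.1 y ⊆ (Wl M).filter fun z => z ∈ Wl N ∧ ev N.1 z := by
        intro z hz
        have h3 := cube_sub_Wl hy hz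
        refine mem_filter.2 ⟨?_, h3, (hc _ _ _ hz).2 hev⟩
        have h4 := Wl_anc_sub (M.1 - N.1) N h3
        rwa [anc_of_bel hNM] at h4
      rw [← sum_filter, sum_const, nsmul_eq_mul, mul_one]
      have h4 : (2 : ℝ) ^ (N.1 + 7) ≤
          ((Wl M).filter fun z => z ∈ Wl N ∧ ev N.1 z).card := by
        have h5 := card_le_card hsub
        rw [card_gr] at h5
        exact_mod_cast h5
      calc (2 : ℝ) ^ N.1 = (2 ^ 7 : ℝ)⁻¹ * 2 ^ (N.1 + 7) := by rw [pow_add]; field_simp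
        _ ≤ _ := mul_le_mul_of_nonneg_left h4 (by positivity)
    have h3 : ∑ N ∈ (tops 𝒲 (topN ev w) M).erase w, (2 : ℝ) ^ N.1 ≤
        (2 ^ 7 : ℝ)⁻¹ * (288 * ∑ z ∈ Wl M, ∑ k ∈ range (M.1 + 1),
          (if ev k z then (1 : ℝ) else 0)) := by
      refine (sum_le_sum h2).trans ?_
      rw [← mul_sum, sum_comm]
      refine mul_le_mul_of_nonneg_left ?_ (by positivity)
      rw [mul_sum]
      refine sum_le_sum fun z _ => ?_
      rw [mul_sum]
      -- group by the scale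
      have h4 : ∀ N ∈ (tops 𝒲 (topN ev w) M).erase w, N.1 ∈ range (M.1 + 1) := by
        intro N hN
        have := (mem_tops.1 (mem_erase.1 hN).2).2.1.1
        rw [mem_range]; omega
      rw [← sum_fiberwise_of_maps_to h4]
      refine sum_le_sum fun k _ => ?_
      by_cases hk : ev k z
      · rw [if_pos hk, mul_one]
        have h5 : ∑ N ∈ ((tops 𝒲 (topN ev w) M).erase w).filter (fun N => N.1 = k),
            (if z ∈ Wl N ∧ ev N.1 z then (1 : ℝ) else 0) ≤
            ((((tops 𝒲 (topN ev w) M).erase w).filter (fun N => N.1 = k)).filter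
              fun N => z ∈ Wl N).card := by
          rw [card_filter, Nat.cast_sum]
          refine sum_le_sum fun N _ => ?_
          by_cases h6 : z ∈ Wl N
          · simp only [h6, true_and, if_true]
            split_ifs <;> simp
          · simp [h6]
        refine h5.trans ?_
        have h6 : ((((tops 𝒲 (topN ev w) M).erase w).filter (fun N => N.1 = k)).filter
            fun N => z ∈ Wl N).card ≤ (Ioc (z / 2 ^ k - 144) (z / 2 ^ k + 144)).card := by
          refine card_le_card_of_injOn Prod.snd ?_ ?_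
          · intro N hN
            rw [mem_coe, mem_filter, mem_filter] at hN
            obtain ⟨⟨-, h7⟩, h8⟩ := hN
            rw [mem_Wl, h7] at h8
            have hk2 : (0 : ℤ) < 2 ^ k := by positivity
            rw [mem_coe, mem_Ioc]
            constructor
            · have : z / 2 ^ k < N.2 + 144 := Int.ediv_lt_of_lt_mul hk2 (by linarith [h8.2])
              linarith
            · have : N.2 - 144 ≤ z / 2 ^ k := Int.le_ediv_of_mul_le hk2 (by linarith [h8.1])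
              linarith
          · intro N hN N' hN' h9
            rw [mem_coe, mem_filter, mem_filter] at hN hN'
            exact Prod.ext (hN.1.2.trans hN'.1.2.symm) h9
        rw [Int.card_Ioc] at h6
        have h7 : (z / 2 ^ k + 144 - (z / 2 ^ k - 144)).toNat = 288 := by
          rw [show z / 2 ^ k + 144 - (z / 2 ^ k - 144) = 288 by ring]; rfl
        rw [h7] at h6
        exact_mod_cast h6
      · rw [if_neg hk, mul_zero]
        refine le_of_eq (sum_eq_zero fun N hN => ?_)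
        rw [(mem_filter.1 hN).2]
        simp [hk]
    have h4 : ∑ z ∈ Wl M, ∑ k ∈ range (M.1 + 1), (if ev k z then (1 : ℝ) else 0) ≤
        ((3 : ℕ) + 1) * (Kc * 2 ^ (M.1 + 7)) := by
      refine sum_le_cells (s := s) (a := 2 ^ M.1 * (M.2 - 144)) (k := M.1) (m := 3) _
        (fun z => sum_nonneg fun k _ => by split_ifs <;> norm_num) ?_ (hK M.1 hMw)
      intro z hz
      rw [mem_Wl] at hz
      refine ⟨hz.1, ?_⟩
      have e7 : (2 : ℤ) ^ (M.1 + 7) = 2 ^ M.1 * 128 := by rw [pow_add]; norm_num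
      have hk : (0 : ℤ) < 2 ^ M.1 := by positivity
      rw [e7]
      push_cast
      linarith [hz.2]
    have h5 : ∑ N ∈ tops 𝒲 (topN ev w) M, (2 : ℝ) ^ N.1 ≤
        2 ^ M.1 + ∑ N ∈ (tops 𝒲 (topN ev w) M).erase w, (2 : ℝ) ^ N.1 := by
      by_cases hw : w ∈ tops 𝒲 (topN ev w) M
      · rw [← add_sum_erase _ _ hw]
        have : w.1 ≤ M.1 := (mem_tops.1 hw).2.1.1
        have := pow_le_pow_right₀ (one_le_two : (1 : ℝ) ≤ 2) this
        linarith
      · rw [erase_eq_of_notMem hw]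
        have : (0 : ℝ) ≤ 2 ^ M.1 := by positivity
        linarith
    refine h5.trans ?_
    have h6 : (2 ^ 7 : ℝ)⁻¹ * (288 * ∑ z ∈ Wl M, ∑ k ∈ range (M.1 + 1),
        (if ev k z then (1 : ℝ) else 0)) ≤ 1152 * Kc * 2 ^ M.1 := by
      have h7 : (2 ^ 7 : ℝ)⁻¹ * (288 * (((3 : ℕ) + 1) * (Kc * 2 ^ (M.1 + 7)))) =
          1152 * Kc * 2 ^ M.1 := by
        rw [pow_add]; push_cast; ring
      rw [← h7]
      exact mul_le_mul_of_nonneg_left (mul_le_mul_of_nonneg_left h4 (by norm_num)) (by positivity)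
    linarith [h3.trans h6]
  · intro N hN y hy
    exact topN_val hA (hW.bel N hN) hy
  · intro N hN
    have h1 := sum_le_cells (s := s) (a := 2 ^ N.1 * (N.2 - 16)) (k := N.1) (m := 1)
      (U := W N.1 N.2) (fun y => A N.1 y ^ 2) (fun z => sq_nonneg _) (by
        intro z hz
        rw [mem_W] at hz
        refine ⟨hz.1, ?_⟩
        have e7 : (2 : ℤ) ^ (N.1 + 7) = 2 ^ N.1 * 128 := by rw [pow_add]; norm_num
        have hk : (0 : ℤ) < 2 ^ N.1 := by positivity
        rw [e7]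
        push_cast
        linarith [hz.2]) (B := e * 2 ^ (N.1 + 7)) (fun x => by
        have h2 := he N.1 (hW.bel N hN).1 x
        unfold dot at h2
        refine le_trans (le_of_eq (sum_congr rfl fun y _ => ?_)) h2
        ring)
    refine h1.trans (le_of_eq ?_)
    rw [pow_add, pow_add]
    push_cast
    ring

open scoped Classical in
/-- a block family on the cells of the grid `gr 7 s` of scale `≤ Λ` -/
structure CBlk0 (s : ℤ) (Λ : ℕ) (A : ℕ → ℤ → ℝ) (e K : ℝ) : Prop where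
  win : ∃ ev : ℕ → ℤ → Prop, (∀ k x y, y ∈ (gr 7 s).cube k x → (ev k y ↔ ev k x)) ∧
    (∀ k y, k < Λ → ¬ ev k y → A k y = A (k + 1) y) ∧
    (∀ k₀ ≤ Λ, ∀ x, ∑ z ∈ (gr 7 s).cube k₀ x, ∑ k ∈ range (k₀ + 1),
      (if ev k z then (1 : ℝ) else 0) ≤ K * 2 ^ (k₀ + 7))
  en : ∀ k ≤ Λ, ∀ x, dot ((gr 7 s).cube k x) (A k) (A k) ≤ e * 2 ^ (k + 7)

theorem CBlk.toCBlk0 {s : ℤ} {Λ : ℕ} {A : ℕ → ℤ → ℝ} {e K h : ℝ} (hA : CBlk s Λ A e K h) :
    CBlk0 s Λ A e K := ⟨hA.win, hA.en⟩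

theorem CBlk0.toBlk0 {s : ℤ} {Λ : ℕ} {A : ℕ → ℤ → ℝ} {e K : ℝ} (hA : CBlk0 s Λ A e K)
    {w : ℕ × ℤ} (hw : w.1 ≤ Λ) {𝒲 : Finset (ℕ × ℤ)} (hW : Reg 𝒲 w) :
    Blk0 𝒲 (fun N => A N.1) (8 * e) (1 + 1152 * K) := by
  obtain ⟨ev, h1, h2, h3⟩ := hA.win
  exact blk0_of_cells hW h1 (fun k y hk => h2 k y (by omega)) (fun k₀ hk => h3 k₀ (by omega))
    (fun k hk => hA.en k (by omega))

theorem CBlk0.mono {s : ℤ} {Λ : ℕ} {A : ℕ → ℤ → ℝ} {e K e' K' : ℝ} (hA : CBlk0 s Λ A e K)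
    (he : e ≤ e') (hK : K ≤ K') : CBlk0 s Λ A e' K' := by
  obtain ⟨ev, h1, h2, h3⟩ := hA.win
  exact ⟨⟨ev, h1, h2, fun k₀ hk x => (h3 k₀ hk x).trans
    (mul_le_mul_of_nonneg_right hK (by positivity))⟩,
    fun k hk x => (hA.en k hk x).trans (mul_le_mul_of_nonneg_right he (by positivity))⟩

theorem CBlk0.smul {s : ℤ} {Λ : ℕ} {A : ℕ → ℤ → ℝ} {e K : ℝ} (hA : CBlk0 s Λ A e K) (c : ℝ) :
    CBlk0 s Λ (fun k y => c * A k y) (c ^ 2 * e) K := by
  obtain ⟨ev, h1, h2, h3⟩ := hA.win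
  refine ⟨⟨ev, h1, fun k y hk hev => by simp only [h2 k y hk hev], h3⟩, fun k hk x => ?_⟩
  have h := hA.en k hk x
  unfold dot at h ⊢
  calc ∑ y ∈ (gr 7 s).cube k x, c * A k y * (c * A k y)
      = c ^ 2 * ∑ y ∈ (gr 7 s).cube k x, A k y * A k y := by
        rw [mul_sum]; exact sum_congr rfl fun y _ => by ring
    _ ≤ c ^ 2 * (e * 2 ^ (k + 7)) := mul_le_mul_of_nonneg_left h (sq_nonneg c)
    _ = _ := by ring

/-- the zero family -/
theorem cblk0_zero {s : ℤ} {Λ : ℕ} {e K : ℝ} (he : 0 ≤ e) (hK : 0 ≤ K) :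
    CBlk0 s Λ (fun _ _ => 0) e K := by
  refine ⟨⟨fun _ _ => False, fun _ _ _ _ => Iff.rfl, fun _ _ _ _ => rfl, fun k₀ _ x => ?_⟩,
    fun k _ x => ?_⟩
  · simp only [if_false, sum_const_zero]
    positivity
  · unfold dot
    simp only [mul_zero, sum_const_zero]
    positivity

/-- a moving slot on the cells -/
structure CSlot0 (s : ℤ) (Λ : ℕ) (A : ℕ → ℤ → ℝ) (S : ℝ) : Prop where
  ex : ∃ (b : ℕ → ℕ → ℤ → ℝ) (e K : ℕ → ℝ),
    (∀ l, CBlk0 s Λ (b l) (e l) (K l)) ∧ (∀ l, 0 < e l) ∧ (∀ l, 0 ≤ K l) ∧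
    (∀ L, ∑ l ∈ range L, √(e l * (1 + 1152 * K l)) ≤ S) ∧
    (∀ k ≤ Λ, ∀ y, Filter.Tendsto (fun L => ∑ l ∈ range L, b l k y) Filter.atTop
      (nhds (A k y)))

theorem CSlot0.nonneg {s : ℤ} {Λ : ℕ} {A : ℕ → ℤ → ℝ} {S : ℝ} (hA : CSlot0 s Λ A S) : 0 ≤ S := by
  obtain ⟨b, e, K, -, -, -, h, -⟩ := hA.ex
  simpa using h 0

theorem CSlot0.mono {s : ℤ} {Λ : ℕ} {A : ℕ → ℤ → ℝ} {S S' : ℝ} (hA : CSlot0 s Λ A S)
    (h : S ≤ S') : CSlot0 s Λ A S' := by
  obtain ⟨b, e, K, hb, he, hK, hs, hl⟩ := hA.ex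
  exact ⟨⟨b, e, K, hb, he, hK, fun L => (hs L).trans h, hl⟩⟩

theorem CSlot0.toSlot0 {s : ℤ} {Λ : ℕ} {A : ℕ → ℤ → ℝ} {S : ℝ}
    (hA : CSlot0 s Λ A S) {w : ℕ × ℤ} (hw : w.1 ≤ Λ) {𝒲 : Finset (ℕ × ℤ)} (hW : Reg 𝒲 w) :
    Slot0 𝒲 (fun N => A N.1) (√8 * S) := by
  obtain ⟨b, e, K, hb, he, hK, hs, hl⟩ := hA.ex
  refine ⟨⟨fun l N => b l N.1, fun l => 8 * e l, fun l => 1 + 1152 * K l,
    fun l => (hb l).toBlk0 hw hW, fun l => by have := he l; positivity, fun l => ?_,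
    fun L => ?_, fun N hN y _ => hl N.1 ((hW.bel N hN).1.trans hw) y⟩⟩
  · have := hK l; linarith
  · have h1 : ∀ l ∈ range L, √(8 * e l * (1 + 1152 * K l)) =
        √8 * √(e l * (1 + 1152 * K l)) := by
      intro l _
      rw [mul_assoc (8 : ℝ), Real.sqrt_mul (by norm_num : (0 : ℝ) ≤ 8)]
    rw [sum_congr rfl h1, ← mul_sum]
    exact mul_le_mul_of_nonneg_left (hs L) (Real.sqrt_nonneg _)

/-- one block family is a slot -/
theorem CBlk0.toCSlot0 {s : ℤ} {Λ : ℕ} {A : ℕ → ℤ → ℝ} {e K : ℝ} (hA : CBlk0 s Λ A e K)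
    (he : 0 < e) (hK : 0 ≤ K) : CSlot0 s Λ A (2 * √(e * (1 + 1152 * K))) := by
  refine ⟨⟨fun l k y => if l = 0 then A k y else 0, fun l => e * (1 / 4) ^ l, fun _ => K,
    fun l => ?_, fun l => by positivity, fun _ => hK, fun L => ?_, fun k _ y => ?_⟩⟩
  · rcases Nat.eq_zero_or_pos l with h | h
    · subst h
      simpa using hA
    · have : (fun (k : ℕ) (y : ℤ) => if l = 0 then A k y else 0) = fun _ _ => (0 : ℝ) := by
        funext k y; rw [if_neg (by omega)]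
      show CBlk0 s Λ (fun (k : ℕ) (y : ℤ) => if l = 0 then A k y else 0) _ _
      rw [this]
      exact cblk0_zero (by positivity) hK
  · have h1 : ∀ l ∈ range L, √(e * (1 / 4) ^ l * (1 + 1152 * K)) =
        √(e * (1 + 1152 * K)) * (1 / 2) ^ l := by
      intro l _
      have : e * (1 / 4) ^ l * (1 + 1152 * K) = e * (1 + 1152 * K) * ((1 / 2) ^ l) ^ 2 := by
        rw [← pow_mul, mul_comm l 2, pow_mul]; norm_num; ring
      rw [this, Real.sqrt_mul (by positivity), Real.sqrt_sq (by positivity)]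
    rw [sum_congr rfl h1, ← mul_sum, mul_comm]
    refine mul_le_mul_of_nonneg_right ?_ (Real.sqrt_nonneg _)
    have h2 := (summable_geometric_of_lt_one (by norm_num : (0 : ℝ) ≤ 1 / 2)
      (by norm_num)).sum_le_tsum (range L) fun _ _ => by positivity
    rw [tsum_geometric_of_lt_one (by norm_num) (by norm_num)] at h2
    norm_num at h2 ⊢
    exact h2
  · refine tendsto_const_nhds.congr' ?_
    filter_upwards [Filter.eventually_ge_atTop 1] with L hL
    rw [sum_ite_eq' (range L) 0 (fun _ => A k y), if_pos (mem_range.2 (by omega))]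

/-- interleaving -/
theorem CSlot0.add {s : ℤ} {Λ : ℕ} {A B : ℕ → ℤ → ℝ} {S S' : ℝ} (hA : CSlot0 s Λ A S)
    (hB : CSlot0 s Λ B S') : CSlot0 s Λ (fun k y => A k y + B k y) (S + S') := by
  obtain ⟨b, e, K, hb, he, hK, hs, hl⟩ := hA.ex
  obtain ⟨b', e', K', hb', he', hK', hs', hl'⟩ := hB.ex
  have key : ∀ (f g : ℕ → ℝ) (L : ℕ),
      ∑ l ∈ range L, (if l % 2 = 0 then f (l / 2) else g (l / 2)) =
        ∑ l ∈ range ((L + 1) / 2), f l + ∑ l ∈ range (L / 2), g l := by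
    intro f g L
    induction L with
    | zero => simp
    | succ L ih =>
      rw [sum_range_succ, ih]
      rcases Nat.even_or_odd L with ⟨m, hm⟩ | ⟨m, hm⟩
      · subst hm
        rw [if_pos (by omega), show (m + m + 1 + 1) / 2 = m + 1 by omega,
          show (m + m + 1) / 2 = m by omega, show (m + m) / 2 = m by omega, sum_range_succ]
        ring
      · subst hm
        rw [if_neg (by omega), show (2 * m + 1 + 1 + 1) / 2 = m + 1 by omega,
          show (2 * m + 1 + 1) / 2 = m + 1 by omega, show (2 * m + 1) / 2 = m by omega,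
          sum_range_succ (fun l => g l)]
        ring
  refine ⟨⟨fun l => if l % 2 = 0 then b (l / 2) else b' (l / 2),
    fun l => if l % 2 = 0 then e (l / 2) else e' (l / 2),
    fun l => if l % 2 = 0 then K (l / 2) else K' (l / 2), fun l => ?_, fun l => ?_, fun l => ?_,
    fun L => ?_, fun k hk y => ?_⟩⟩
  · by_cases h : l % 2 = 0
    · simp only [if_pos h]; exact hb _
    · simp only [if_neg h]; exact hb' _
  · by_cases h : l % 2 = 0
    · simp only [if_pos h]; exact he _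
    · simp only [if_neg h]; exact he' _
  · by_cases h : l % 2 = 0
    · simp only [if_pos h]; exact hK _
    · simp only [if_neg h]; exact hK' _
  · have h1 : ∀ l, √((if l % 2 = 0 then e (l / 2) else e' (l / 2)) *
        (1 + 1152 * (if l % 2 = 0 then K (l / 2) else K' (l / 2)))) =
        if l % 2 = 0 then √(e (l / 2) * (1 + 1152 * K (l / 2))) else
          √(e' (l / 2) * (1 + 1152 * K' (l / 2))) := by
      intro l
      by_cases h : l % 2 = 0
      · simp only [if_pos h]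
      · simp only [if_neg h]
    simp only [h1]
    rw [key (fun l => √(e l * (1 + 1152 * K l))) (fun l => √(e' l * (1 + 1152 * K' l)))]
    exact add_le_add (hs _) (hs' _)
  · have h1 : ∀ L, ∑ l ∈ range L, (if l % 2 = 0 then b (l / 2) else b' (l / 2)) k y =
        ∑ l ∈ range ((L + 1) / 2), b l k y + ∑ l ∈ range (L / 2), b' l k y := by
      intro L
      rw [← key (fun l => b l k y) (fun l => b' l k y)]
      refine sum_congr rfl fun l _ => ?_
      by_cases h : l % 2 = 0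
      · simp only [if_pos h]
      · simp only [if_neg h]
    simp only [h1]
    have t1 : Filter.Tendsto (fun L : ℕ => (L + 1) / 2) Filter.atTop Filter.atTop := by
      refine Filter.tendsto_atTop.2 fun m => ?_
      filter_upwards [Filter.eventually_ge_atTop (2 * m)] with L hL
      omega
    have t2 : Filter.Tendsto (fun L : ℕ => L / 2) Filter.atTop Filter.atTop := by
      refine Filter.tendsto_atTop.2 fun m => ?_
      filter_upwards [Filter.eventually_ge_atTop (2 * m)] with L hL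
      omega
    exact ((hl k hk y).comp t1).add ((hl' k hk y).comp t2)

theorem CSlot0.smul {s : ℤ} {Λ : ℕ} {A : ℕ → ℤ → ℝ} {S c : ℝ} (hA : CSlot0 s Λ A S)
    (hc : c ≠ 0) : CSlot0 s Λ (fun k y => c * A k y) (|c| * S) := by
  obtain ⟨b, e, K, hb, he, hK, hs, hl⟩ := hA.ex
  refine ⟨⟨fun l k y => c * b l k y, fun l => c ^ 2 * e l, K, fun l => (hb l).smul c,
    fun l => by have := he l; positivity, hK, fun L => ?_, fun k hk y => ?_⟩⟩
  · have h1 : ∀ l ∈ range L, √(c ^ 2 * e l * (1 + 1152 * K l)) =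
        |c| * √(e l * (1 + 1152 * K l)) := by
      intro l _
      rw [mul_assoc, Real.sqrt_mul (by positivity), Real.sqrt_sq_eq_abs]
    rw [sum_congr rfl h1, ← mul_sum]
    exact mul_le_mul_of_nonneg_left (hs L) (abs_nonneg c)
  · simp only [← mul_sum]
    exact (hl k hk y).const_mul c

/-- equality on the scales of the region is enough -/
theorem CSlot0.congr {s : ℤ} {Λ : ℕ} {A B : ℕ → ℤ → ℝ} {S : ℝ} (hA : CSlot0 s Λ A S)
    (h : ∀ k ≤ Λ, ∀ y, A k y = B k y) : CSlot0 s Λ B S := by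
  obtain ⟨b, e, K, hb, he, hK, hs, hl⟩ := hA.ex
  exact ⟨⟨b, e, K, hb, he, hK, hs, fun k hk y => by rw [← h k hk y]; exact hl k hk y⟩⟩

theorem CSlot0.sub {s : ℤ} {Λ : ℕ} {A B : ℕ → ℤ → ℝ} {S S' : ℝ} (hA : CSlot0 s Λ A S)
    (hB : CSlot0 s Λ B S') : CSlot0 s Λ (fun k y => A k y - B k y) (S + S') := by
  have h := hA.add (hB.smul (c := -1) (by norm_num))
  rw [abs_neg, abs_one, one_mul] at h
  exact h.congr fun k _ y => by ring

/-- **The black box below one cell.** -/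
theorem mbb_cell0 {Rt : ℕ → ℝ → Prop} (h : MBB0 Rt) : ∃ C : ℝ, 0 ≤ C ∧
    ∀ (n : ℕ) (P : ℝ), 0 ≤ P → Rt n P →
    ∀ o : ℤ, (o = 1 ∨ o = -1) → ∀ (s : ℤ) (Λ : ℕ) (x : ℤ), Λ ≤ n →
    ∀ 𝒮 : Finset (ℕ × ℤ), (∀ N ∈ 𝒮, 1 ≤ N.1 ∧ N.1 ≤ Λ ∧
      ∃ y ∈ W N.1 N.2, y ∈ (gr 7 s).cube Λ x) →
    ∀ (A : Fin 4 → ℕ → ℤ → ℝ) (S : Fin 4 → ℝ), (∀ j, CSlot0 s Λ (A j) (S j)) →
      TT o 𝒮 (fun j N => A j N.1) ≤ C * P * (∏ j, S j) * 2 ^ Λ := by
  obtain ⟨C, hC, h⟩ := mbb_mov0 h
  refine ⟨162 * 64 * C, by positivity, fun n P hP hroot o ho s Λ x hΛ 𝒮 h𝒮 A S hA => ?_⟩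
  have hS : ∀ j, 0 ≤ S j := fun j => (hA j).nonneg
  have h1 := TT_le_sum (roots s Λ x) o 𝒮 regAll (fun N hN => by
    obtain ⟨h2, h3, h4⟩ := h𝒮 N hN
    exact ⟨_, root_mem h3 h4, mem_regAll.2 ⟨h2, bel_anc _ _⟩⟩) (fun j N => A j N.1)
  refine h1.trans ?_
  have h2 : ∀ r ∈ roots s Λ x, TT o (regAll r) (fun j N => A j N.1) ≤
      C * P * (64 * ∏ j, S j) * 2 ^ Λ := by
    intro r hr
    have hr1 : r.1 = Λ := by
      obtain ⟨v, -, rfl⟩ := mem_image.1 hr
      rfl
    have h3 := h n P hP hroot o ho r (regAll r) (by omega) (reg_regAll r)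
      (fun j N => A j N.1) (fun j => √8 * S j)
      (fun j => mul_nonneg (Real.sqrt_nonneg _) (hS j))
      (fun j => (hA j).toSlot0 hr1.le (reg_regAll r))
    rw [hr1] at h3
    refine h3.trans (le_of_eq ?_)
    have e1 : ∏ j : Fin 4, (√8 * S j) = 64 * ∏ j, S j := by
      rw [prod_mul_distrib, prod_const]
      have : (√8 : ℝ) ^ (univ : Finset (Fin 4)).card = 64 := by
        rw [card_univ, Fintype.card_fin, show (4 : ℕ) = 2 * 2 by norm_num, pow_mul,
          Real.sq_sqrt (by norm_num)]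
        norm_num
      rw [this]
    rw [e1]
  refine (sum_le_sum h2).trans ?_
  rw [sum_const, nsmul_eq_mul]
  have h4 : ((roots s Λ x).card : ℝ) ≤ 162 := by exact_mod_cast card_roots s Λ x
  have h5 : 0 ≤ C * P * (64 * ∏ j, S j) * 2 ^ Λ := by
    have : 0 ≤ ∏ j, S j := prod_nonneg fun j _ => hS j
    positivity
  refine (mul_le_mul_of_nonneg_right h4 h5).trans (le_of_eq ?_)
  ring

end

end Vale.Agent.P141.PL.H855
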