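import Vale.Agent.P141.PL.H855.CSlot
import Vale.Agent.P141.H297.Win4
import Vale.Agent.P141.H922.FloorAbs

/-!
# P141, line W: the digits of a path

A path of the one-cell process, cut to a region `ud` of cells, minus its value at the top of the
window of the threshold `e1`, is a moving slot (`CSlot`) of the size `√e1`: the digits are the
differences of the values at the tops of the windows of the thresholds `e1 / 2 ^ l`.
-/

namespace Vale.Agent.P141.PL.H855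

open Finset
open Vale.Agent.P141.PL.H95 (gr mem_gr card_gr)
open Vale.Agent.P141.H315 (dot Grid)
open Vale.Agent.P141.PL.H318
open Vale.Agent.P141.H347
open Vale.Agent.P141.H297
open Vale.Agent.P141.H922

noncomputable section

open scoped Classical

theorem cd_gr (s : ℤ) (k : ℕ) (x : ℤ) : cd (gr 7 s) k x = 2 ^ (k + 7) := by
  unfold cd; rw [card_gr]; push_cast; rfl

theorem cd_gr_succ (s : ℤ) (k : ℕ) (x : ℤ) : cd (gr 7 s) (k + 1) x ≤ 2 * cd (gr 7 s) k x := by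
  rw [cd_gr, cd_gr, show k + 1 + 7 = (k + 7) + 1 by ring, pow_succ]
  linarith

/-- the exits of a hereditary region happen once -/
theorem exit_le_one {ud : ℕ → ℤ → Prop} {Λ : ℕ} (hup : ∀ k < Λ, ∀ x, ud k x → ud (k + 1) x)
    {k₀ : ℕ} (hk : k₀ ≤ Λ) (z : ℤ) :
    ∑ k ∈ range (k₀ + 1), ind (k < Λ ∧ ud (k + 1) z ∧ ¬ ud k z) ≤ 1 := by
  refine sum_ind_le_one _ _ fun i hi i' hi' h h' => ?_
  have key : ∀ a b, a ≤ b → b ≤ Λ → ud a z → ud b z := by
    intro a b hab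
    induction b, hab using Nat.le_induction with
    | base => exact fun _ h => h
    | succ b hab ih => exact fun h1 h2 => hup b (by omega) z (ih (by omega) h2)
  rw [mem_range] at hi hi'
  by_contra hne
  rcases Nat.lt_or_gt_of_ne hne with h1 | h1
  · exact h'.2.2 (key (i + 1) i' (by omega) (by omega) h.2.1)
  · exact h.2.2 (key (i' + 1) i (by omega) (by omega) h'.2.1)

section dig

variable {s : ℤ} {ι : Type*} {J : Type*} [Fintype J] {S : J → CSys (gr 7 s) ι}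
  {w : ∀ j, LW (S j)} {L : ℕ} {e : ℝ} {F : J → ℤ → ℝ} {gd : ℕ → ℤ → Prop}
  {V H : J → ℕ → ℤ → ℝ} {rs : J → ℕ → ℤ → Prop} {lm : J → ℕ → ℤ → ℝ} {C2 : ℝ}

/-- pointwise distance to the value at the top of the window -/
theorem abs_top_sub_le (hP : Paths w L e F gd V H rs lm) (j : J) {Kb e' : ℝ} (hKb : 0 ≤ Kb)
    (hS : SupB (S j) Kb) (he' : 0 ≤ e') {k : ℕ} (hk : k ≤ L) (y : ℤ) :
    |V j (tp w L gd V H rs e' C2 k y) y - V j k y| ≤ Kb * e' := by
  set Λ := tp w L gd V H rs e' C2 k y with hΛ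
  have h1 : Λ ≤ L := tp_le w L gd V H rs e' C2 hk y
  have h2 : k ≤ Λ := le_tp w L gd V H rs e' C2 hk y
  have h3 := V_top_eq (e' := e') (C2 := C2) hP j h1 h2 hΛ.symm ((gr 7 s).mem k y)
  have h4 := Dw_end (C2 := C2) hP he' h1 h2 hΛ.symm
  have h5 : ∑ i ∈ Ico k Λ, dr (S j) i (H j i) y ≤ e' := by
    refine le_trans ?_ h4
    have h6 : ∀ j', 0 ≤ ∑ i ∈ Ico (en w L gd V H rs e' C2 Λ y) Λ, dr (S j') i (H j' i) y :=
      fun j' => sum_nonneg fun i _ => dr_nonneg _ _ _ _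
    refine le_trans ?_ (single_le_sum (fun j' _ => h6 j') (mem_univ j))
    refine sum_le_sum_of_subset_of_nonneg (Ico_subset_Ico_left ?_)
      fun i _ _ => dr_nonneg _ _ _ _
    exact (en_spec h2 hΛ.symm).1
  rw [h3]
  have e1 : V j Λ y - (V j Λ y - ∑ i ∈ Ico k Λ, birth (S j) i (H j i) y) =
      ∑ i ∈ Ico k Λ, birth (S j) i (H j i) y := by ring
  rw [e1]
  calc |∑ i ∈ Ico k Λ, birth (S j) i (H j i) y|
      ≤ ∑ i ∈ Ico k Λ, |birth (S j) i (H j i) y| := abs_sum_le_sum_abs _ _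
    _ ≤ ∑ i ∈ Ico k Λ, Kb * dr (S j) i (H j i) y := sum_le_sum fun i _ =>
        (abs_birth_le hS i _ y).trans (mul_le_mul_of_nonneg_left (den_le_dr _ _ _ _) hKb)
    _ = Kb * ∑ i ∈ Ico k Λ, dr (S j) i (H j i) y := by rw [mul_sum]
    _ ≤ Kb * e' := mul_le_mul_of_nonneg_left h5 hKb

theorem tp_ge {e' : ℝ} {k : ℕ} (hk : L ≤ k) (x : ℤ) : tp w L gd V H rs e' C2 k x = L := by
  unfold tp
  rw [Nat.sub_eq_zero_of_le hk]
  rfl

theorem tp_const' {e' : ℝ} (k : ℕ) {x y : ℤ} (h : y ∈ (gr 7 s).cube k x) :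
    tp w L gd V H rs e' C2 k y = tp w L gd V H rs e' C2 k x := by
  rcases le_total k L with h1 | h1
  · exact tp_const w L gd V H rs e' C2 h1 h
  · rw [tp_ge h1, tp_ge h1]

/-- the digit number `l` -/
def dgt (w : ∀ j, LW (S j)) (L : ℕ) (gd : ℕ → ℤ → Prop) (V H : J → ℕ → ℤ → ℝ)
    (rs : J → ℕ → ℤ → Prop) (C2 e1 : ℝ) (ud : ℕ → ℤ → Prop) (j : J) (l k : ℕ) (y : ℤ) : ℝ :=
  if ud k y then V j (tp w L gd V H rs (e1 / 2 ^ (l + 1)) C2 k y) y -
    V j (tp w L gd V H rs (e1 / 2 ^ l) C2 k y) y else 0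

/-- the events of the digit number `l` -/
def evd (w : ∀ j, LW (S j)) (L : ℕ) (gd : ℕ → ℤ → Prop) (V H : J → ℕ → ℤ → ℝ)
    (rs : J → ℕ → ℤ → Prop) (C2 e1 : ℝ) (ud : ℕ → ℤ → Prop) (Λ l k : ℕ) (y : ℤ) : Prop :=
  (k < Λ ∧ ud (k + 1) y ∧ ¬ ud k y) ∨
    (ud k y ∧ tp w L gd V H rs (e1 / 2 ^ l) C2 k y = k) ∨
    (ud k y ∧ tp w L gd V H rs (e1 / 2 ^ (l + 1)) C2 k y = k)

/-- the energy of the digit number `l` -/
def eng (C2 e1 Kb θ : ℝ) (l : ℕ) : ℝ :=
  (6 * (2 * C2 + 3) * (e1 / 2 ^ l)) ^ (1 - θ) * ((2 * Kb * (e1 / 2 ^ l)) ^ 2) ^ θ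

theorem eng_pos {C2 e1 Kb θ : ℝ} (hC2 : 0 ≤ C2) (he1 : 0 < e1) (hKb : 0 < Kb) (l : ℕ) :
    0 < eng C2 e1 Kb θ l := by
  unfold eng; positivity

variable (hP : Paths w L e F gd V H rs lm) {ud : ℕ → ℤ → Prop} {Λ : ℕ} (hΛL : Λ ≤ L)
  (hud : ∀ k x y, y ∈ (gr 7 s).cube k x → (ud k y ↔ ud k x))
  (hup : ∀ k < Λ, ∀ x, ud k x → ud (k + 1) x)
include hP hΛL hud hup

/-- **A digit is a block family.** -/
theorem cblk_dgt (j : J) {Kb e1 θ κ : ℝ} (hKb : 0 < Kb) (hS : SupB (S j) Kb) (he1 : 0 < e1)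
    (hC2 : 0 ≤ C2) (hθ0 : 0 ≤ θ) (hθ1 : θ ≤ 1) (hκ : 0 ≤ κ) (l : ℕ)
    (hpk : ∀ l, ∀ k₀ ≤ Λ, ∀ x, ud k₀ x → ∑ i ∈ range (k₀ + 1), ∑ z ∈ (gr 7 s).cube k₀ x,
      ind (ud i z ∧ tp w L gd V H rs (e1 / 2 ^ l) C2 i z = i) ≤ κ * 2 ^ l * cd (gr 7 s) k₀ x) :
    CBlk s Λ (dgt w L gd V H rs C2 e1 ud j l) (eng C2 e1 Kb θ l) ((3 * κ + 1) * 2 ^ l)
      (2 * Kb * (e1 / 2 ^ l)) := by
  have he' : ∀ l : ℕ, 0 < e1 / 2 ^ l := fun l => by positivity
  have hhalf : e1 / 2 ^ (l + 1) ≤ e1 / 2 ^ l := by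
    rw [pow_succ, ← div_div]
    linarith [he' l]
  have hsup : ∀ k ≤ Λ, ∀ y, |dgt w L gd V H rs C2 e1 ud j l k y| ≤ 2 * Kb * (e1 / 2 ^ l) := by
    intro k hk y
    unfold dgt
    split_ifs with h
    · have h1 := abs_top_sub_le (C2 := C2) hP j hKb.le hS (he' (l + 1)).le (k := k) (by omega) y
      have h2 := abs_top_sub_le (C2 := C2) hP j hKb.le hS (he' l).le (k := k) (by omega) y
      have h3 : Kb * (e1 / 2 ^ (l + 1)) ≤ Kb * (e1 / 2 ^ l) :=
        mul_le_mul_of_nonneg_left hhalf hKb.le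
      rw [abs_le] at h1 h2 ⊢
      constructor <;> linarith [h1.1, h1.2, h2.1, h2.2]
    · rw [abs_zero]
      have := he' l
      positivity
  refine ⟨⟨evd w L gd V H rs C2 e1 ud Λ l, ?_, ?_, ?_⟩, ?_, hsup⟩
  · intro k x y hy
    unfold evd
    rw [hud k x y hy, hud (k + 1) x y ((gr 7 s).sub k x hy), tp_const' k hy, tp_const' k hy]
  · intro k y hk hev
    unfold evd at hev
    push Not at hev
    obtain ⟨h1, h2, h3⟩ := hev
    unfold dgt
    by_cases hu : ud k y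
    · rw [if_pos hu, if_pos (hup k hk y hu)]
      have h4 := h2 hu
      have h5 := h3 hu
      have hkL : k ≤ L := by omega
      have h6 : k < tp w L gd V H rs (e1 / 2 ^ l) C2 k y :=
        lt_of_le_of_ne (le_tp w L gd V H rs _ C2 hkL y) (Ne.symm h4)
      have h7 : k < tp w L gd V H rs (e1 / 2 ^ (l + 1)) C2 k y :=
        lt_of_le_of_ne (le_tp w L gd V H rs _ C2 hkL y) (Ne.symm h5)
      rw [(stay_of_lt w L gd V H rs _ C2 hkL h6).2.1, (stay_of_lt w L gd V H rs _ C2 hkL h7).2.1]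
    · rw [if_neg hu, if_neg]
      exact fun h => hu (h1 hk h)
  · intro k₀ hk₀ x
    have h1 : ∀ z k, ind (evd w L gd V H rs C2 e1 ud Λ l k z) ≤
        ind (k < Λ ∧ ud (k + 1) z ∧ ¬ ud k z) +
        (ind (ud k z ∧ tp w L gd V H rs (e1 / 2 ^ l) C2 k z = k) +
        ind (ud k z ∧ tp w L gd V H rs (e1 / 2 ^ (l + 1)) C2 k z = k)) := by
      intro z k
      unfold evd
      by_cases a : k < Λ ∧ ud (k + 1) z ∧ ¬ ud k z
      · rw [ind_true (Or.inl a), ind_true a]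
        linarith [ind_nonneg (ud k z ∧ tp w L gd V H rs (e1 / 2 ^ l) C2 k z = k),
          ind_nonneg (ud k z ∧ tp w L gd V H rs (e1 / 2 ^ (l + 1)) C2 k z = k)]
      · by_cases b : ud k z ∧ tp w L gd V H rs (e1 / 2 ^ l) C2 k z = k
        · rw [ind_true (Or.inr (Or.inl b)), ind_true b]
          linarith [ind_nonneg (k < Λ ∧ ud (k + 1) z ∧ ¬ ud k z),
            ind_nonneg (ud k z ∧ tp w L gd V H rs (e1 / 2 ^ (l + 1)) C2 k z = k)]
        · by_cases c : ud k z ∧ tp w L gd V H rs (e1 / 2 ^ (l + 1)) C2 k z = k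
          · rw [ind_true (Or.inr (Or.inr c)), ind_true c]
            linarith [ind_nonneg (k < Λ ∧ ud (k + 1) z ∧ ¬ ud k z),
              ind_nonneg (ud k z ∧ tp w L gd V H rs (e1 / 2 ^ l) C2 k z = k)]
          · rw [ind_false (by tauto)]
            linarith [ind_nonneg (k < Λ ∧ ud (k + 1) z ∧ ¬ ud k z),
              ind_nonneg (ud k z ∧ tp w L gd V H rs (e1 / 2 ^ l) C2 k z = k),
              ind_nonneg (ud k z ∧ tp w L gd V H rs (e1 / 2 ^ (l + 1)) C2 k z = k)]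
    have h2 : ∑ z ∈ (gr 7 s).cube k₀ x, ∑ k ∈ range (k₀ + 1),
        ind (k < Λ ∧ ud (k + 1) z ∧ ¬ ud k z) ≤ 2 ^ (k₀ + 7) := by
      calc _ ≤ ∑ _z ∈ (gr 7 s).cube k₀ x, (1 : ℝ) :=
            sum_le_sum fun z _ => exit_le_one hup hk₀ z
        _ = 2 ^ (k₀ + 7) := by rw [sum_const, card_gr, nsmul_eq_mul, mul_one]; push_cast; rfl
    have h3 : ∀ l', ∑ z ∈ (gr 7 s).cube k₀ x, ∑ k ∈ range (k₀ + 1),
        ind (ud k z ∧ tp w L gd V H rs (e1 / 2 ^ l') C2 k z = k) ≤ κ * 2 ^ l' * 2 ^ (k₀ + 7) := by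
      intro l'
      by_cases hx : ud k₀ x
      · have h4 := hpk l' k₀ hk₀ x hx
        rw [sum_comm, cd_gr] at h4
        exact h4
      · refine le_trans (le_of_eq (sum_eq_zero fun z hz => sum_eq_zero fun k hk => ?_))
          (by positivity)
        refine ind_false fun h => hx ?_
        have hz0 : ud k₀ z := by
          have key : ∀ a b, a ≤ b → b ≤ Λ → ud a z → ud b z := by
            intro a b hab
            induction b, hab using Nat.le_induction with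
            | base => exact fun _ h => h
            | succ b hab ih => exact fun h1 h2 => hup b (by omega) z (ih (by omega) h2)
          exact key k k₀ (by rw [mem_range] at hk; omega) hk₀ h.1
        exact (hud k₀ x z hz).mp hz0
    change ∑ z ∈ (gr 7 s).cube k₀ x, ∑ k ∈ range (k₀ + 1),
      ind (evd w L gd V H rs C2 e1 ud Λ l k z) ≤ _
    calc ∑ z ∈ (gr 7 s).cube k₀ x, ∑ k ∈ range (k₀ + 1),
        ind (evd w L gd V H rs C2 e1 ud Λ l k z)
        ≤ ∑ z ∈ (gr 7 s).cube k₀ x, ∑ k ∈ range (k₀ + 1),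
          (ind (k < Λ ∧ ud (k + 1) z ∧ ¬ ud k z) +
          (ind (ud k z ∧ tp w L gd V H rs (e1 / 2 ^ l) C2 k z = k) +
          ind (ud k z ∧ tp w L gd V H rs (e1 / 2 ^ (l + 1)) C2 k z = k))) :=
          sum_le_sum fun z _ => sum_le_sum fun k _ => h1 z k
      _ ≤ 2 ^ (k₀ + 7) + (κ * 2 ^ l * 2 ^ (k₀ + 7) + κ * 2 ^ (l + 1) * 2 ^ (k₀ + 7)) := by
          simp only [sum_add_distrib]
          exact add_le_add h2 (add_le_add (h3 l) (h3 (l + 1)))
      _ ≤ (3 * κ + 1) * 2 ^ l * 2 ^ (k₀ + 7) := by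
          have h5 : (1 : ℝ) ≤ 2 ^ l := one_le_pow₀ (by norm_num)
          have h6 : (0 : ℝ) < 2 ^ (k₀ + 7) := by positivity
          rw [pow_succ (2 : ℝ) l]
          nlinarith
  · intro k hk x
    rw [← cd_gr s k x]
    have hcd := cd_pos (gr 7 s) k x
    -- the two bounds
    have hA : dot ((gr 7 s).cube k x) (dgt w L gd V H rs C2 e1 ud j l k)
        (dgt w L gd V H rs C2 e1 ud j l k) ≤
        6 * (2 * C2 + 3) * (e1 / 2 ^ l) * cd (gr 7 s) k x := by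
      by_cases hx : ud k x
      · have hv : ∀ l' : ℕ, ∑ y ∈ (gr 7 s).cube k x,
            (V j (tp w L gd V H rs (e1 / 2 ^ l') C2 k y) y - V j k y) ^ 2 ≤
            2 * (2 * C2 + 3) * (e1 / 2 ^ l' * cd (gr 7 s) k x) := by
          intro l'
          have h1 := top_dist (e' := e1 / 2 ^ l') (C2 := C2) hP j (cd_gr_succ s) (he' l').le hC2
            (k := k) (x := x) (tp_le w L gd V H rs _ C2 (by omega) x)
            (le_tp w L gd V H rs _ C2 (by omega) x) rfl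
          refine le_trans (le_of_eq (sum_congr rfl fun y hy => ?_)) h1
          rw [tp_const' k hy]
        have h2 := hv l
        have h3 := hv (l + 1)
        have h4 : (e1 / 2 ^ (l + 1)) * 2 = e1 / 2 ^ l := by
          rw [pow_succ]; field_simp
        calc (dot ((gr 7 s).cube k x) (dgt w L gd V H rs C2 e1 ud j l k)
            (dgt w L gd V H rs C2 e1 ud j l k) : ℝ)
            ≤ ∑ y ∈ (gr 7 s).cube k x,
              (2 * (V j (tp w L gd V H rs (e1 / 2 ^ l) C2 k y) y - V j k y) ^ 2 +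
              2 * (V j (tp w L gd V H rs (e1 / 2 ^ (l + 1)) C2 k y) y - V j k y) ^ 2) := by
              unfold dot
              refine sum_le_sum fun y hy => ?_
              unfold dgt
              rw [if_pos ((hud k x y hy).mpr hx)]
              nlinarith [sq_nonneg ((V j (tp w L gd V H rs (e1 / 2 ^ l) C2 k y) y - V j k y) +
                (V j (tp w L gd V H rs (e1 / 2 ^ (l + 1)) C2 k y) y - V j k y))]
          _ = 2 * ∑ y ∈ (gr 7 s).cube k x,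
              (V j (tp w L gd V H rs (e1 / 2 ^ l) C2 k y) y - V j k y) ^ 2 +
              2 * ∑ y ∈ (gr 7 s).cube k x,
              (V j (tp w L gd V H rs (e1 / 2 ^ (l + 1)) C2 k y) y - V j k y) ^ 2 := by
              rw [sum_add_distrib, mul_sum, mul_sum]
          _ ≤ 6 * (2 * C2 + 3) * (e1 / 2 ^ l) * cd (gr 7 s) k x := by
              rw [← h4] at h2 ⊢
              linarith
      · refine le_trans (le_of_eq (sum_eq_zero fun y hy => ?_)) (by
          have := he' l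
          positivity)
        unfold dgt
        rw [if_neg (fun h => hx ((hud k x y hy).mp h)), mul_zero]
    have hB : dot ((gr 7 s).cube k x) (dgt w L gd V H rs C2 e1 ud j l k)
        (dgt w L gd V H rs C2 e1 ud j l k) ≤
        (2 * Kb * (e1 / 2 ^ l)) ^ 2 * cd (gr 7 s) k x := by
      calc _ ≤ ∑ _y ∈ (gr 7 s).cube k x, (2 * Kb * (e1 / 2 ^ l)) ^ 2 := by
            unfold dot
            refine sum_le_sum fun y _ => ?_
            rw [← sq, ← sq_abs]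
            exact pow_le_pow_left₀ (abs_nonneg _) (hsup k hk y) 2
        _ = _ := by rw [sum_const, nsmul_eq_mul, mul_comm]; rfl
    set D := dot ((gr 7 s).cube k x) (dgt w L gd V H rs C2 e1 ud j l k)
      (dgt w L gd V H rs C2 e1 ud j l k) with hD
    have hD0 : 0 ≤ D / cd (gr 7 s) k x :=
      div_nonneg (Finset.sum_nonneg fun _ _ => mul_self_nonneg _) hcd.le
    rw [← div_le_iff₀ hcd] at hA hB ⊢
    set z := D / cd (gr 7 s) k x
    unfold eng
    calc z = z ^ (1 - θ) * z ^ θ := by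
          rcases hD0.eq_or_lt with h | h
          · rw [← h]
            rcases hθ0.eq_or_lt with h' | h'
            · rw [← h']; norm_num
            · rw [Real.zero_rpow h'.ne', mul_zero]
          · rw [← Real.rpow_add h, sub_add_cancel, Real.rpow_one]
      _ ≤ _ := mul_le_mul (Real.rpow_le_rpow hD0 hA (by linarith))
          (Real.rpow_le_rpow hD0 hB hθ0) (Real.rpow_nonneg hD0 _)
          (Real.rpow_nonneg (by have := he' l; positivity) _)

omit hP hΛL hud hup in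
/-- the size of a digit -/
theorem eng_size {C2 e1 Kb κ ς Lb : ℝ} (hC2 : 0 ≤ C2) (he1 : 0 < e1) (hKb : 0 < Kb) (hκ : 0 ≤ κ)
    (hς0 : 0 < ς) (hς : ς ≤ 1 / 4) (hLb : 1 ≤ Lb) (hKL : Kb ^ 2 * e1 ≤ Lb ^ 2) (l : ℕ) :
    √(eng C2 e1 Kb (4 * ς) l * (1 + 1152 * ((3 * κ + 1) * 2 ^ l))) *
      (1 + 1152 * ((3 * κ + 1) * 2 ^ l)) ^ ς ≤
    √(4 * (6 * (2 * C2 + 3)) * (1153 * (3 * κ + 1))) * (1153 * (3 * κ + 1)) ^ ς * √e1 *
      Lb ^ (4 * ς) * ((2 : ℝ) ^ (-ς)) ^ l := by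
  set α : ℝ := 6 * (2 * C2 + 3) with hα
  set κ' : ℝ := 1153 * (3 * κ + 1) with hκ'
  set θ : ℝ := 4 * ς with hθ
  have hθ0 : 0 < θ := by positivity
  have hθ1 : θ ≤ 1 := by rw [hθ]; linarith
  have hα1 : 1 ≤ α := by rw [hα]; linarith
  have hκ1 : 1 ≤ κ' := by rw [hκ']; linarith
  have hLb0 : 0 < Lb := by linarith
  have hx : (0 : ℝ) < 2 ^ l := by positivity
  have hx1 : (1 : ℝ) ≤ 2 ^ l := one_le_pow₀ (by norm_num)
  have hK' : 1 + 1152 * ((3 * κ + 1) * 2 ^ l) ≤ κ' * 2 ^ l := by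
    rw [hκ']
    nlinarith
  have hK0 : 0 < 1 + 1152 * ((3 * κ + 1) * (2 : ℝ) ^ l) := by positivity
  -- the energy
  have he : eng C2 e1 Kb θ l ≤ α * (4 * Lb ^ (2 * θ)) * e1 * (((2 : ℝ) ^ l)⁻¹) ^ (1 + θ) := by
    unfold eng
    have h1 : (α * (e1 / 2 ^ l)) ^ (1 - θ) ≤ α * e1 ^ (1 - θ) * (((2 : ℝ) ^ l)⁻¹) ^ (1 - θ) := by
      rw [show α * (e1 / 2 ^ l) = α * e1 * ((2 : ℝ) ^ l)⁻¹ by rw [div_eq_mul_inv]; ring,
        Real.mul_rpow (by positivity) (by positivity), Real.mul_rpow (by positivity) he1.le]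
      refine mul_le_mul_of_nonneg_right (mul_le_mul_of_nonneg_right ?_ (by positivity))
        (by positivity)
      calc α ^ (1 - θ) ≤ α ^ (1 : ℝ) :=
            Real.rpow_le_rpow_of_exponent_le hα1 (by linarith)
        _ = α := Real.rpow_one α
    have h2 : ((2 * Kb * (e1 / 2 ^ l)) ^ 2) ^ θ ≤
        4 * Lb ^ (2 * θ) * e1 ^ θ * (((2 : ℝ) ^ l)⁻¹) ^ (2 * θ) := by
      rw [show (2 * Kb * (e1 / 2 ^ l)) ^ 2 = 4 * (Kb ^ 2 * e1) * e1 * (((2 : ℝ) ^ l)⁻¹) ^ 2 by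
        rw [div_eq_mul_inv]; ring,
        Real.mul_rpow (by positivity) (by positivity),
        Real.mul_rpow (by positivity) he1.le, Real.mul_rpow (by norm_num) (by positivity)]
      have h3 : (4 : ℝ) ^ θ ≤ 4 := by
        calc (4 : ℝ) ^ θ ≤ 4 ^ (1 : ℝ) :=
              Real.rpow_le_rpow_of_exponent_le (by norm_num) hθ1
          _ = 4 := Real.rpow_one 4
      have h4 : (Kb ^ 2 * e1) ^ θ ≤ Lb ^ (2 * θ) := by
        calc (Kb ^ 2 * e1) ^ θ ≤ (Lb ^ 2) ^ θ :=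
              Real.rpow_le_rpow (by positivity) hKL hθ0.le
          _ = Lb ^ (2 * θ) := by
              rw [← Real.rpow_natCast, ← Real.rpow_mul hLb0.le]; norm_num
      have h5 : ((((2 : ℝ) ^ l)⁻¹) ^ 2) ^ θ = (((2 : ℝ) ^ l)⁻¹) ^ (2 * θ) := by
        rw [← Real.rpow_natCast, ← Real.rpow_mul (by positivity)]; norm_num
      rw [h5]
      refine mul_le_mul_of_nonneg_right (mul_le_mul_of_nonneg_right ?_ (by positivity))
        (by positivity)
      exact mul_le_mul h3 h4 (by positivity) (by norm_num)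
    refine (mul_le_mul h1 h2 (by positivity) (by positivity)).trans (le_of_eq ?_)
    have h6 : e1 ^ (1 - θ) * e1 ^ θ = e1 := by
      rw [← Real.rpow_add he1, sub_add_cancel, Real.rpow_one]
    have h7 : (((2 : ℝ) ^ l)⁻¹) ^ (1 - θ) * (((2 : ℝ) ^ l)⁻¹) ^ (2 * θ) =
        (((2 : ℝ) ^ l)⁻¹) ^ (1 + θ) := by
      rw [← Real.rpow_add (by positivity)]
      congr 1
      ring
    calc α * e1 ^ (1 - θ) * (((2 : ℝ) ^ l)⁻¹) ^ (1 - θ) *
          (4 * Lb ^ (2 * θ) * e1 ^ θ * (((2 : ℝ) ^ l)⁻¹) ^ (2 * θ))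
        = α * (4 * Lb ^ (2 * θ)) * (e1 ^ (1 - θ) * e1 ^ θ) *
          ((((2 : ℝ) ^ l)⁻¹) ^ (1 - θ) * (((2 : ℝ) ^ l)⁻¹) ^ (2 * θ)) := by ring
      _ = _ := by rw [h6, h7]
  have hprod : eng C2 e1 Kb θ l * (1 + 1152 * ((3 * κ + 1) * 2 ^ l)) ≤
      4 * α * κ' * e1 * (Lb ^ (4 * ς) * (2 : ℝ) ^ (-(2 * ς) * l)) ^ 2 := by
    refine (mul_le_mul he hK' hK0.le (by positivity)).trans (le_of_eq ?_)
    have h1 : (((2 : ℝ) ^ l)⁻¹) ^ (1 + θ) * 2 ^ l = (2 : ℝ) ^ (-(θ * l)) := by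
      rw [← Real.rpow_natCast, ← Real.rpow_neg (by norm_num), ← Real.rpow_mul (by norm_num),
        ← Real.rpow_add (by norm_num)]
      congr 1
      ring
    have h2 : Lb ^ (2 * θ) = (Lb ^ (4 * ς)) ^ 2 := by
      rw [← Real.rpow_natCast, ← Real.rpow_mul hLb0.le]
      congr 1
      rw [hθ]; push_cast; ring
    have h3 : (2 : ℝ) ^ (-(θ * l)) = ((2 : ℝ) ^ (-(2 * ς) * l)) ^ 2 := by
      rw [← Real.rpow_natCast _ 2, ← Real.rpow_mul (by norm_num)]
      congr 1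
      rw [hθ]; push_cast; ring
    calc α * (4 * Lb ^ (2 * θ)) * e1 * (((2 : ℝ) ^ l)⁻¹) ^ (1 + θ) * (κ' * 2 ^ l)
        = 4 * α * κ' * e1 * (Lb ^ (2 * θ) * ((((2 : ℝ) ^ l)⁻¹) ^ (1 + θ) * 2 ^ l)) := by ring
      _ = _ := by rw [h1, h2, h3]; ring
  have hsq : √(eng C2 e1 Kb θ l * (1 + 1152 * ((3 * κ + 1) * 2 ^ l))) ≤
      √(4 * α * κ') * √e1 * (Lb ^ (4 * ς) * (2 : ℝ) ^ (-(2 * ς) * l)) := by
    refine (Real.sqrt_le_sqrt hprod).trans (le_of_eq ?_)
    rw [Real.sqrt_mul (by positivity), Real.sqrt_mul (by positivity), Real.sqrt_sq (by positivity)]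
  have hKς : (1 + 1152 * ((3 * κ + 1) * (2 : ℝ) ^ l)) ^ ς ≤ κ' ^ ς * (2 : ℝ) ^ (ς * l) := by
    calc _ ≤ (κ' * 2 ^ l) ^ ς := Real.rpow_le_rpow hK0.le hK' hς0.le
      _ = κ' ^ ς * (2 : ℝ) ^ (ς * l) := by
          rw [Real.mul_rpow (by positivity) hx.le, ← Real.rpow_natCast,
            ← Real.rpow_mul (by norm_num)]
          congr 2
          ring
  refine (mul_le_mul hsq hKς (by positivity) (by positivity)).trans (le_of_eq ?_)
  have h1 : (2 : ℝ) ^ (-(2 * ς) * l) * (2 : ℝ) ^ (ς * l) = ((2 : ℝ) ^ (-ς)) ^ l := by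
    rw [← Real.rpow_add (by norm_num), ← Real.rpow_natCast _ l, ← Real.rpow_mul (by norm_num)]
    congr 1
    ring
  rw [← h1]
  ring

/-- the constant of the digits -/
def Cdig (C2 κ ς : ℝ) : ℝ := √(4 * (6 * (2 * C2 + 3)) * (1153 * (3 * κ + 1))) *
  (1153 * (3 * κ + 1)) ^ ς * (1 - (2 : ℝ) ^ (-ς))⁻¹

/-- **A path minus its value at the top of the window is a moving slot.** -/
theorem cslot_dig (j : J) {Kb e1 κ ς Lb Lh : ℝ} (hKb : 0 < Kb) (hS : SupB (S j) Kb)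
    (he1 : 0 < e1) (hC2 : 0 ≤ C2) (hς0 : 0 < ς) (hς : ς ≤ 1 / 4) (hκ : 0 ≤ κ) (hLb : 1 ≤ Lb)
    (hLbh : Lb ≤ Lh) (hKL : Kb ^ 2 * e1 ≤ Lb ^ 2)
    (hpk : ∀ l, ∀ k₀ ≤ Λ, ∀ x, ud k₀ x → ∑ i ∈ range (k₀ + 1), ∑ z ∈ (gr 7 s).cube k₀ x,
      ind (ud i z ∧ tp w L gd V H rs (e1 / 2 ^ l) C2 i z = i) ≤ κ * 2 ^ l * cd (gr 7 s) k₀ x) :
    CSlot s Λ (fun k y => if ud k y then V j k y - V j (tp w L gd V H rs e1 C2 k y) y else 0)
      ς Lh (Cdig C2 κ ς * √e1 * Lb ^ (4 * ς)) := by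
  have he' : ∀ l : ℕ, 0 < e1 / 2 ^ l := fun l => by positivity
  have hθ1 : 4 * ς ≤ 1 := by linarith
  refine ⟨dgt w L gd V H rs C2 e1 ud j, eng C2 e1 Kb (4 * ς), fun l => (3 * κ + 1) * 2 ^ l,
    fun l => 2 * Kb * (e1 / 2 ^ l), fun l => cblk_dgt hP hΛL hud hup j hKb hS he1 hC2
      (by positivity) hθ1 hκ l hpk, fun l => eng_pos hC2 he1 hKb l, fun l => by positivity,
    fun l => by have := he' l; positivity, ?_, ?_, ?_⟩
  · intro l
    -- relative heights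
    set a : ℝ := 6 * (2 * C2 + 3) * (e1 / 2 ^ l) with ha
    set h : ℝ := 2 * Kb * (e1 / 2 ^ l) with hh
    have ha0 : 0 < a := by have := he' l; positivity
    have hh0 : 0 < h := by have := he' l; positivity
    have h1 : h ^ 2 ≤ a * Lh ^ 2 := by
      have h2 : Kb ^ 2 * (e1 / 2 ^ l) ≤ Lh ^ 2 := by
        have h3 : e1 / 2 ^ l ≤ e1 := div_le_self he1.le (one_le_pow₀ (by norm_num))
        have h4 : Kb ^ 2 * (e1 / 2 ^ l) ≤ Kb ^ 2 * e1 :=
          mul_le_mul_of_nonneg_left h3 (by positivity)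
        have h5 : Lb ^ 2 ≤ Lh ^ 2 := pow_le_pow_left₀ (by linarith) hLbh 2
        linarith
      have h6 := he' l
      calc h ^ 2 = 4 * (e1 / 2 ^ l) * (Kb ^ 2 * (e1 / 2 ^ l)) := by rw [hh]; ring
        _ ≤ 4 * (e1 / 2 ^ l) * Lh ^ 2 := mul_le_mul_of_nonneg_left h2 (by positivity)
        _ ≤ a * Lh ^ 2 := by
            refine mul_le_mul_of_nonneg_right ?_ (by positivity)
            rw [ha]; nlinarith
    have hLh1 : 1 ≤ Lh := hLb.trans hLbh
    -- `h ^ 2 ≤ Lh ^ 2 * eng`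
    have h7 : h ^ 2 ≤ Lh ^ 2 * eng C2 e1 Kb (4 * ς) l := by
      unfold eng
      rw [← ha, ← hh]
      have h8 : h ^ 2 = (h ^ 2) ^ (1 - 4 * ς) * (h ^ 2) ^ (4 * ς) := by
        rw [← Real.rpow_add (by positivity), sub_add_cancel, Real.rpow_one]
      have h9 : (h ^ 2) ^ (1 - 4 * ς) ≤ a ^ (1 - 4 * ς) * Lh ^ 2 := by
        calc (h ^ 2) ^ (1 - 4 * ς) ≤ (a * Lh ^ 2) ^ (1 - 4 * ς) :=
              Real.rpow_le_rpow (by positivity) h1 (by linarith)
          _ = a ^ (1 - 4 * ς) * (Lh ^ 2) ^ (1 - 4 * ς) :=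
              Real.mul_rpow ha0.le (by positivity)
          _ ≤ a ^ (1 - 4 * ς) * Lh ^ 2 := by
              refine mul_le_mul_of_nonneg_left ?_ (by positivity)
              have h10 : 1 ≤ Lh ^ 2 := one_le_pow₀ hLh1
              calc (Lh ^ 2) ^ (1 - 4 * ς) ≤ (Lh ^ 2) ^ (1 : ℝ) :=
                    Real.rpow_le_rpow_of_exponent_le h10 (by linarith)
                _ = Lh ^ 2 := Real.rpow_one _
      calc h ^ 2 = (h ^ 2) ^ (1 - 4 * ς) * (h ^ 2) ^ (4 * ς) := h8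
        _ ≤ a ^ (1 - 4 * ς) * Lh ^ 2 * (h ^ 2) ^ (4 * ς) :=
            mul_le_mul_of_nonneg_right h9 (by positivity)
        _ = _ := by ring
    have h11 := Real.sqrt_le_sqrt h7
    rwa [Real.sqrt_sq hh0.le, Real.sqrt_mul (by positivity), Real.sqrt_sq (by linarith)] at h11
  · intro M
    have h1 : ∀ l ∈ range M, √(eng C2 e1 Kb (4 * ς) l * (1 + 1152 * ((3 * κ + 1) * 2 ^ l))) *
        (1 + 1152 * ((3 * κ + 1) * 2 ^ l)) ^ ς ≤
        √(4 * (6 * (2 * C2 + 3)) * (1153 * (3 * κ + 1))) * (1153 * (3 * κ + 1)) ^ ς * √e1 *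
        Lb ^ (4 * ς) * ((2 : ℝ) ^ (-ς)) ^ l := fun l _ =>
      eng_size hC2 he1 hKb hκ hς0 hς hLb hKL l
    refine (sum_le_sum h1).trans ?_
    rw [← mul_sum]
    have hr0 : (0 : ℝ) < 2 ^ (-ς) := Real.rpow_pos_of_pos (by norm_num) _
    have hr1 : (2 : ℝ) ^ (-ς) < 1 :=
      Real.rpow_lt_one_of_one_lt_of_neg (by norm_num) (by linarith)
    have h2 : ∑ l ∈ range M, ((2 : ℝ) ^ (-ς)) ^ l ≤ (1 - (2 : ℝ) ^ (-ς))⁻¹ := by
      rw [← tsum_geometric_of_lt_one hr0.le hr1]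
      exact (summable_geometric_of_lt_one hr0.le hr1).sum_le_tsum _
        fun _ _ => pow_nonneg hr0.le _
    refine (mul_le_mul_of_nonneg_left h2 (by positivity)).trans (le_of_eq ?_)
    unfold Cdig
    ring
  · intro k hk y
    by_cases hu : ud k y
    · have e1' : ∀ M : ℕ, ∑ l ∈ range M, dgt w L gd V H rs C2 e1 ud j l k y =
          V j (tp w L gd V H rs (e1 / 2 ^ M) C2 k y) y -
          V j (tp w L gd V H rs (e1 / 2 ^ 0) C2 k y) y := by
        intro M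
        have h1 : ∀ l ∈ range M, dgt w L gd V H rs C2 e1 ud j l k y =
            (fun l : ℕ => V j (tp w L gd V H rs (e1 / 2 ^ l) C2 k y) y) (l + 1) -
            (fun l : ℕ => V j (tp w L gd V H rs (e1 / 2 ^ l) C2 k y) y) l := by
          intro l _
          unfold dgt
          rw [if_pos hu]
        rw [sum_congr rfl h1]
        exact sum_range_sub
          (fun l : ℕ => V j (tp w L gd V H rs (e1 / 2 ^ l) C2 k y) y) M
      simp only [if_pos hu, e1']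
      have e0 : e1 / 2 ^ 0 = e1 := by rw [pow_zero, div_one]
      rw [e0]
      refine Filter.Tendsto.sub_const ?_ _
      rw [tendsto_iff_norm_sub_tendsto_zero]
      have h2 : Filter.Tendsto (fun M : ℕ => Kb * (e1 * (1 / 2 : ℝ) ^ M)) Filter.atTop
          (nhds (Kb * (e1 * 0))) :=
        ((tendsto_pow_atTop_nhds_zero_of_lt_one (by norm_num) (by norm_num)).const_mul e1).const_mul
          Kb
      rw [mul_zero, mul_zero] at h2
      refine squeeze_zero (fun M => norm_nonneg _) (fun M => ?_) h2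
      rw [Real.norm_eq_abs]
      refine (abs_top_sub_le (C2 := C2) hP j hKb.le hS (he' M).le (k := k) (by omega) y).trans
        (le_of_eq ?_)
      rw [one_div, inv_pow, div_eq_mul_inv]
    · have h0 : ∀ M : ℕ, ∑ l ∈ range M, dgt w L gd V H rs C2 e1 ud j l k y = 0 := fun M =>
        sum_eq_zero fun l _ => by unfold dgt; rw [if_neg hu]
      simp only [if_neg hu, h0]
      exact tendsto_const_nhds

end dig

end

end Vale.Agent.P141.PL.H855
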