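import Vale.Agent.P141.H8.Lab
import Vale.Agent.P141.PL.H855.Slots
import Vale.Agent.P141.PL.H95.Grid

/-!
# P141, line W: totals of four moving slots on a region

`N4 g α`: the values of the nodes, a four-linear expression read on the cube of the node, all the
slots on the same footing.  `TR nv ud A`: the total of the nodes of the region `ud`.
`N4.toNV σ`: the format `NV` of `H8.Cell`.
-/

namespace Vale.Agent.P141.PL.H855

open Finset Function
open Vale.Agent.P141.PL.H571 (W)
open Vale.Agent.P141.PL.H95 (gr)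
open Vale.Agent.P141.H315
open Vale.Agent.P141.H8

noncomputable section

open scoped Classical

/-- Node values: the node `N` is read on the cube `(sc N, pt N)`; four-linear. -/
structure N4 {X : Type*} (g : Grid X) (α : Type*) where
  /-- the nodes -/
  nd : Finset α
  /-- the scale of a node -/
  sc : α → ℕ
  /-- the cell of a node -/
  pt : α → X
  /-- the value of a node -/
  v : α → (Fin 4 → X → ℝ) → ℝ
  add : ∀ N A j a b, v N (update A j (a + b)) = v N (update A j a) + v N (update A j b)
  smul : ∀ N A j (c : ℝ) a, v N (update A j (c • a)) = c * v N (update A j a)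
  congr : ∀ N A B, (∀ j, ∀ y ∈ g.cube (sc N) (pt N), A j y = B j y) → v N A = v N B

variable {X α : Type*} {g : Grid X}

/-- the total of a region -/
def TR (nv : N4 g α) (ud : ℕ → X → Prop) (A : Fin 4 → ℕ → X → ℝ) : ℝ :=
  ∑ N ∈ nv.nd, if ud (nv.sc N) (nv.pt N) then |nv.v N (fun j => A j (nv.sc N))| else 0

variable {nv : N4 g α} {ud ud' : ℕ → X → Prop}

theorem TR_nonneg (A : Fin 4 → ℕ → X → ℝ) : 0 ≤ TR nv ud A :=
  sum_nonneg fun N _ => by split_ifs; exacts [abs_nonneg _, le_rfl]

theorem TR_congr {A B : Fin 4 → ℕ → X → ℝ}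
    (h : ∀ k y, ud k y → ∀ j, ∀ z ∈ g.cube k y, A j k z = B j k z) : TR nv ud A = TR nv ud B := by
  unfold TR
  refine sum_congr rfl fun N _ => ?_
  split_ifs with hu
  · rw [nv.congr N _ _ fun j y hy => h _ _ hu j y hy]
  · rfl

theorem TR_mono (h : ∀ k y, ud k y → ud' k y) (A : Fin 4 → ℕ → X → ℝ) :
    TR nv ud A ≤ TR nv ud' A := by
  unfold TR
  refine sum_le_sum fun N _ => ?_
  by_cases h1 : ud (nv.sc N) (nv.pt N)
  · rw [if_pos h1, if_pos (h _ _ h1)]
  · rw [if_neg h1]
    split_ifs
    exacts [abs_nonneg _, le_rfl]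

theorem TR_region_congr (h : ∀ k y, ud k y ↔ ud' k y) (A : Fin 4 → ℕ → X → ℝ) :
    TR nv ud A = TR nv ud' A :=
  le_antisymm (TR_mono (fun k y => (h k y).1) A) (TR_mono (fun k y => (h k y).2) A)

theorem upd_sc (A : Fin 4 → ℕ → X → ℝ) (j : Fin 4) (B : ℕ → X → ℝ) (k : ℕ) :
    (fun i => update A j B i k) = update (fun i => A i k) j (B k) := by
  funext i
  by_cases h : i = j
  · subst h; simp only [update_self]
  · simp only [update_of_ne h]

theorem TR_add (A : Fin 4 → ℕ → X → ℝ) (j : Fin 4) (B C : ℕ → X → ℝ) :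
    TR nv ud (update A j (B + C)) ≤ TR nv ud (update A j B) + TR nv ud (update A j C) := by
  unfold TR
  rw [← sum_add_distrib]
  refine sum_le_sum fun N _ => ?_
  split_ifs
  · rw [upd_sc, upd_sc, upd_sc, Pi.add_apply, nv.add]; exact abs_add_le _ _
  · simp

theorem TR_smul (A : Fin 4 → ℕ → X → ℝ) (j : Fin 4) (c : ℝ) (B : ℕ → X → ℝ) :
    TR nv ud (update A j (c • B)) = |c| * TR nv ud (update A j B) := by
  unfold TR
  rw [mul_sum]
  refine sum_congr rfl fun N _ => ?_
  split_ifs
  · rw [upd_sc, upd_sc, Pi.smul_apply, nv.smul, abs_mul]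
  · simp

theorem TR_neg (A : Fin 4 → ℕ → X → ℝ) (j : Fin 4) (B : ℕ → X → ℝ) :
    TR nv ud (update A j (-B)) = TR nv ud (update A j B) := by
  have h := TR_smul (nv := nv) (ud := ud) A j (-1) B
  rwa [neg_one_smul, abs_neg, abs_one, one_mul] at h

theorem TR_zero (A : Fin 4 → ℕ → X → ℝ) (j : Fin 4) : TR nv ud (update A j 0) = 0 := by
  have h := TR_smul (nv := nv) (ud := ud) A j 0 0
  rwa [smul_zero, abs_zero, zero_mul] at h

theorem TR_sub (A : Fin 4 → ℕ → X → ℝ) (j : Fin 4) (B C : ℕ → X → ℝ) :
    TR nv ud (update A j (B - C)) ≤ TR nv ud (update A j B) + TR nv ud (update A j C) := by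
  rw [sub_eq_add_neg, ← TR_neg A j C]
  exact TR_add A j B (-C)

theorem TR_sum {κ : Type*} (s : Finset κ) (A : Fin 4 → ℕ → X → ℝ) (j : Fin 4)
    (B : κ → ℕ → X → ℝ) :
    TR nv ud (update A j (∑ i ∈ s, B i)) ≤ ∑ i ∈ s, TR nv ud (update A j (B i)) := by
  induction s using Finset.induction_on with
  | empty => rw [sum_empty, sum_empty, TR_zero]
  | insert i s hi ih =>
    rw [sum_insert hi, sum_insert hi]
    exact (TR_add A j _ _).trans (add_le_add le_rfl ih)

/-- the node values of a linear combination -/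
theorem v_sum {κ : Type*} (s : Finset κ) (N : α) (A : Fin 4 → X → ℝ) (j : Fin 4) (r : κ → ℝ)
    (c : κ → X → ℝ) :
    nv.v N (update A j (∑ i ∈ s, r i • c i)) = ∑ i ∈ s, r i * nv.v N (update A j (c i)) := by
  induction s using Finset.induction_on with
  | empty =>
    rw [sum_empty, sum_empty]
    have := nv.smul N A j 0 0
    rwa [zero_smul, zero_mul] at this
  | insert i s hi ih => rw [sum_insert hi, sum_insert hi, nv.add, nv.smul, ih]

/-- the total of a region is the sum of the totals of the parts -/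
theorem TR_split {κ : Type*} (s : Finset κ) (p : κ → ℕ → X → Prop)
    (h : ∀ k y, ud k y → ∃ i ∈ s, p i k y) (A : Fin 4 → ℕ → X → ℝ) :
    TR nv ud A ≤ ∑ i ∈ s, TR nv (p i) A := by
  unfold TR
  rw [sum_comm]
  refine sum_le_sum fun N _ => ?_
  by_cases h1 : ud (nv.sc N) (nv.pt N)
  · rw [if_pos h1]
    obtain ⟨i, hi, hp⟩ := h _ _ h1
    have h2 := single_le_sum (f := fun i => if p i (nv.sc N) (nv.pt N) then
      |nv.v N (fun j => A j (nv.sc N))| else 0)
      (fun i _ => by split_ifs; exacts [abs_nonneg _, le_rfl]) hi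
    simp only [if_pos hp] at h2
    exact h2
  · rw [if_neg h1]
    exact sum_nonneg fun i _ => by split_ifs; exacts [abs_nonneg _, le_rfl]

/-- the format of `H8.Cell` -/
def N4.toNV (nv : N4 g α) (σ : Equiv.Perm (Fin 4)) : NV g α where
  nd := nv.nd
  sc := nv.sc
  pt := nv.pt
  v N a b c d := nv.v N (fun j => ![a, b, c, d] (σ j))
  add1 N a a' b c d := by
    have h := nv.add N (fun j => ![a, b, c, d] (σ j)) (σ.symm 0) a a'
    have key : ∀ x : X → ℝ, update (fun j => ![a, b, c, d] (σ j)) (σ.symm 0) x =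
        fun j => ![x, b, c, d] (σ j) := by
      intro x
      funext j
      by_cases hj : j = σ.symm 0
      · subst hj; rw [update_self, Equiv.apply_symm_apply]; rfl
      · rw [update_of_ne hj]
        have : σ j ≠ 0 := fun h0 => hj (by rw [← h0, Equiv.symm_apply_apply])
        generalize σ j = m at *
        fin_cases m <;> simp_all
    rw [key, key, key] at h
    exact h
  add3 N a b c c' d := by
    have h := nv.add N (fun j => ![a, b, c, d] (σ j)) (σ.symm 2) c c'
    have key : ∀ x : X → ℝ, update (fun j => ![a, b, c, d] (σ j)) (σ.symm 2) x =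
        fun j => ![a, b, x, d] (σ j) := by
      intro x
      funext j
      by_cases hj : j = σ.symm 2
      · subst hj; rw [update_self, Equiv.apply_symm_apply]; rfl
      · rw [update_of_ne hj]
        have : σ j ≠ 2 := fun h0 => hj (by rw [← h0, Equiv.symm_apply_apply])
        generalize σ j = m at *
        fin_cases m <;> simp_all
    rw [key, key, key] at h
    exact h
  add4 N a b c d d' := by
    have h := nv.add N (fun j => ![a, b, c, d] (σ j)) (σ.symm 3) d d'
    have key : ∀ x : X → ℝ, update (fun j => ![a, b, c, d] (σ j)) (σ.symm 3) x =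
        fun j => ![a, b, c, x] (σ j) := by
      intro x
      funext j
      by_cases hj : j = σ.symm 3
      · subst hj; rw [update_self, Equiv.apply_symm_apply]; rfl
      · rw [update_of_ne hj]
        have : σ j ≠ 3 := fun h0 => hj (by rw [← h0, Equiv.symm_apply_apply])
        generalize σ j = m at *
        fin_cases m <;> simp_all
    rw [key, key, key] at h
    exact h
  smul3 N r a b c d := by
    have h := nv.smul N (fun j => ![a, b, c, d] (σ j)) (σ.symm 2) r c
    have key : ∀ x : X → ℝ, update (fun j => ![a, b, c, d] (σ j)) (σ.symm 2) x =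
        fun j => ![a, b, x, d] (σ j) := by
      intro x
      funext j
      by_cases hj : j = σ.symm 2
      · subst hj; rw [update_self, Equiv.apply_symm_apply]; rfl
      · rw [update_of_ne hj]
        have : σ j ≠ 2 := fun h0 => hj (by rw [← h0, Equiv.symm_apply_apply])
        generalize σ j = m at *
        fin_cases m <;> simp_all
    rw [key, key] at h
    exact h
  smul4 N r a b c d := by
    have h := nv.smul N (fun j => ![a, b, c, d] (σ j)) (σ.symm 3) r d
    have key : ∀ x : X → ℝ, update (fun j => ![a, b, c, d] (σ j)) (σ.symm 3) x =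
        fun j => ![a, b, c, x] (σ j) := by
      intro x
      funext j
      by_cases hj : j = σ.symm 3
      · subst hj; rw [update_self, Equiv.apply_symm_apply]; rfl
      · rw [update_of_ne hj]
        have : σ j ≠ 3 := fun h0 => hj (by rw [← h0, Equiv.symm_apply_apply])
        generalize σ j = m at *
        fin_cases m <;> simp_all
    rw [key, key] at h
    exact h
  congr N a a' b b' c c' d d' h := by
    refine nv.congr N _ _ fun j y hy => ?_
    obtain ⟨h1, h2, h3, h4⟩ := h y hy
    generalize σ j = m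
    fin_cases m <;> simp [h1, h2, h3, h4]

theorem T4_toNV (σ : Equiv.Perm (Fin 4)) (A B C D : ℕ → X → ℝ) :
    T4 (nv.toNV σ) ud A B C D = TR nv ud (fun j => ![A, B, C, D] (σ j)) := by
  unfold T4 TR
  refine sum_congr rfl fun N _ => ?_
  have : (fun j => ![A (nv.sc N), B (nv.sc N), C (nv.sc N), D (nv.sc N)] (σ j)) =
      fun j => (![A, B, C, D] (σ j)) (nv.sc N) := by
    funext j
    generalize σ j = m
    fin_cases m <;> rfl
  show (if ud (nv.sc N) (nv.pt N) then |nv.v N (fun j =>
    ![A (nv.sc N), B (nv.sc N), C (nv.sc N), D (nv.sc N)] (σ j))| else 0) = _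
  rw [this]

/-- the nodes of the model on the cells of `gr 7 s` -/
def n4T (s : ℤ) {o : ℤ} (ho : o = 1 ∨ o = -1) (nd : Finset (ℕ × ℤ)) (le : ℕ × ℤ → ℤ)
    (hsub : ∀ N ∈ nd, W N.1 N.2 ⊆ (gr 7 s).cube N.1 (le N)) : N4 (gr 7 s) (ℕ × ℤ) where
  nd := nd
  sc := Prod.fst
  pt := le
  v N A := if N ∈ nd then wN o A N else 0
  add N A j a b := by
    split_ifs
    · exact wN_update_add o A j a b N
    · simp
  smul N A j c a := by
    split_ifs
    · exact wN_update_smul o A j c a N
    · simp
  congr N A B h := by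
    split_ifs with hN
    · exact wN_congr ho fun j y hy => h j y (hsub N hN hy)
    · rfl

theorem TR_n4T {s : ℤ} {o : ℤ} (ho : o = 1 ∨ o = -1) {nd : Finset (ℕ × ℤ)} {le : ℕ × ℤ → ℤ}
    (hsub : ∀ N ∈ nd, W N.1 N.2 ⊆ (gr 7 s).cube N.1 (le N)) (ud : ℕ → ℤ → Prop)
    (A : Fin 4 → ℕ → ℤ → ℝ) : TR (n4T s ho nd le hsub) ud A =
      TT o (nd.filter fun N => ud N.1 (le N)) (fun j N => A j N.1) := by
  unfold TR TT
  rw [sum_filter]
  refine sum_congr rfl fun N hN => ?_
  show (if ud N.1 (le N) then |if N ∈ nd then wN o (fun j => A j N.1) N else 0| else 0) = _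
  rw [if_pos hN]

end

end Vale.Agent.P141.PL.H855
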