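import Vale.Agent.P141.PL.H855.StepDefs
import Vale.Agent.P141.H8.Alive

/-!
# P141, line W: orders of the slots, births alive pay in any slot
-/

namespace Vale.Agent.P141.PL.H855

open Finset Function
open Vale.Agent.P141.H315 Vale.Agent.P141.PL.H318 Vale.Agent.P141.H347 Vale.Agent.P141.H297
open Vale.Agent.P141.H8

noncomputable section

open scoped Classical

section slots

variable {T : Type*} (σ : Equiv.Perm (Fin 4)) (A B C D E : T)

theorem ord0 : update (fun j => ![A, B, C, D] (σ j)) (σ.symm 0) E =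
    fun j => ![E, B, C, D] (σ j) := by
  funext j
  by_cases hj : j = σ.symm 0
  · subst hj; rw [update_self, Equiv.apply_symm_apply]; rfl
  · rw [update_of_ne hj]
    have : σ j ≠ 0 := fun h0 => hj (by rw [← h0, Equiv.symm_apply_apply])
    generalize σ j = m at *
    fin_cases m <;> simp_all

theorem ord1 : update (fun j => ![A, B, C, D] (σ j)) (σ.symm 1) E =
    fun j => ![A, E, C, D] (σ j) := by
  funext j
  by_cases hj : j = σ.symm 1
  · subst hj; rw [update_self, Equiv.apply_symm_apply]; rfl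
  · rw [update_of_ne hj]
    have : σ j ≠ 1 := fun h0 => hj (by rw [← h0, Equiv.symm_apply_apply])
    generalize σ j = m at *
    fin_cases m <;> simp_all

theorem ord2 : update (fun j => ![A, B, C, D] (σ j)) (σ.symm 2) E =
    fun j => ![A, B, E, D] (σ j) := by
  funext j
  by_cases hj : j = σ.symm 2
  · subst hj; rw [update_self, Equiv.apply_symm_apply]; rfl
  · rw [update_of_ne hj]
    have : σ j ≠ 2 := fun h0 => hj (by rw [← h0, Equiv.symm_apply_apply])
    generalize σ j = m at *
    fin_cases m <;> simp_all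

theorem ord3 : update (fun j => ![A, B, C, D] (σ j)) (σ.symm 3) E =
    fun j => ![A, B, C, E] (σ j) := by
  funext j
  by_cases hj : j = σ.symm 3
  · subst hj; rw [update_self, Equiv.apply_symm_apply]; rfl
  · rw [update_of_ne hj]
    have : σ j ≠ 3 := fun h0 => hj (by rw [← h0, Equiv.symm_apply_apply])
    generalize σ j = m at *
    fin_cases m <;> simp_all

variable {σ} in
/-- any slot as the third one -/
theorem upd_ord {m : Fin 4} (h : σ m = 2) (A : Fin 4 → T) (B : T) :
    update A m B = fun j => ![A (σ.symm 0), A (σ.symm 1), B, A (σ.symm 3)] (σ j) := by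
  funext j
  by_cases hj : j = m
  · subst hj; rw [update_self, h]; rfl
  · rw [update_of_ne hj]
    have h2 : σ j ≠ 2 := fun h0 => hj (σ.injective (h0.trans h.symm))
    have h3 : j = σ.symm (σ j) := (Equiv.symm_apply_apply σ j).symm
    generalize σ j = i at *
    subst h3
    fin_cases i <;> simp_all

end slots

variable {X ι α : Type*} {g : Grid X} {nv : N4 g α}

theorem TR_upd {σ : Equiv.Perm (Fin 4)} {m : Fin 4} (h : σ m = 2) (ud : ℕ → X → Prop)
    (A : Fin 4 → ℕ → X → ℝ) (B : ℕ → X → ℝ) : TR nv ud (update A m B) =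
      T4 (nv.toNV σ) ud (A (σ.symm 0)) (A (σ.symm 1)) B (A (σ.symm 3)) := by
  rw [T4_toNV, upd_ord h]

theorem swap_two (m : Fin 4) : Equiv.swap m 2 m = 2 := Equiv.swap_apply_left m 2

variable {S : CSys g ι} {w : LW S} {L : ℕ} {e : ℝ} {F : X → ℝ} {gd : ℕ → X → Prop}
  {V H : ℕ → X → ℝ} {rs : ℕ → X → Prop} {lm : ℕ → X → ℝ}

/-- **The births alive pay**, any slot. -/
theorem TR_alive (hP : Pth w L e F gd V H rs lm)
    (hc : ∀ k x y, y ∈ g.cube k x → (gd k y ↔ gd k x)) (hu : ∀ k < L, ∀ x, gd k x → gd (k + 1) x)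
    {gd0 ud' : ℕ → X → Prop} {L' : ℕ} {x' : X} (hR : Rgn g gd0 L' x' ud') (hL : L' ≤ L)
    (hg : gd L' x') (A : Fin 4 → ℕ → X → ℝ) (m : Fin 4) {p : ℝ}
    (H1 : ∀ j i, L' ≤ j → j ≤ L → TR nv ud' (update A m (st (S.a j i))) ≤
      p * w.ω j L' x' i * cd g L' x') :
    TR nv ud' (update A m (st (fun y => F y - V L' y))) ≤ p * lm L' x' * cd g L' x' := by
  rw [TR_upd (swap_two m)]
  refine alive3 hP hc hu hR hL hg fun j i h1 h2 => ?_
  rw [← TR_upd (swap_two m)]
  exact H1 j i h1 h2

end

end Vale.Agent.P141.PL.H855
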