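import Vale.Agent.P141.PL.H855.CSlot0
import Vale.Agent.P141.PL.H855.Dig
import Vale.Agent.P141.H297.Win6

/-!
# P141, line W, scale-invariant version: the digits of a path, without heights

The hypothesis on the atoms is `L2W`: the `L²` average of an atom on a cell is bounded by its local
density.  A path of the one-cell process, cut to a region `ud` of cells, minus its value at the top
of the window of the threshold `e1`, is a moving slot (`CSlot0`).
-/

namespace Vale.Agent.P141.PL.H855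

open Finset
open Vale.Agent.P141.PL.H95 (gr mem_gr card_gr)
open Vale.Agent.P141.H315 (dot Grid toE norm_toE_sq map_bsum)
open Vale.Agent.P141.PL.H318
open Vale.Agent.P141.H347
open Vale.Agent.P141.H297
open Vale.Agent.P141.H922

noncomputable section

open scoped Classical

section abs

variable {X ι : Type*} {g : Grid X}

/-- the `L²` average of an atom on a cell is bounded by `K` times its local density -/
def L2W {S : CSys g ι} (w : LW S) (K : ℝ) : Prop := ∀ j k x i, k ≤ j →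
  ∑ y ∈ g.cube k x, S.a j i y ^ 2 ≤ (K * w.ω j k x i) ^ 2 * cd g k x

theorem norm_toE_le {Q : Finset X} {f : X → ℝ} {c : ℝ} (hc : 0 ≤ c)
    (h : ∑ y ∈ Q, f y ^ 2 ≤ c ^ 2) : ‖toE Q f‖ ≤ c := by
  refine le_of_sq_le_sq ?_ hc
  rw [norm_toE_sq]
  unfold dot
  refine le_trans (le_of_eq (sum_congr rfl fun y _ => ?_)) h
  ring

theorem sum_sq_eq_norm {Q : Finset X} {f : X → ℝ} : ∑ y ∈ Q, f y ^ 2 = ‖toE Q f‖ ^ 2 := by
  rw [norm_toE_sq]
  unfold dot
  exact sum_congr rfl fun y _ => by ring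

/-- the births of one step, in `L²` on a smaller cell -/
theorem norm_birth_le {S : CSys g ι} {w : LW S} {K : ℝ} (hK : 0 ≤ K) (h : L2W w K) {j k : ℕ}
    (hkj : k ≤ j) (G : X → ℝ) (x : X) :
    ‖toE (g.cube k x) (birth S j G)‖ ≤ K * lden w j k G x * √(cd g k x) := by
  have hcd := (cd_pos g k x).le
  have hsub : g.cube k x ⊆ g.cube j x := g.sub_le hkj x
  have e1 : toE (g.cube k x) (birth S j G) =
      toE (g.cube k x) (cF S j (bm S j G (g.cube j x))) := by
    ext y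
    show birth S j G y = cF S j (bm S j G (g.cube j x)) y
    unfold birth
    rw [g.eq_of_mem j x y (hsub y.2)]
  have e2 : toE (g.cube k x) (cF S j (bm S j G (g.cube j x))) =
      Vale.Agent.P141.H315.bsum (fun i => toE (g.cube k x) (S.a j i)) (bm S j G (g.cube j x)) := map_bsum _ _ _
  rw [e1, e2]
  unfold Vale.Agent.P141.H315.bsum Finsupp.sum
  refine (norm_sum_le _ _).trans ?_
  unfold lden Finsupp.sum
  rw [mul_sum, sum_mul]
  refine sum_le_sum fun i _ => ?_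
  rw [norm_smul, Real.norm_eq_abs]
  have h1 : ‖toE (g.cube k x) (S.a j i)‖ ≤ K * w.ω j k x i * √(cd g k x) := by
    refine norm_toE_le (mul_nonneg (mul_nonneg hK (w.nonneg _ _ _ _)) (Real.sqrt_nonneg _)) ?_
    rw [mul_pow _ (√(cd g k x)), Real.sq_sqrt hcd]
    exact h j k x i hkj
  calc |(bm S j G (g.cube j x)) i| * ‖toE (g.cube k x) (S.a j i)‖
      ≤ |(bm S j G (g.cube j x)) i| * (K * w.ω j k x i * √(cd g k x)) :=
        mul_le_mul_of_nonneg_left h1 (abs_nonneg _)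
    _ = _ := by ring

end abs

section dig

variable {s : ℤ} {ι : Type*} {J : Type*} [Fintype J] {S : J → CSys (gr 7 s) ι}
  {w : ∀ j, LW (S j)} {L : ℕ} {e : ℝ} {F : J → ℤ → ℝ} {gd : ℕ → ℤ → Prop}
  {V H : J → ℕ → ℤ → ℝ} {rs : J → ℕ → ℤ → Prop} {lm : J → ℕ → ℤ → ℝ} {C2 : ℝ}

/-- `L²` distance to the value at the top of the window -/
theorem top_L2_le (hP : Paths w L e F gd V H rs lm) (j : J) {Kb e' : ℝ} (hKb : 0 ≤ Kb)
    (hS : L2W (w j) Kb) (he' : 0 ≤ e') {k : ℕ} (hk : k ≤ L) (x : ℤ) :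
    ∑ y ∈ (gr 7 s).cube k x, (V j (tp w L gd V H rs e' C2 k y) y - V j k y) ^ 2 ≤
      (Kb * e') ^ 2 * cd (gr 7 s) k x := by
  set Λ := tp w L gd V H rs e' C2 k x with hΛ
  have h1 : Λ ≤ L := tp_le w L gd V H rs e' C2 hk x
  have h2 : k ≤ Λ := le_tp w L gd V H rs e' C2 hk x
  have hcd := (cd_pos (gr 7 s) k x).le
  have e1 : ∑ y ∈ (gr 7 s).cube k x, (V j (tp w L gd V H rs e' C2 k y) y - V j k y) ^ 2 =
      ∑ y ∈ (gr 7 s).cube k x, (∑ i ∈ Ico k Λ, birth (S j) i (H j i)) y ^ 2 := by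
    refine sum_congr rfl fun y hy => ?_
    rw [tp_const' k hy, ← hΛ, V_top_eq (e' := e') (C2 := C2) hP j h1 h2 hΛ.symm hy,
      Finset.sum_apply]
    ring
  rw [e1, sum_sq_eq_norm, map_sum]
  have h3 : ‖∑ i ∈ Ico k Λ, toE ((gr 7 s).cube k x) (birth (S j) i (H j i))‖ ≤
      Kb * e' * √(cd (gr 7 s) k x) := by
    refine (norm_sum_le _ _).trans ?_
    calc ∑ i ∈ Ico k Λ, ‖toE ((gr 7 s).cube k x) (birth (S j) i (H j i))‖
        ≤ ∑ i ∈ Ico k Λ, Kb * lden (w j) i k (H j i) x * √(cd (gr 7 s) k x) :=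
          sum_le_sum fun i hi => norm_birth_le hKb hS (mem_Ico.1 hi).1 _ x
      _ = Kb * (∑ i ∈ Ico k Λ, lden (w j) i k (H j i) x) * √(cd (gr 7 s) k x) := by
          rw [mul_sum, sum_mul]
      _ ≤ _ := mul_le_mul_of_nonneg_right (mul_le_mul_of_nonneg_left
          (local_mass (C2 := C2) hP j he' h1 h2 hΛ.symm) hKb) (Real.sqrt_nonneg _)
  have h4 := pow_le_pow_left₀ (norm_nonneg _) h3 2
  rwa [mul_pow _ (√(cd (gr 7 s) k x)), Real.sq_sqrt hcd] at h4

variable (hP : Paths w L e F gd V H rs lm) {ud : ℕ → ℤ → Prop} {Λ : ℕ} (hΛL : Λ ≤ L)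
  (hud : ∀ k x y, y ∈ (gr 7 s).cube k x → (ud k y ↔ ud k x))
  (hup : ∀ k < Λ, ∀ x, ud k x → ud (k + 1) x)
include hP hΛL hud hup

/-- **A digit is a block family.** -/
theorem cblk0_dgt (j : J) {Kb e1 θ κ : ℝ} (hKb : 0 < Kb) (hS : L2W (w j) Kb) (he1 : 0 < e1)
    (hC2 : 0 ≤ C2) (hθ0 : 0 ≤ θ) (hθ1 : θ ≤ 1) (hκ : 0 ≤ κ) (l : ℕ)
    (hpk : ∀ l, ∀ k₀ ≤ Λ, ∀ x, ud k₀ x → ∑ i ∈ range (k₀ + 1), ∑ z ∈ (gr 7 s).cube k₀ x,
      ind (ud i z ∧ tp w L gd V H rs (e1 / 2 ^ l) C2 i z = i) ≤ κ * 2 ^ l * cd (gr 7 s) k₀ x) :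
    CBlk0 s Λ (dgt w L gd V H rs C2 e1 ud j l) (eng C2 e1 Kb θ l) ((3 * κ + 1) * 2 ^ l) := by
  have he' : ∀ l : ℕ, 0 < e1 / 2 ^ l := fun l => by positivity
  have hhalf : e1 / 2 ^ (l + 1) ≤ e1 / 2 ^ l := by
    rw [pow_succ, ← div_div]
    linarith [he' l]
  refine ⟨⟨evd w L gd V H rs C2 e1 ud Λ l, ?_, ?_, ?_⟩, ?_⟩
  · intro k x y hy
    unfold evd
    rw [hud k x y hy, hud (k + 1) x y ((gr 7 s).sub k x hy), tp_const' k hy, tp_const' k hy]
  · intro k y hk hev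
    unfold evd at hev
    push Not at hev
    obtain ⟨h1, h2, h3⟩ := hev
    unfold dgt
    by_cases hu : ud k y
    · rw [if_pos hu, if_pos (hup k hk y hu)]
      have h4 := h2 hu
      have h5 := h3 hu
      have hkL : k ≤ L := by omega
      have h6 : k < tp w L gd V H rs (e1 / 2 ^ l) C2 k y :=
        lt_of_le_of_ne (le_tp w L gd V H rs _ C2 hkL y) (Ne.symm h4)
      have h7 : k < tp w L gd V H rs (e1 / 2 ^ (l + 1)) C2 k y :=
        lt_of_le_of_ne (le_tp w L gd V H rs _ C2 hkL y) (Ne.symm h5)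
      rw [(stay_of_lt w L gd V H rs _ C2 hkL h6).2.1, (stay_of_lt w L gd V H rs _ C2 hkL h7).2.1]
    · rw [if_neg hu, if_neg]
      exact fun h => hu (h1 hk h)
  · intro k₀ hk₀ x
    have h1 : ∀ z k, ind (evd w L gd V H rs C2 e1 ud Λ l k z) ≤
        ind (k < Λ ∧ ud (k + 1) z ∧ ¬ ud k z) +
        (ind (ud k z ∧ tp w L gd V H rs (e1 / 2 ^ l) C2 k z = k) +
        ind (ud k z ∧ tp w L gd V H rs (e1 / 2 ^ (l + 1)) C2 k z = k)) := by
      intro z k
      unfold evd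
      by_cases a : k < Λ ∧ ud (k + 1) z ∧ ¬ ud k z
      · rw [ind_true (Or.inl a), ind_true a]
        linarith [ind_nonneg (ud k z ∧ tp w L gd V H rs (e1 / 2 ^ l) C2 k z = k),
          ind_nonneg (ud k z ∧ tp w L gd V H rs (e1 / 2 ^ (l + 1)) C2 k z = k)]
      · by_cases b : ud k z ∧ tp w L gd V H rs (e1 / 2 ^ l) C2 k z = k
        · rw [ind_true (Or.inr (Or.inl b)), ind_true b]
          linarith [ind_nonneg (k < Λ ∧ ud (k + 1) z ∧ ¬ ud k z),
            ind_nonneg (ud k z ∧ tp w L gd V H rs (e1 / 2 ^ (l + 1)) C2 k z = k)]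
        · by_cases c : ud k z ∧ tp w L gd V H rs (e1 / 2 ^ (l + 1)) C2 k z = k
          · rw [ind_true (Or.inr (Or.inr c)), ind_true c]
            linarith [ind_nonneg (k < Λ ∧ ud (k + 1) z ∧ ¬ ud k z),
              ind_nonneg (ud k z ∧ tp w L gd V H rs (e1 / 2 ^ l) C2 k z = k)]
          · rw [ind_false (by tauto)]
            linarith [ind_nonneg (k < Λ ∧ ud (k + 1) z ∧ ¬ ud k z),
              ind_nonneg (ud k z ∧ tp w L gd V H rs (e1 / 2 ^ l) C2 k z = k),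
              ind_nonneg (ud k z ∧ tp w L gd V H rs (e1 / 2 ^ (l + 1)) C2 k z = k)]
    have h2 : ∑ z ∈ (gr 7 s).cube k₀ x, ∑ k ∈ range (k₀ + 1),
        ind (k < Λ ∧ ud (k + 1) z ∧ ¬ ud k z) ≤ 2 ^ (k₀ + 7) := by
      calc _ ≤ ∑ _z ∈ (gr 7 s).cube k₀ x, (1 : ℝ) :=
            sum_le_sum fun z _ => exit_le_one hup hk₀ z
        _ = 2 ^ (k₀ + 7) := by rw [sum_const, card_gr, nsmul_eq_mul, mul_one]; push_cast; rfl
    have h3 : ∀ l', ∑ z ∈ (gr 7 s).cube k₀ x, ∑ k ∈ range (k₀ + 1),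
        ind (ud k z ∧ tp w L gd V H rs (e1 / 2 ^ l') C2 k z = k) ≤ κ * 2 ^ l' * 2 ^ (k₀ + 7) := by
      intro l'
      by_cases hx : ud k₀ x
      · have h4 := hpk l' k₀ hk₀ x hx
        rw [sum_comm, cd_gr] at h4
        exact h4
      · refine le_trans (le_of_eq (sum_eq_zero fun z hz => sum_eq_zero fun k hk => ?_))
          (by positivity)
        refine ind_false fun h => hx ?_
        have hz0 : ud k₀ z := by
          have key : ∀ a b, a ≤ b → b ≤ Λ → ud a z → ud b z := by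
            intro a b hab
            induction b, hab using Nat.le_induction with
            | base => exact fun _ h => h
            | succ b hab ih => exact fun h1 h2 => hup b (by omega) z (ih (by omega) h2)
          exact key k k₀ (by rw [mem_range] at hk; omega) hk₀ h.1
        exact (hud k₀ x z hz).mp hz0
    change ∑ z ∈ (gr 7 s).cube k₀ x, ∑ k ∈ range (k₀ + 1),
      ind (evd w L gd V H rs C2 e1 ud Λ l k z) ≤ _
    calc ∑ z ∈ (gr 7 s).cube k₀ x, ∑ k ∈ range (k₀ + 1),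
        ind (evd w L gd V H rs C2 e1 ud Λ l k z)
        ≤ ∑ z ∈ (gr 7 s).cube k₀ x, ∑ k ∈ range (k₀ + 1),
          (ind (k < Λ ∧ ud (k + 1) z ∧ ¬ ud k z) +
          (ind (ud k z ∧ tp w L gd V H rs (e1 / 2 ^ l) C2 k z = k) +
          ind (ud k z ∧ tp w L gd V H rs (e1 / 2 ^ (l + 1)) C2 k z = k))) :=
          sum_le_sum fun z _ => sum_le_sum fun k _ => h1 z k
      _ ≤ 2 ^ (k₀ + 7) + (κ * 2 ^ l * 2 ^ (k₀ + 7) + κ * 2 ^ (l + 1) * 2 ^ (k₀ + 7)) := by
          simp only [sum_add_distrib]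
          exact add_le_add h2 (add_le_add (h3 l) (h3 (l + 1)))
      _ ≤ (3 * κ + 1) * 2 ^ l * 2 ^ (k₀ + 7) := by
          have h5 : (1 : ℝ) ≤ 2 ^ l := one_le_pow₀ (by norm_num)
          have h6 : (0 : ℝ) < 2 ^ (k₀ + 7) := by positivity
          rw [pow_succ (2 : ℝ) l]
          nlinarith
  · intro k hk x
    rw [← cd_gr s k x]
    have hcd := cd_pos (gr 7 s) k x
    -- the two bounds
    have hA : dot ((gr 7 s).cube k x) (dgt w L gd V H rs C2 e1 ud j l k)
        (dgt w L gd V H rs C2 e1 ud j l k) ≤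
        6 * (2 * C2 + 3) * (e1 / 2 ^ l) * cd (gr 7 s) k x := by
      by_cases hx : ud k x
      · have hv : ∀ l' : ℕ, ∑ y ∈ (gr 7 s).cube k x,
            (V j (tp w L gd V H rs (e1 / 2 ^ l') C2 k y) y - V j k y) ^ 2 ≤
            2 * (2 * C2 + 3) * (e1 / 2 ^ l' * cd (gr 7 s) k x) := by
          intro l'
          have h1 := top_dist (e' := e1 / 2 ^ l') (C2 := C2) hP j (cd_gr_succ s) (he' l').le hC2
            (k := k) (x := x) (tp_le w L gd V H rs _ C2 (by omega) x)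
            (le_tp w L gd V H rs _ C2 (by omega) x) rfl
          refine le_trans (le_of_eq (sum_congr rfl fun y hy => ?_)) h1
          rw [tp_const' k hy]
        have h2 := hv l
        have h3 := hv (l + 1)
        have h4 : (e1 / 2 ^ (l + 1)) * 2 = e1 / 2 ^ l := by
          rw [pow_succ]; field_simp
        calc (dot ((gr 7 s).cube k x) (dgt w L gd V H rs C2 e1 ud j l k)
            (dgt w L gd V H rs C2 e1 ud j l k) : ℝ)
            ≤ ∑ y ∈ (gr 7 s).cube k x,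
              (2 * (V j (tp w L gd V H rs (e1 / 2 ^ l) C2 k y) y - V j k y) ^ 2 +
              2 * (V j (tp w L gd V H rs (e1 / 2 ^ (l + 1)) C2 k y) y - V j k y) ^ 2) := by
              unfold dot
              refine sum_le_sum fun y hy => ?_
              unfold dgt
              rw [if_pos ((hud k x y hy).mpr hx)]
              nlinarith [sq_nonneg ((V j (tp w L gd V H rs (e1 / 2 ^ l) C2 k y) y - V j k y) +
                (V j (tp w L gd V H rs (e1 / 2 ^ (l + 1)) C2 k y) y - V j k y))]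
          _ = 2 * ∑ y ∈ (gr 7 s).cube k x,
              (V j (tp w L gd V H rs (e1 / 2 ^ l) C2 k y) y - V j k y) ^ 2 +
              2 * ∑ y ∈ (gr 7 s).cube k x,
              (V j (tp w L gd V H rs (e1 / 2 ^ (l + 1)) C2 k y) y - V j k y) ^ 2 := by
              rw [sum_add_distrib, mul_sum, mul_sum]
          _ ≤ 6 * (2 * C2 + 3) * (e1 / 2 ^ l) * cd (gr 7 s) k x := by
              rw [← h4] at h2 ⊢
              linarith
      · refine le_trans (le_of_eq (sum_eq_zero fun y hy => ?_)) (by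
          have := he' l
          positivity)
        unfold dgt
        rw [if_neg (fun h => hx ((hud k x y hy).mp h)), mul_zero]
    have hB : dot ((gr 7 s).cube k x) (dgt w L gd V H rs C2 e1 ud j l k)
        (dgt w L gd V H rs C2 e1 ud j l k) ≤
        (2 * Kb * (e1 / 2 ^ l)) ^ 2 * cd (gr 7 s) k x := by
      by_cases hx : ud k x
      · have hv : ∀ l' : ℕ, ∑ y ∈ (gr 7 s).cube k x,
            (V j (tp w L gd V H rs (e1 / 2 ^ l') C2 k y) y - V j k y) ^ 2 ≤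
            (Kb * (e1 / 2 ^ l')) ^ 2 * cd (gr 7 s) k x := fun l' =>
          top_L2_le hP j hKb.le hS (he' l').le (by omega) x
        have h2 := hv l
        have h3 := hv (l + 1)
        have h4 : (e1 / 2 ^ (l + 1)) * 2 = e1 / 2 ^ l := by
          rw [pow_succ]; field_simp
        calc (dot ((gr 7 s).cube k x) (dgt w L gd V H rs C2 e1 ud j l k)
            (dgt w L gd V H rs C2 e1 ud j l k) : ℝ)
            ≤ ∑ y ∈ (gr 7 s).cube k x,
              (2 * (V j (tp w L gd V H rs (e1 / 2 ^ l) C2 k y) y - V j k y) ^ 2 +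
              2 * (V j (tp w L gd V H rs (e1 / 2 ^ (l + 1)) C2 k y) y - V j k y) ^ 2) := by
              unfold dot
              refine sum_le_sum fun y hy => ?_
              unfold dgt
              rw [if_pos ((hud k x y hy).mpr hx)]
              nlinarith [sq_nonneg ((V j (tp w L gd V H rs (e1 / 2 ^ l) C2 k y) y - V j k y) +
                (V j (tp w L gd V H rs (e1 / 2 ^ (l + 1)) C2 k y) y - V j k y))]
          _ = 2 * ∑ y ∈ (gr 7 s).cube k x,
              (V j (tp w L gd V H rs (e1 / 2 ^ l) C2 k y) y - V j k y) ^ 2 +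
              2 * ∑ y ∈ (gr 7 s).cube k x,
              (V j (tp w L gd V H rs (e1 / 2 ^ (l + 1)) C2 k y) y - V j k y) ^ 2 := by
              rw [sum_add_distrib, mul_sum, mul_sum]
          _ ≤ (2 * Kb * (e1 / 2 ^ l)) ^ 2 * cd (gr 7 s) k x := by
              have h5 : (Kb * (e1 / 2 ^ l)) ^ 2 = 4 * (Kb * (e1 / 2 ^ (l + 1))) ^ 2 := by
                rw [← h4]; ring
              have h6 : 0 ≤ (Kb * (e1 / 2 ^ (l + 1))) ^ 2 * cd (gr 7 s) k x := by positivity
              have h7 : (2 * Kb * (e1 / 2 ^ l)) ^ 2 * cd (gr 7 s) k x =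
                  16 * ((Kb * (e1 / 2 ^ (l + 1))) ^ 2 * cd (gr 7 s) k x) := by
                rw [← h4]; ring
              rw [h5] at h2
              linarith
      · refine le_trans (le_of_eq (sum_eq_zero fun y hy => ?_)) (by positivity)
        unfold dgt
        rw [if_neg (fun h => hx ((hud k x y hy).mp h)), mul_zero]
    set D := dot ((gr 7 s).cube k x) (dgt w L gd V H rs C2 e1 ud j l k)
      (dgt w L gd V H rs C2 e1 ud j l k) with hD
    have hD0 : 0 ≤ D / cd (gr 7 s) k x :=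
      div_nonneg (Finset.sum_nonneg fun _ _ => mul_self_nonneg _) hcd.le
    rw [← div_le_iff₀ hcd] at hA hB ⊢
    set z := D / cd (gr 7 s) k x
    unfold eng
    calc z = z ^ (1 - θ) * z ^ θ := by
          rcases hD0.eq_or_lt with h | h
          · rw [← h]
            rcases hθ0.eq_or_lt with h' | h'
            · rw [← h']; norm_num
            · rw [Real.zero_rpow h'.ne', mul_zero]
          · rw [← Real.rpow_add h, sub_add_cancel, Real.rpow_one]
      _ ≤ _ := mul_le_mul (Real.rpow_le_rpow hD0 hA (by linarith))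
          (Real.rpow_le_rpow hD0 hB hθ0) (Real.rpow_nonneg hD0 _)
          (Real.rpow_nonneg (by have := he' l; positivity) _)

omit hP hΛL hud hup in
/-- the size of a digit -/
theorem eng_size0 {C2 e1 Kb κ θ : ℝ} (hC2 : 0 ≤ C2) (he1 : 0 < e1) (hKb : 0 < Kb) (hκ : 0 ≤ κ)
    (hθ0 : 0 < θ) (hθ1 : θ ≤ 1) (l : ℕ) :
    √(eng C2 e1 Kb θ l * (1 + 1152 * ((3 * κ + 1) * 2 ^ l))) ≤
    √(4 * (6 * (2 * C2 + 3)) * (1153 * (3 * κ + 1))) * √e1 * (Kb * √e1) ^ θ *
      ((2 : ℝ) ^ (-(θ / 2))) ^ l := by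
  set α : ℝ := 6 * (2 * C2 + 3) with hα
  set κ' : ℝ := 1153 * (3 * κ + 1) with hκ'
  have hα1 : 1 ≤ α := by rw [hα]; linarith
  have hκ1 : 1 ≤ κ' := by rw [hκ']; linarith
  have hx : (0 : ℝ) < 2 ^ l := by positivity
  have hx1 : (1 : ℝ) ≤ 2 ^ l := one_le_pow₀ (by norm_num)
  have hs1 : 0 < √e1 := Real.sqrt_pos.2 he1
  have hK' : 1 + 1152 * ((3 * κ + 1) * 2 ^ l) ≤ κ' * 2 ^ l := by
    rw [hκ']
    nlinarith
  have hK0 : 0 < 1 + 1152 * ((3 * κ + 1) * (2 : ℝ) ^ l) := by positivity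
  -- the energy
  have he : eng C2 e1 Kb θ l ≤
      α * (4 * ((Kb * √e1) ^ θ) ^ 2) * e1 * (((2 : ℝ) ^ l)⁻¹) ^ (1 + θ) := by
    unfold eng
    have h1 : (α * (e1 / 2 ^ l)) ^ (1 - θ) ≤ α * e1 ^ (1 - θ) * (((2 : ℝ) ^ l)⁻¹) ^ (1 - θ) := by
      rw [show α * (e1 / 2 ^ l) = α * e1 * ((2 : ℝ) ^ l)⁻¹ by rw [div_eq_mul_inv]; ring,
        Real.mul_rpow (by positivity) (by positivity), Real.mul_rpow (by positivity) he1.le]
      refine mul_le_mul_of_nonneg_right (mul_le_mul_of_nonneg_right ?_ (by positivity))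
        (by positivity)
      calc α ^ (1 - θ) ≤ α ^ (1 : ℝ) :=
            Real.rpow_le_rpow_of_exponent_le hα1 (by linarith)
        _ = α := Real.rpow_one α
    have h2 : ((2 * Kb * (e1 / 2 ^ l)) ^ 2) ^ θ ≤
        4 * ((Kb * √e1) ^ θ) ^ 2 * e1 ^ θ * (((2 : ℝ) ^ l)⁻¹) ^ (2 * θ) := by
      have e0 : (2 * Kb * (e1 / 2 ^ l)) ^ 2 = 4 * (Kb * √e1) ^ 2 * e1 * (((2 : ℝ) ^ l)⁻¹) ^ 2 := by
        rw [div_eq_mul_inv, mul_pow Kb, Real.sq_sqrt he1.le]; ring
      rw [e0, Real.mul_rpow (by positivity) (by positivity),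
        Real.mul_rpow (by positivity) he1.le, Real.mul_rpow (by norm_num) (by positivity)]
      have h3 : (4 : ℝ) ^ θ ≤ 4 := by
        calc (4 : ℝ) ^ θ ≤ 4 ^ (1 : ℝ) :=
              Real.rpow_le_rpow_of_exponent_le (by norm_num) hθ1
          _ = 4 := Real.rpow_one 4
      have h4 : ((Kb * √e1) ^ 2) ^ θ = ((Kb * √e1) ^ θ) ^ 2 := by
        rw [← Real.rpow_natCast, ← Real.rpow_mul (by positivity), ← Real.rpow_natCast _ 2,
          ← Real.rpow_mul (by positivity), mul_comm θ]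
      have h5 : ((((2 : ℝ) ^ l)⁻¹) ^ 2) ^ θ = (((2 : ℝ) ^ l)⁻¹) ^ (2 * θ) := by
        rw [← Real.rpow_natCast, ← Real.rpow_mul (by positivity)]; norm_num
      rw [h5, h4]
      refine mul_le_mul_of_nonneg_right (mul_le_mul_of_nonneg_right ?_ (by positivity))
        (by positivity)
      exact mul_le_mul_of_nonneg_right h3 (by positivity)
    refine (mul_le_mul h1 h2 (by positivity) (by positivity)).trans (le_of_eq ?_)
    have h6 : e1 ^ (1 - θ) * e1 ^ θ = e1 := by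
      rw [← Real.rpow_add he1, sub_add_cancel, Real.rpow_one]
    have h7 : (((2 : ℝ) ^ l)⁻¹) ^ (1 - θ) * (((2 : ℝ) ^ l)⁻¹) ^ (2 * θ) =
        (((2 : ℝ) ^ l)⁻¹) ^ (1 + θ) := by
      rw [← Real.rpow_add (by positivity)]
      congr 1
      ring
    calc α * e1 ^ (1 - θ) * (((2 : ℝ) ^ l)⁻¹) ^ (1 - θ) *
          (4 * ((Kb * √e1) ^ θ) ^ 2 * e1 ^ θ * (((2 : ℝ) ^ l)⁻¹) ^ (2 * θ))
        = α * (4 * ((Kb * √e1) ^ θ) ^ 2) * (e1 ^ (1 - θ) * e1 ^ θ) *
          ((((2 : ℝ) ^ l)⁻¹) ^ (1 - θ) * (((2 : ℝ) ^ l)⁻¹) ^ (2 * θ)) := by ring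
      _ = _ := by rw [h6, h7]
  have hprod : eng C2 e1 Kb θ l * (1 + 1152 * ((3 * κ + 1) * 2 ^ l)) ≤
      4 * α * κ' * e1 * ((Kb * √e1) ^ θ * ((2 : ℝ) ^ (-(θ / 2))) ^ l) ^ 2 := by
    refine (mul_le_mul he hK' hK0.le (by positivity)).trans (le_of_eq ?_)
    have h1 : (((2 : ℝ) ^ l)⁻¹) ^ (1 + θ) * 2 ^ l = (2 : ℝ) ^ (-(θ * l)) := by
      rw [← Real.rpow_natCast, ← Real.rpow_neg (by norm_num), ← Real.rpow_mul (by norm_num),
        ← Real.rpow_add (by norm_num)]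
      congr 1
      ring
    have h3 : (2 : ℝ) ^ (-(θ * l)) = (((2 : ℝ) ^ (-(θ / 2))) ^ l) ^ 2 := by
      rw [← Real.rpow_natCast _ 2, ← Real.rpow_natCast _ l,
        ← Real.rpow_mul (by norm_num : (0 : ℝ) ≤ 2),
        ← Real.rpow_mul (by norm_num : (0 : ℝ) ≤ 2)]
      congr 1
      push_cast; ring
    calc α * (4 * ((Kb * √e1) ^ θ) ^ 2) * e1 * (((2 : ℝ) ^ l)⁻¹) ^ (1 + θ) * (κ' * 2 ^ l)
        = 4 * α * κ' * e1 * (((Kb * √e1) ^ θ) ^ 2 * ((((2 : ℝ) ^ l)⁻¹) ^ (1 + θ) * 2 ^ l)) := by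
          ring
      _ = _ := by rw [h1, h3]; ring
  refine (Real.sqrt_le_sqrt hprod).trans (le_of_eq ?_)
  rw [Real.sqrt_mul (by positivity), Real.sqrt_mul (by positivity), Real.sqrt_sq (by positivity)]
  ring

/-- the constant of the digits -/
def Cdig0 (C2 κ θ : ℝ) : ℝ := √(4 * (6 * (2 * C2 + 3)) * (1153 * (3 * κ + 1))) *
  (1 - (2 : ℝ) ^ (-(θ / 2)))⁻¹

/-- **A path minus its value at the top of the window is a moving slot**, without heights. -/
theorem cslot_dig0 (j : J) {Kb e1 κ θ : ℝ} (hKb : 0 < Kb) (hS : L2W (w j) Kb)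
    (he1 : 0 < e1) (hC2 : 0 ≤ C2) (hθ0 : 0 < θ) (hθ1 : θ ≤ 1) (hκ : 0 ≤ κ)
    (hpk : ∀ l, ∀ k₀ ≤ Λ, ∀ x, ud k₀ x → ∑ i ∈ range (k₀ + 1), ∑ z ∈ (gr 7 s).cube k₀ x,
      ind (ud i z ∧ tp w L gd V H rs (e1 / 2 ^ l) C2 i z = i) ≤ κ * 2 ^ l * cd (gr 7 s) k₀ x) :
    CSlot0 s Λ (fun k y => if ud k y then V j k y - V j (tp w L gd V H rs e1 C2 k y) y else 0)
      (Cdig0 C2 κ θ * √e1 * (Kb * √e1) ^ θ) := by
  have he' : ∀ l : ℕ, 0 < e1 / 2 ^ l := fun l => by positivity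
  have hs1 : 0 < √e1 := Real.sqrt_pos.2 he1
  refine ⟨dgt w L gd V H rs C2 e1 ud j, eng C2 e1 Kb θ, fun l => (3 * κ + 1) * 2 ^ l,
    fun l => cblk0_dgt hP hΛL hud hup j hKb hS he1 hC2
      hθ0.le hθ1 hκ l hpk, fun l => eng_pos hC2 he1 hKb l, fun l => by positivity, ?_, ?_⟩
  · intro M
    have h1 : ∀ l ∈ range M, √(eng C2 e1 Kb θ l * (1 + 1152 * ((3 * κ + 1) * 2 ^ l))) ≤
        √(4 * (6 * (2 * C2 + 3)) * (1153 * (3 * κ + 1))) * √e1 * (Kb * √e1) ^ θ *
        ((2 : ℝ) ^ (-(θ / 2))) ^ l := fun l _ =>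
      eng_size0 hC2 he1 hKb hκ hθ0 hθ1 l
    refine (sum_le_sum h1).trans ?_
    rw [← mul_sum]
    have hr0 : (0 : ℝ) < 2 ^ (-(θ / 2)) := Real.rpow_pos_of_pos (by norm_num) _
    have hr1 : (2 : ℝ) ^ (-(θ / 2)) < 1 :=
      Real.rpow_lt_one_of_one_lt_of_neg (by norm_num) (by linarith)
    have h2 : ∑ l ∈ range M, ((2 : ℝ) ^ (-(θ / 2))) ^ l ≤ (1 - (2 : ℝ) ^ (-(θ / 2)))⁻¹ := by
      rw [← tsum_geometric_of_lt_one hr0.le hr1]
      exact (summable_geometric_of_lt_one hr0.le hr1).sum_le_tsum _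
        fun _ _ => pow_nonneg hr0.le _
    refine (mul_le_mul_of_nonneg_left h2 (by positivity)).trans (le_of_eq ?_)
    unfold Cdig0
    ring
  · intro k hk y
    by_cases hu : ud k y
    · have e1' : ∀ M : ℕ, ∑ l ∈ range M, dgt w L gd V H rs C2 e1 ud j l k y =
          V j (tp w L gd V H rs (e1 / 2 ^ M) C2 k y) y -
          V j (tp w L gd V H rs (e1 / 2 ^ 0) C2 k y) y := by
        intro M
        have h1 : ∀ l ∈ range M, dgt w L gd V H rs C2 e1 ud j l k y =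
            (fun l : ℕ => V j (tp w L gd V H rs (e1 / 2 ^ l) C2 k y) y) (l + 1) -
            (fun l : ℕ => V j (tp w L gd V H rs (e1 / 2 ^ l) C2 k y) y) l := by
          intro l _
          unfold dgt
          rw [if_pos hu]
        rw [sum_congr rfl h1]
        exact sum_range_sub
          (fun l : ℕ => V j (tp w L gd V H rs (e1 / 2 ^ l) C2 k y) y) M
      simp only [if_pos hu, e1']
      have e0 : e1 / 2 ^ 0 = e1 := by rw [pow_zero, div_one]
      rw [e0]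
      refine Filter.Tendsto.sub_const ?_ _
      rw [tendsto_iff_norm_sub_tendsto_zero]
      have h2 : Filter.Tendsto (fun M : ℕ => Kb * (e1 * (1 / 2 : ℝ) ^ M) *
          √(cd (gr 7 s) k y)) Filter.atTop (nhds (Kb * (e1 * 0) * √(cd (gr 7 s) k y))) :=
        (((tendsto_pow_atTop_nhds_zero_of_lt_one (by norm_num) (by norm_num)).const_mul
          e1).const_mul Kb).mul_const _
      rw [mul_zero, mul_zero, zero_mul] at h2
      refine squeeze_zero (fun M => norm_nonneg _) (fun M => ?_) h2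
      rw [Real.norm_eq_abs]
      have hcd := (cd_pos (gr 7 s) k y).le
      have h3 := top_L2_le (C2 := C2) hP j hKb.le hS (he' M).le (k := k) (by omega) y
      have h4 := single_le_sum (f := fun z =>
        (V j (tp w L gd V H rs (e1 / 2 ^ M) C2 k z) z - V j k z) ^ 2)
        (fun z _ => sq_nonneg _) ((gr 7 s).mem k y)
      have h5 := h4.trans h3
      refine abs_le_of_sq_le_sq (le_trans h5 (le_of_eq ?_)) (by positivity)
      rw [mul_pow _ (√(cd (gr 7 s) k y)), Real.sq_sqrt hcd]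
      congr 2
      rw [one_div, inv_pow, div_eq_mul_inv]
    · have h0 : ∀ M : ℕ, ∑ l ∈ range M, dgt w L gd V H rs C2 e1 ud j l k y = 0 := fun M =>
        sum_eq_zero fun l _ => by unfold dgt; rw [if_neg hu]
      simp only [if_neg hu, h0]
      exact tendsto_const_nhds

end dig

end

end Vale.Agent.P141.PL.H855
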