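import Mathlib

/-!
# P141, line W: powers `2 ^ (-(a j))` of the level
-/

namespace Vale.Agent.P141.PL.H855

noncomputable section

/-- `2 ^ (-(a j))` -/
def uu (a : ℝ) (j : ℕ) : ℝ := 2 ^ (-(a * (j : ℝ)))

theorem uu_def (a : ℝ) (j : ℕ) : uu a j = 2 ^ (-(a * (j : ℝ))) := rfl

theorem uu_pos (a : ℝ) (j : ℕ) : 0 < uu a j := Real.rpow_pos_of_pos (by norm_num) _

theorem uu_nonneg (a : ℝ) (j : ℕ) : 0 ≤ uu a j := (uu_pos a j).le

theorem uu_mul (a b : ℝ) (j : ℕ) : uu a j * uu b j = uu (a + b) j := by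
  unfold uu
  rw [← Real.rpow_add (by norm_num)]
  congr 1
  ring

theorem uu_zero (j : ℕ) : uu 0 j = 1 := by simp [uu]

theorem uu_anti {a b : ℝ} (h : a ≤ b) (j : ℕ) : uu b j ≤ uu a j := by
  unfold uu
  refine Real.rpow_le_rpow_of_exponent_le (by norm_num) ?_
  have : (0 : ℝ) ≤ j := Nat.cast_nonneg j
  have := mul_le_mul_of_nonneg_right h this
  linarith

theorem uu_le_one {a : ℝ} (h : 0 ≤ a) (j : ℕ) : uu a j ≤ 1 := by
  rw [← uu_zero j]
  exact uu_anti h j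

theorem uu_sqrt (a : ℝ) (j : ℕ) : √(uu a j) = uu (a / 2) j := by
  rw [Real.sqrt_eq_rpow]
  unfold uu
  rw [← Real.rpow_mul (by norm_num)]
  congr 1
  ring

theorem uu_inv (a : ℝ) (j : ℕ) : (uu a j)⁻¹ = uu (-a) j := by
  unfold uu
  rw [← Real.rpow_neg (by norm_num)]
  congr 1
  ring

theorem uu_rpow (a θ : ℝ) (j : ℕ) : uu a j ^ θ = uu (a * θ) j := by
  unfold uu
  rw [← Real.rpow_mul (by norm_num)]
  congr 1
  ring

theorem uu_pow (a : ℝ) (j m : ℕ) : uu a j ^ m = uu (a * m) j := by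
  rw [← Real.rpow_natCast, uu_rpow]

theorem uu_eq_pow (a : ℝ) (j : ℕ) : uu a j = (2 ^ (-a) : ℝ) ^ j := by
  unfold uu
  rw [← Real.rpow_natCast, ← Real.rpow_mul (by norm_num)]
  congr 1
  ring

theorem uu_succ (a : ℝ) (j : ℕ) : uu a (j + 1) = 2 ^ (-a) * uu a j := by
  rw [uu_eq_pow, uu_eq_pow, pow_succ]
  ring

/-- `2 ^ (a j)` as a power with negative exponent -/
theorem two_rpow (a : ℝ) (j : ℕ) : (2 : ℝ) ^ (a * (j : ℝ)) = uu (-a) j := by
  unfold uu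
  congr 1
  ring

end

end Vale.Agent.P141.PL.H855
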