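import Vale.Agent.P141.H998.ExMOf
import Vale.Agent.P141.H444.EndOf
import Vale.Agent.P141.H829.Loc
import Vale.Agent.P141.H379.WinT
import Vale.Agent.P141.PL.H855.Uu

/-!
# P141, line END: the spine

`MainT`: the estimate of the main family (`H998.MainEst`) for the systems `Ex.T` of all the levels,
with all its numbers; `t = 2 ^ (-j)`, `kap = t ^ (aM + 2)`, `mu = kap ^ (-26)`, `lam = t ^ 2`,
density of the births `t ^ (-(aM + 1))`, mass of the births `A t ^ (-aM)`.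
`rest_le`: the number of the border, of the tiny slot and of the exceptional cells.
`endStmT_of`: END (`H444.EndStmT`) from `MainT`.
-/

namespace Vale.Agent.P141.PL.H855

open Finset
open Vale.Agent.P141.H315 (Grid dot)
open Vale.Agent.P141.PL (Pt fc)
open Vale.Agent.P141.PL.H95 (gr shf)
open Vale.Agent.P141.PL.H318
open Vale.Agent.P141.H347 (LW cd cd_pos Dat2 Root2)
open Vale.Agent.P141.H347.Gs (Ex e2 e2_pos e2_le e2_inv e2_succ gfL gen_gfL)
open Vale.Agent.P141.H782 (gb LSys LSys.S LSys.w used)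
open Vale.Agent.P141.H8 (Rgn En Un)
open Vale.Agent.P141.H379 (nvF box_nvF)
open Vale.Agent.P141.H444 (TSys EndStmT EndOut endStm_mono)
open Vale.Agent.P141.H736 (Fg psg)
open Vale.Agent.P141.H829 (lsc Brs brs_of_atS genL_lsc_le)
open Vale.Agent.P141.H922 (CgP)
open Vale.Agent.P141.H998 (MainEst lmM restN tinyN endStm_of_main)

noncomputable section

open scoped Classical

/-- `2 ^ (-j)` -/
def tj (j : ℕ) : ℝ := (2 ^ j)⁻¹

theorem tj_pos (j : ℕ) : 0 < tj j := by unfold tj; positivity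

theorem tj_le_one (j : ℕ) : tj j ≤ 1 := by
  unfold tj
  exact inv_le_one_of_one_le₀ (one_le_pow₀ (by norm_num))

theorem tj_eq (j : ℕ) : tj j = 2 ^ (-(1 * (j : ℝ))) := by
  unfold tj
  rw [one_mul, Real.rpow_neg two_pos.le, Real.rpow_natCast]

/-- the threshold of the vertex type -/
def kapE (aM j : ℕ) : ℝ := tj j ^ (aM + 2)

/-- the threshold of the densities -/
def muE (aM j : ℕ) : ℝ := (kapE aM j ^ 26)⁻¹

/-- the threshold of the local masses of the births -/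
def m1E (aM j : ℕ) : ℝ := (tj j ^ (aM + 1))⁻¹

/-- the mass of the births -/
def MmE (A : ℝ) (aM j : ℕ) : ℝ := A * (tj j ^ aM)⁻¹

/-- **What remains of END: the estimate of the main family** for the systems `Ex.T`.
`aM` = any natural number `≥ 1`, `≥ a'`; `A` = any constant; energy `en` of the block slots at most
`A 2 ^ (-B j)`, packing `K'`, `en K' ≤ A 2 ^ (-κ j)`; gain `2 ^ (-eE j)` over `2 ^ (-κ j)`. -/
def MainT : Prop := ∀ (e : Ex) (κ : ℝ), 0 < e.g → 0 < κ → κ ≤ 1 → ∀ aM : ℕ, 1 ≤ aM → e.a' ≤ aM →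
  ∃ B eE : ℝ, 0 ≤ B ∧ 0 < eE ∧ ∀ A : ℝ, 1 ≤ A → ∃ A2 : ℝ, 0 ≤ A2 ∧
    ∀ (n : ℕ) (P : ℝ), 0 ≤ P → Root2 n P → ∀ f o K V 𝒩 (hd : Dat2 n f o K V 𝒩), ∀ j : ℕ, 1 ≤ j →
    ∀ b, ∀ en K' : ℝ, 0 < en → en ≤ A * 2 ^ (-(B * (j : ℝ))) → 1 ≤ K' →
    en * K' ≤ A * 2 ^ (-(κ * (j : ℝ))) →
      MainEst (s := shf (n + 7) b) (nvF hd b ∅) (used n K V f b) K ((e.T n).sys.S j b)
        (lmM (shf (n + 7) b) 1024) A (2 ^ (-(κ * (j : ℝ)))) (tj j ^ 2) (m1E aM j) en K' (kapE aM j)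
        (muE aM j) (MmE A aM j) (A2 * 2 ^ (-((κ + eE) * (j : ℝ))) * (1 + P))

theorem tiny_eq (A : ℝ) (aM j : ℕ) :
    tinyN (kapE aM j) (muE aM j) (MmE A aM j) = 224 * A * tj j ^ 2 := by
  have ht := tj_pos j
  have hk : 0 < kapE aM j := by unfold kapE; positivity
  have h1 : √(muE aM j) = (kapE aM j ^ 13)⁻¹ := by
    have h2 : muE aM j = ((kapE aM j ^ 13)⁻¹) ^ 2 := by
      unfold muE
      rw [inv_pow, ← pow_mul]
    rw [h2, Real.sqrt_sq (by positivity)]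
  have h3 : 8 / (kapE aM j ^ 12 * (kapE aM j ^ 13)⁻¹) = 8 * kapE aM j := by
    field_simp
  unfold tinyN
  rw [h1, h3]
  unfold MmE
  have h4 : kapE aM j * (tj j ^ aM)⁻¹ = tj j ^ 2 := by
    unfold kapE
    rw [pow_add]
    field_simp
  linear_combination (224 * A) * h4

/-- **The number of everything except the main family.** -/
theorem rest_le {Cb P A e0 e K p : ℝ} (aM j : ℕ) (hCb : 0 ≤ Cb) (hP : 0 ≤ P) (hA : 1 ≤ A)
    (h0 : 0 ≤ e0) (h1 : e0 ≤ 1) (he : 0 < e) (hK : 1 ≤ K) (hp : 0 ≤ p) (heK : e * K ≤ A * p)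
    (hep : e ≤ A * (p * tj j)) :
    restN (Cb * P) A e0 (tj j ^ 2) e K (kapE aM j) (muE aM j) (MmE A aM j)
      ((m1E aM j)⁻¹ * (2 * ((1024 : ℤ) : ℝ) + 513) * MmE A aM j) ≤
      10 ^ 10 * Cb * A ^ 3 * P * (p * tj j) := by
  have ht := tj_pos j
  have ht1 := tj_le_one j
  set t := tj j with htd
  set r := √A with hr
  have hA0 : 0 < A := by linarith
  have hr0 : 0 ≤ r := Real.sqrt_nonneg _
  have hrr : r * r = A := Real.mul_self_sqrt hA0.le
  have hrA : r ≤ A := by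
    rw [hr, Real.sqrt_le_left hA0.le]
    nlinarith
  set x := √(2 * (A + A * e0)) with hx
  have hx0 : 0 ≤ x := Real.sqrt_nonneg _
  have hx2 : x ≤ 2 * r := by
    rw [hx, Real.sqrt_le_left (by positivity)]
    nlinarith
  have e1 : √(t ^ 2) = t := Real.sqrt_sq ht.le
  have e2 : (m1E aM j)⁻¹ * (2 * ((1024 : ℤ) : ℝ) + 513) * MmE A aM j = 2561 * A * t := by
    unfold m1E MmE
    rw [inv_inv, ← htd, pow_succ]
    have h3 : t ^ aM * (t ^ aM)⁻¹ = 1 := mul_inv_cancel₀ (by positivity)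
    push_cast
    linear_combination (2561 * A * t) * h3
  have e3 : t⁻¹ * (224 * A * t ^ 2) + 2561 * A * t = 2785 * A * t := by
    field_simp
    ring
  unfold restN
  rw [tiny_eq, ← htd, e1, e2, e3]
  have hCP : 0 ≤ Cb * P := mul_nonneg hCb hP
  have heK0 : 0 ≤ e * K := by positivity
  have hpt : 0 ≤ p * t := mul_nonneg hp ht.le
  -- the first part
  have k1 : x * r * (e * K) ≤ 2 * A * (A * p) := by
    have : x * r ≤ 2 * r * r := mul_le_mul_of_nonneg_right hx2 hr0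
    have h4 : x * r ≤ 2 * A := by nlinarith
    exact mul_le_mul h4 heK heK0 (by positivity)
  have k2 : 362 * 10 ^ 3 * (Cb * P) * (x * r * (e * K)) * (2785 * A * t) ≤
      362 * 10 ^ 3 * (Cb * P) * (2 * A * (A * p)) * (2785 * A * t) := by gcongr
  -- the second part
  have k3 : Cb * P * r * e * (4 * (68 * 10 ^ 4) * K * (224 * A * t ^ 2) + 68 ^ 4 / 32 * x) =
      Cb * P * (4 * (68 * 10 ^ 4) * 224 * (r * A * t ^ 2 * (e * K)) +
        68 ^ 4 / 32 * (x * r * e)) := by ring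
  have k4 : r * A * t ^ 2 * (e * K) ≤ A * A * t * (A * p) := by
    have h5 : t ^ 2 ≤ t := by nlinarith
    have h6 : r * A * t ^ 2 ≤ A * A * t := by gcongr
    exact mul_le_mul h6 heK heK0 (by positivity)
  have k5 : x * r * e ≤ 2 * A * (A * (p * t)) := by
    have : x * r ≤ 2 * r * r := mul_le_mul_of_nonneg_right hx2 hr0
    have h4 : x * r ≤ 2 * A := by nlinarith
    exact mul_le_mul h4 hep he.le (by positivity)
  have k6 : Cb * P * (4 * (68 * 10 ^ 4) * 224 * (r * A * t ^ 2 * (e * K)) +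
      68 ^ 4 / 32 * (x * r * e)) ≤ Cb * P * (4 * (68 * 10 ^ 4) * 224 * (A * A * t * (A * p)) +
      68 ^ 4 / 32 * (2 * A * (A * (p * t)))) := by gcongr
  rw [k3]
  refine (add_le_add k2 k6).trans ?_
  have hA2 : A ^ 2 ≤ A ^ 3 := pow_le_pow_right₀ hA (by norm_num)
  have k7 : Cb * P * (68 ^ 4 / 32 * (2 * A * (A * (p * t)))) ≤
      68 ^ 4 / 16 * (Cb * P) * (p * t) * A ^ 3 := by
    have h7 : 0 ≤ 68 ^ 4 / 16 * (Cb * P) * (p * t) := by positivity
    have h8 := mul_le_mul_of_nonneg_left hA2 h7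
    refine le_trans (le_of_eq ?_) h8
    ring
  have h9 : 0 ≤ (Cb * P) * (p * t) * A ^ 3 := by positivity
  nlinarith

/-- the constant of the masses -/
def caE (aM : ℕ) : ℝ := (4 + 2 * CgP ^ 3 * 2 ^ aM) * 65

theorem CgP_nn : (0 : ℝ) ≤ CgP := by unfold CgP; norm_num

/-- **The atoms of END are births**, levels `j`, `j + 1`. -/
theorem brs_ex (e : Ex) {n aM j lv : ℕ} (hM1 : 1 ≤ aM) (ha : e.a' ≤ aM) (hlv : lv ≤ j + 1)
    (b : Bool) (i : Fin 4) {Λ L : ℕ} {x : ℤ} {e0 : ℝ} (h1 : e0 ≤ 1) {P : ℤ → ℝ}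
    (h : AtS ((e.T n).sys.w lv b i) L Λ x (16 * 4 + e0) P) :
    Brs 7 (shf (n + 7) b) (fc i) Λ x
      (caE aM * (tj j ^ aM)⁻¹ * cd (gr 7 (shf (n + 7) b)) Λ x) P := by
  have ht := tj_pos j
  have hcd := cd_pos (gr 7 (shf (n + 7) b)) Λ x
  have hφ : 0 < e2 (-e.a') lv := e2_pos _ _
  have h65 : AtS ((e.T n).sys.w lv b i) L Λ x 65 P := h.mono (by linarith)
  have key := brs_of_atS (e.T n) lv b i hφ (fun m => rfl) (fun k m h => h) (fun k x m => by
    have h2 := genL_lsc_le ((e.mp lv).cw (shf (n + 7) b) i) (d := fc i)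
      (hθ := (e.mp lv).θ_pos.le) (hφ := (e.mp lv).φ_pos) (hφ' := (e.mp lv).φ'_nn)
      (e2_pos (-e.a') lv) k ((gb n b).cube k x) m
    exact (le_inv_mul_iff₀ hφ).1 h2) h65
  refine key.mono (mul_le_mul_of_nonneg_right ?_ hcd.le)
  have e3 : (e.T n).δ lv = e2 (-1) lv := rfl
  have e4 : ((e.T n).P lv b i).C = CgP ^ 3 := rfl
  rw [e3, e4]
  have hlv' : (lv : ℝ) ≤ (j : ℝ) + 1 := by exact_mod_cast hlv
  have hM1' : (1 : ℝ) ≤ aM := by exact_mod_cast hM1
  have hpow : (tj j ^ aM)⁻¹ = 2 ^ ((aM : ℝ) * (j : ℝ)) := by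
    unfold tj
    rw [inv_pow, inv_inv, ← pow_mul, ← Real.rpow_natCast]
    congr 1
    push_cast
    ring
  have f1 : 2 / e2 (-1) lv ≤ 4 * (tj j ^ aM)⁻¹ := by
    rw [div_eq_mul_inv, e2_inv, neg_neg, hpow]
    unfold e2
    have g1 : (2 : ℝ) ^ (1 * (lv : ℝ)) ≤ 2 ^ (1 + (aM : ℝ) * (j : ℝ)) := by
      refine Real.rpow_le_rpow_of_exponent_le one_le_two ?_
      have hj : (0 : ℝ) ≤ j := Nat.cast_nonneg j
      nlinarith
    rw [Real.rpow_add two_pos, Real.rpow_one] at g1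
    linarith
  have f2 : 2 * CgP ^ 3 / e2 (-e.a') lv ≤ 2 * CgP ^ 3 * 2 ^ aM * (tj j ^ aM)⁻¹ := by
    rw [div_eq_mul_inv, e2_inv, neg_neg, hpow, mul_assoc (2 * CgP ^ 3)]
    refine mul_le_mul_of_nonneg_left ?_ (mul_nonneg two_pos.le (pow_nonneg CgP_nn 3))
    unfold e2
    rw [← Real.rpow_natCast 2 aM, ← Real.rpow_add two_pos]
    refine Real.rpow_le_rpow_of_exponent_le one_le_two ?_
    have g2 : e.a' * (lv : ℝ) ≤ aM * (lv : ℝ) := mul_le_mul_of_nonneg_right ha (Nat.cast_nonneg _)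
    have g3 : (aM : ℝ) * (lv : ℝ) ≤ aM * ((j : ℝ) + 1) :=
      mul_le_mul_of_nonneg_left hlv' (by linarith)
    linarith
  unfold caE
  nlinarith [f1, f2]

/-- restriction of the used cells to the scales of the nodes -/
theorem mainEst_sub {α κι : Type*} {s : ℤ} {nv : N4 (gr 7 s) α} {gd gd' : ℕ → ℤ → Prop} {L : ℕ}
    {U : Fin 4 → CSys (gr 7 s) κι} {lmf : Pt → Finset H998.Bi → (H998.Bi → ℝ) → ℕ → ℤ → ℝ}
    {C e0 lam m1 e K κ μ Mm cM : ℝ} (h : MainEst nv gd L U lmf C e0 lam m1 e K κ μ Mm cM)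
    (hg : ∀ k y, gd' k y → gd k y) : MainEst nv gd' L U lmf C e0 lam m1 e K κ μ Mm cM := by
  intro σ Λ x ud hΛ hR
  exact h σ Λ x ud hΛ ⟨hR.const, hR.up, hR.bel, fun k y hy => hg k y (hR.sub k y hy)⟩

theorem endStm_scale {X ι κ α : Type*} {g : Grid X} {nv : N4 g α} {gd : ℕ → X → Prop} {L : ℕ}
    {S S' : Fin 4 → CSys g ι} {w : ∀ m, LW (S m)} {w' : ∀ m, LW (S' m)} {U : Fin 4 → CSys g κ}
    {M C e0 e K c : ℝ} (h : EndStm nv (fun k y => gd k y ∧ k ≤ L) L w w' U M C e0 e K c) :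
    EndStm nv gd L w w' U M C e0 e K c := by
  intro σ Λ x ud hΛ hR hx
  exact h σ Λ x ud hΛ ⟨hR.const, hR.up, hR.bel, fun k y hy =>
    ⟨hR.sub k y hy, (hR.bel k y hy).1.trans hΛ⟩⟩ hx

/-- **END from the estimate of the main family.** -/
theorem endStmT_of (h : MainT) : EndStmT := by
  intro e κ he hκ hκ1
  obtain ⟨Cb, hCb, hbox⟩ := box_nvF
  set aM : ℕ := max 1 ⌈e.a'⌉₊ with haM
  have hM1 : 1 ≤ aM := le_max_left _ _
  have ha : e.a' ≤ aM := (Nat.le_ceil _).trans (by exact_mod_cast le_max_right _ _)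
  obtain ⟨B, eE, hB, heE, h⟩ := h e κ he hκ hκ1 aM hM1 ha
  refine ⟨max B (κ + 1), min eE 1, le_max_of_le_left hB, lt_min heE one_pos, fun A1 hA1 => ?_⟩
  set A : ℝ := max A1 1 + 2 * caE aM with hAd
  have hca : 0 ≤ caE aM := by
    unfold caE
    have := CgP_nn
    positivity
  have hA11 : A1 ≤ A := by
    have := le_max_left A1 1
    linarith
  have hA : 1 ≤ A := by
    have := le_max_right A1 1
    linarith
  obtain ⟨A2, hA2, h⟩ := h A hA
  refine ⟨A2 + 10 ^ 10 * Cb * A ^ 3, by positivity, ?_⟩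
  intro n P hP hroot f o K V 𝒩 hd j hj b en K' hen henB hK' henK
  have hj0 : (0 : ℝ) ≤ j := Nat.cast_nonneg j
  have ht := tj_pos j
  -- the powers
  set p : ℝ := 2 ^ (-(κ * (j : ℝ))) with hp
  have hp0 : 0 < p := Real.rpow_pos_of_pos two_pos _
  have hp1 : p ≤ 1 := Real.rpow_le_one_of_one_le_of_nonpos one_le_two (by
    have := mul_nonneg hκ.le hj0
    linarith)
  have hpt : p * tj j = 2 ^ (-((κ + 1) * (j : ℝ))) := by
    rw [hp, tj_eq, ← Real.rpow_add two_pos]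
    congr 1
    ring
  have mono : ∀ {a b : ℝ}, a ≤ b → (2 : ℝ) ^ (-(b * (j : ℝ))) ≤ 2 ^ (-(a * (j : ℝ))) := fun hab =>
    Real.rpow_le_rpow_of_exponent_le one_le_two (neg_le_neg (mul_le_mul_of_nonneg_right hab hj0))
  have q0 : ∀ a : ℝ, (0 : ℝ) < 2 ^ (-(a * (j : ℝ))) := fun a => Real.rpow_pos_of_pos two_pos _
  have b1 : en ≤ A * 2 ^ (-(B * (j : ℝ))) := henB.trans
    (mul_le_mul hA11 (mono (le_max_left _ _)) (q0 _).le (by linarith))
  have b2 : en ≤ A * (p * tj j) := by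
    rw [hpt]
    exact henB.trans (mul_le_mul hA11 (mono (le_max_right _ _)) (q0 _).le (by linarith))
  have b3 : en * K' ≤ A * p := henK.trans (mul_le_mul_of_nonneg_right hA11 hp0.le)
  have hmain := h n P hP hroot f o K V 𝒩 hd j hj b en K' hen b1 hK' b3
  have hk0 : 0 < kapE aM j := by unfold kapE; positivity
  have hmu : 0 < muE aM j := by unfold muE; positivity
  have hm1 : 0 < m1E aM j := by unfold m1E; positivity
  have hMm : 0 ≤ MmE A aM j := by unfold MmE; positivity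
  have hrest := rest_le aM j hCb hP hA hp0.le hp1 hen hK' hp0.le b3 b2
  refine endStm_mono hA11 hp0.le le_rfl (endStm_scale ?_)
  refine endStm_of_main (s := shf (n + 7) b) (Ma := caE aM * (tj j ^ aM)⁻¹) (CP := Cb * P)
    (lam := tj j ^ 2) (m1 := m1E aM j) (κ := kapE aM j) (μ := muE aM j) (Mm := MmE A aM j)
    (cM := A2 * 2 ^ (-((κ + eE) * (j : ℝ))) * (1 + P)) (a := 1024)
    (fun i Λ x Q _ hQ => brs_ex e hM1 ha (Nat.le_succ j) b i hp1 hQ)
    (fun i Λ x Q _ hQ => brs_ex e hM1 ha le_rfl b i hp1 hQ)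
    (mainEst_sub hmain fun k y hy => hy.1) (by norm_num) hm1
    (mul_nonneg (mul_nonneg hA2 (q0 _).le) (by linarith)) (mul_nonneg hCb hP)
    (hbox n P hP hroot f o K V 𝒩 hd b ∅ _ fun k y hy => hy.2.trans hd.hK) (by linarith) hp0.le
    (by positivity) hen hK' hk0 hmu hMm ?_ ?_
  · unfold MmE
    have h5 : 0 ≤ (tj j ^ aM)⁻¹ := by positivity
    have h6 : 2 * caE aM ≤ A := by
      have := le_max_right A1 1
      linarith
    calc 2 * (caE aM * (tj j ^ aM)⁻¹) = 2 * caE aM * (tj j ^ aM)⁻¹ := by ring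
      _ ≤ _ := mul_le_mul_of_nonneg_right h6 h5
  · refine (add_le_add le_rfl hrest).trans ?_
    rw [hpt]
    set w : ℝ := 2 ^ (-((κ + min eE 1) * (j : ℝ))) with hw
    have c1 : (2 : ℝ) ^ (-((κ + eE) * (j : ℝ))) ≤ w := mono (by
      have := min_le_left eE 1
      linarith)
    have c2 : (2 : ℝ) ^ (-((κ + 1) * (j : ℝ))) ≤ w := mono (by
      have := min_le_right eE 1
      linarith)
    have c3 : A2 * 2 ^ (-((κ + eE) * (j : ℝ))) * (1 + P) ≤ A2 * w * (1 + P) := by gcongr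
    have c4 : 0 ≤ 10 ^ 10 * Cb * A ^ 3 := by positivity
    have c5 : 10 ^ 10 * Cb * A ^ 3 * P * 2 ^ (-((κ + 1) * (j : ℝ))) ≤
        10 ^ 10 * Cb * A ^ 3 * (1 + P) * w := by
      refine mul_le_mul (mul_le_mul_of_nonneg_left (by linarith) c4) c2 (q0 _).le (by positivity)
    calc _ ≤ A2 * w * (1 + P) + 10 ^ 10 * Cb * A ^ 3 * (1 + P) * w := add_le_add c3 c5
      _ = _ := by ring

end

end Vale.Agent.P141.PL.H855
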