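import Vale.Agent.P141.PL.H855.WinNum
import Vale.Agent.P141.H213.WinHyp

/-!
# P141, line W: the windows from `StepIn`

`winHyp_of_stepIn`: the bounds on all the joint windows from the payments, the rounds and END of
every level.  `stepHyp_of_stepIn`, `boundedAt_444_of_stepIn`: the consequences.
-/

namespace Vale.Agent.P141.PL.H855

open Finset
open Vale.Agent.P141.H315 (Grid)
open Vale.Agent.P141.PL.H318 (CSys)
open Vale.Agent.P141.H347 (LW Dat2 Root2)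
open Vale.Agent.P141.H782 (gb LSys LSys.S LSys.w used)
open Vale.Agent.P141.H8 (Un K1 MM)
open Vale.Agent.P141.H297 (Mix)
open Vale.Agent.P141.H379 (nvF WinHyp SJ wJ lv)
open Vale.Agent.P141.H444 (TSys TDat TDat.sys GenL)
open Vale.Agent.P141.H922 (CgP)

noncomputable section

open scoped Classical

/-- the inputs of one level in the letters of `H213` -/
theorem stepIn_of_levIn {n : ℕ} {ι ι' : Type} {𝒮 : LSys n ι} {f : Fin 4 → ℤ → ℝ} {o : ℤ} {K : ℕ}
    {V : ℤ} {𝒩 : Finset (ℕ × ℤ)} {hd : Dat2 n f o K V 𝒩} {j : ℕ} {b : Bool}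
    {R : ℕ → Fin 4 → CSys (gb n b) ι'} {wR : ∀ i m, LW (R i m)} {nR : ℕ}
    {Cg C0 e0 τ pg Pm Q1 cE : ℝ} (hCg : 0 ≤ Cg) (hC0 : 0 ≤ C0)
    (h : LevIn 𝒮 j b R wR (nvF hd b ∅) (used n K V f b) K nR Cg C0 e0 τ pg Pm Q1 cE) :
    H213.StepIn 𝒮 hd j b (fun m => 𝒮.S j b m) R wR Cg (cCk Cg C0) Cg e0 (cE0 Cg * e0) τ pg Pm Q1
      cE nR where
  cmp := by
    refine ⟨Cg + C0, by positivity, ?_, ?_⟩
    · have := cE0_pos hCg
      unfold cCk
      linarith
    · intro β m ud F' _ hF k y hy i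
      cases β with
      | false =>
        exact (hF k y hy i).trans (mul_le_mul_of_nonneg_right (by linarith)
          ((𝒮.S j b m).W_nonneg _ _ _))
      | true =>
        exact (h.cmp m ud F' hF k y hy i).trans (mul_le_mul_of_nonneg_right (by linarith)
          ((𝒮.S j b m).W_nonneg _ _ _))
  pay1 β := by
    cases β with
    | false => exact h.payo
    | true => exact h.payn
  mix := h.mixR
  pay2 := by
    have h1 : ∀ i, ∃ c2 : ℝ, i < nR → 0 ≤ c2 ∧ (∀ L', PayU (nvF hd b ∅) (used n K V f b) L' (wR i)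
        (𝒮.S j b) (𝒮.S j b) (cCk Cg C0) (cCk Cg C0) (cCk Cg C0) (cCk Cg C0)
        (K1 2 Cg * eI Cg τ e0 i) c2) ∧ c2 * √(K1 2 Cg * eI Cg τ e0 i) ≤ Pm := by
      intro i
      by_cases hi : i < nR
      · obtain ⟨c2, c3, a1, _, a3, _, a5, _⟩ := h.rnd i hi
        exact ⟨c2, fun _ => ⟨a1, a5, a3⟩⟩
      · exact ⟨0, fun h => absurd h hi⟩
    choose c2 hc2 using h1
    exact ⟨c2, fun i hi => (hc2 i hi).1, fun i hi => (hc2 i hi).2.1, fun i hi => (hc2 i hi).2.2⟩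
  pay3 := by
    have h1 : ∀ i, ∃ c3 : ℝ, i < nR → 0 ≤ c3 ∧
        (∀ β, PayU (nvF hd b ∅) (used n K V f b) K (fun m => wJ 𝒮 j b (β, m)) (𝒮.S j b) (R i)
          (cCk Cg C0) Cg (cCk Cg C0) (K1 2 Cg * eI Cg τ e0 i) (K1 2 Cg * eI Cg τ e0 i) c3) ∧
        c3 * √(K1 2 Cg * eI Cg τ e0 i) * (32 * 4 + 2 * e0) ≤ Q1 * eI Cg τ e0 i := by
      intro i
      by_cases hi : i < nR
      · obtain ⟨c2, c3, _, a2, _, a4, _, a6, a7⟩ := h.rnd i hi
        refine ⟨c3, fun _ => ⟨a2, fun β => ?_, a4⟩⟩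
        cases β with
        | false => exact a6
        | true => exact a7
      · exact ⟨0, fun h => absurd h hi⟩
    choose c3 hc3 using h1
    exact ⟨c3, fun i hi => (hc3 i hi).1, fun i hi => (hc3 i hi).2.1, fun i hi => (hc3 i hi).2.2⟩
  endS := h.endS

theorem numW_eq (Cg C0 Cb P e0 τ pg Pm Q1 cE Kb θ : ℝ) (nR : ℕ) :
    H213.numW Cb P θ Kb (cC2 Cg) Cg (cCk Cg C0) Cg e0 (cE0 Cg * e0) τ pg Pm Q1 cE nR =
      winNum Cg C0 Cb Cb P e0 τ pg Pm Q1 cE Kb θ nR := by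
  unfold H213.numW winNum
  norm_num

/-- **The windows.** -/
theorem winHyp_of_stepIn (h : StepIn) : WinHyp := by
  obtain ⟨Cb, hCb, hwin⟩ := H213.win_final
  obtain ⟨Cg, C0, A, κ, c, g, p1, q1, eE, kK, nR, D, Kf, cg, hCg, hC0, hA, hκ, hc, hg, hp1, hq1,
    hc2, heE, hkK, hcg, hKf, h⟩ := h
  have hCg0 : (0 : ℝ) ≤ Cg := le_trans (by unfold CgP; norm_num) hCg
  set r : ℝ := min (min (g - κ) (p1 - c)) (min (min (q1 - c) (κ / 2 - c)) (min eE (κ / 4))) with hr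
  have hr0 : 0 < r := by
    rw [hr]
    refine lt_min (lt_min (by linarith) (by linarith)) (lt_min (lt_min (by linarith)
      (by linarith)) (lt_min heE (by linarith)))
  have r1 : r ≤ g - κ := (min_le_left _ _).trans (min_le_left _ _)
  have r2 : r ≤ p1 - c := (min_le_left _ _).trans (min_le_right _ _)
  have r3 : r ≤ q1 - c := (min_le_right _ _).trans ((min_le_left _ _).trans (min_le_left _ _))
  have r4 : r ≤ κ / 2 - c := (min_le_right _ _).trans ((min_le_left _ _).trans (min_le_right _ _))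
  have r5 : r ≤ eE := (min_le_right _ _).trans ((min_le_right _ _).trans (min_le_left _ _))
  have r6 : r ≤ κ / 4 := (min_le_right _ _).trans ((min_le_right _ _).trans (min_le_right _ _))
  obtain ⟨C, hC, hnum⟩ := winNum_le (C0 := C0) nR hCg0 hA hCb hCb hκ hkK r1 r2 r3 r4 hc.le r5 r6
  refine ⟨2 ^ (-r), C, Cg, D, Kf, cg, uu κ, by positivity,
    Real.rpow_lt_one_of_one_lt_of_neg (by norm_num) (by linarith), hC, hCg, hcg,
    fun j => ⟨uu_pos κ j, uu_le_one hκ.le j⟩, fun n P hP hroot => ?_⟩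
  obtain ⟨κ', t, ι', R, wR, h1, h2, h3, h4, h5, h6⟩ := h n P hP hroot
  refine ⟨κ', t, h1, h2, h3, h4, h5, fun f o K V 𝒩 hd j hj b i Λ hΛ z hu ht => ?_⟩
  have hin := h6 f o K V 𝒩 hd j hj b
  have hmax : A ≤ max A 1 := le_max_left _ _
  have hm0 : 0 < max A 1 := lt_of_lt_of_le one_pos (le_max_right _ _)
  have hL2 : ∀ c, L2W (wJ t.sys j b c) (kbj A kK j) := by
    intro c
    have h7 : t.K (lv j c) ≤ max A 1 * 2 ^ (kK * ((j + 1 : ℕ) : ℝ)) := by
      have h8 : ∀ l : ℕ, l ≤ j + 1 → t.K l ≤ max A 1 * 2 ^ (kK * ((j + 1 : ℕ) : ℝ)) := by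
        intro l hl
        refine ((h3 l).2.trans (hKf l)).trans ?_
        have h9 : (2 : ℝ) ^ (kK * (l : ℝ)) ≤ 2 ^ (kK * ((j + 1 : ℕ) : ℝ)) := by
          refine Real.rpow_le_rpow_of_exponent_le (by norm_num) (mul_le_mul_of_nonneg_left ?_ hkK)
          exact_mod_cast hl
        exact mul_le_mul hmax h9 (by positivity) hm0.le
      unfold lv
      split_ifs
      · exact h8 _ le_rfl
      · exact h8 _ (Nat.le_succ j)
    refine H213.l2w_mono (H379.l2w_J t j b c) (by linarith [(h3 (lv j c)).1]) ?_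
    unfold kbj
    linarith
  have key := hwin n P hP hroot _ t.sys f o K V 𝒩 hd j b Cg
    (fun c => H379.mix_J t j b hCg h4 c) hCg0 (cC2 Cg) (uu κ j) le_rfl (uu_pos κ j)
    (uu_le_one hκ.le j) (kbj A kK j) (thK κ kK) (one_le_kbj hkK j) hL2 (thK_pos hκ hkK)
    (thK_le_one κ kK) (fun m => t.sys.S j b m) (R j b) (wR j b) (cCk Cg C0) Cg
    (cE0 Cg * uu κ j) (uu c j) (A * uu g j) (A * uu p1 j) (A * uu q1 j)
    (A * uu (κ + eE) j * (1 + P)) nR (mul_nonneg hA (uu_nonneg _ _)) hCg0 (uu_pos _ _)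
    (uu_le_one hc.le j) (mul_pos (cE0_pos hCg0) (uu_pos _ _)) (mul_nonneg hA (uu_nonneg _ _))
    (mul_nonneg hA (uu_nonneg _ _)) (by unfold cCk cE0; linarith) le_rfl
    (stepIn_of_levIn hCg0 hC0 hin) Λ z hΛ hu ht i
  rw [numW_eq] at key
  refine key.trans (mul_le_mul_of_nonneg_right ?_ (H347.cd_pos _ _ _).le)
  refine (hnum j P hP).trans (le_of_eq ?_)
  rw [uu_eq_pow r]
  ring

/-- **The steps.** -/
theorem stepHyp_of_stepIn (h : StepIn) : H444.StepHyp :=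
  H379.stepHyp_of_winHyp (winHyp_of_stepIn h)

/-- **The boundedness at `(4, 4, 4)`.** -/
theorem boundedAt_444_of_stepIn {C ε : ℝ} (hC : 0 ≤ C) (hE : H444.EnOut C ε) (h : StepIn) :
    Vale.Agent.P141.BoundedAt 4 4 4 (4 / 3) :=
  H379.boundedAt_444_of_winHyp hC hE (winHyp_of_stepIn h)

end

end Vale.Agent.P141.PL.H855
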