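import Vale.Agent.P141.PL.H855.Blk
import Vale.Agent.P141.H337.RootG

/-!
# P141, line W: the black box for moving slots

`MBB2 q γ γ' ς`: the estimate for four block families (two exponents: `γ'` for the relative height,
`ς` for the packing).  `Slot`: a moving node function = a (convergent) sum of block families.
`mbb_mov`: the black box for four moving slots, product form.
-/

namespace Vale.Agent.P141.PL.H855

open Finset
open Vale.Agent.P141.PL.H571 (W ell_mem_W)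
open Vale.Agent.P141.PL.H620 (loc1 nn ell pt pts sg)

noncomputable section

/-- **The black box for four block families.** -/
def MBB2 (q γ γ' ς : ℝ) : Prop := ∃ C : ℝ, 0 ≤ C ∧ ∀ (n : ℕ) (P : ℝ), 0 ≤ P →
  (∀ H' : ℝ, 1 ≤ H' → RootQ q n H' (P * H' ^ γ)) →
  ∀ o : ℤ, (o = 1 ∨ o = -1) → ∀ (w : ℕ × ℤ) (𝒲 : Finset (ℕ × ℤ)), w.1 ≤ n → Reg 𝒲 w →
  ∀ (A : Fin 4 → ℕ × ℤ → ℤ → ℝ) (e K h : Fin 4 → ℝ) (Lh Lk R : ℝ),
    (∀ j, Blk 𝒲 (A j) (e j) (K j) (h j)) → (∀ j, 0 < e j) → (∀ j, 1 ≤ K j) → (∀ j, 0 ≤ h j) →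
    1 ≤ Lh → 1 ≤ Lk → (∀ j, h j ≤ Lh * √(e j)) → (∀ j, K j ≤ Lk) →
    0 ≤ R → (∀ a b, a ≠ b → K a * K b ≤ R ^ 2) →
    TT o 𝒲 A ≤ C * P * Lh ^ γ' * Lk ^ ς * √(∏ j, e j) * R * 2 ^ w.1

/-- A moving slot: a convergent sum of block families; `S` bounds the sum of the sizes. -/
structure Slot (𝒲 : Finset (ℕ × ℤ)) (A : ℕ × ℤ → ℤ → ℝ) (ς Lh S : ℝ) : Prop where
  ex : ∃ (b : ℕ → ℕ × ℤ → ℤ → ℝ) (e K h : ℕ → ℝ),
    (∀ l, Blk 𝒲 (b l) (e l) (K l) (h l)) ∧ (∀ l, 0 < e l) ∧ (∀ l, 1 ≤ K l) ∧ (∀ l, 0 ≤ h l) ∧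
    (∀ l, h l ≤ Lh * √(e l)) ∧
    (∀ L, ∑ l ∈ range L, √(e l * K l) * K l ^ ς ≤ S) ∧
    (∀ N ∈ 𝒲, ∀ y ∈ W N.1 N.2,
      Filter.Tendsto (fun L => ∑ l ∈ range L, b l N y) Filter.atTop (nhds (A N y)))

theorem TT_expand (o : ℤ) (𝒲 : Finset (ℕ × ℤ)) (m : ℕ) (b : Fin 4 → ℕ → ℕ × ℤ → ℤ → ℝ) :
    TT o 𝒲 (fun j N y => ∑ l ∈ range m, b j l N y) ≤
      ∑ p ∈ Fintype.piFinset (fun _ : Fin 4 => range m), TT o 𝒲 (fun j => b j (p j)) := by
  unfold TT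
  rw [sum_comm]
  refine sum_le_sum fun N _ => ?_
  have h := Vale.Agent.P141.H337.loc1_expand N.1 (nn o N.2 0 0) m
    (fun j y => ∑ l ∈ range m, b j l N y) (fun l j y => b j l N y) (fun j x => rfl)
  unfold wN
  rw [h, mul_sum]
  exact abs_sum_le_sum_abs _ _

/-- convergence of the totals -/
theorem TT_tendsto {o : ℤ} (ho : o = 1 ∨ o = -1) {𝒲 : Finset (ℕ × ℤ)}
    {A : ℕ → Fin 4 → ℕ × ℤ → ℤ → ℝ} {A' : Fin 4 → ℕ × ℤ → ℤ → ℝ}
    (h : ∀ N ∈ 𝒲, ∀ j, ∀ y ∈ W N.1 N.2,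
      Filter.Tendsto (fun L => A L j N y) Filter.atTop (nhds (A' j N y))) :
    Filter.Tendsto (fun L => TT o 𝒲 (A L)) Filter.atTop (nhds (TT o 𝒲 A')) := by
  unfold TT
  refine tendsto_finsetSum _ fun N hN => ?_
  refine Filter.Tendsto.abs ?_
  unfold wN loc1
  refine Filter.Tendsto.const_mul _ (Filter.Tendsto.const_mul _ (tendsto_finsetSum _
    fun x hx => Filter.Tendsto.const_mul _ (tendsto_finsetProd _ fun j _ => ?_)))
  exact h N hN j _ (ell_mem_W ho hx j)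

/-- **The black box for four moving slots.** -/
theorem mbb_mov {q γ γ' ς : ℝ} (h : MBB2 q γ γ' ς) : ∃ C : ℝ, 0 ≤ C ∧
    ∀ (n : ℕ) (P : ℝ), 0 ≤ P → (∀ H' : ℝ, 1 ≤ H' → RootQ q n H' (P * H' ^ γ)) →
    ∀ o : ℤ, (o = 1 ∨ o = -1) → ∀ (w : ℕ × ℤ) (𝒲 : Finset (ℕ × ℤ)), w.1 ≤ n → Reg 𝒲 w →
    ∀ (A : Fin 4 → ℕ × ℤ → ℤ → ℝ) (Lh : ℝ) (S : Fin 4 → ℝ), 1 ≤ Lh → (∀ j, 0 ≤ S j) →
      (∀ j, Slot 𝒲 (A j) ς Lh (S j)) →
      TT o 𝒲 A ≤ C * P * Lh ^ γ' * (∏ j, S j) * 2 ^ w.1 := by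
  obtain ⟨C, hC, h⟩ := h
  refine ⟨C, hC, fun n P hP hroot o ho w 𝒲 hw hR A Lh S hLh hS hA => ?_⟩
  have hex := fun j => (hA j).ex
  choose b e K hh hb he hK hh0 hhe hsum hlim using hex
  have hpart : ∀ m, TT o 𝒲 (fun j N y => ∑ l ∈ range m, b j l N y) ≤
      C * P * Lh ^ γ' * (∏ j, S j) * 2 ^ w.1 := by
    intro m
    refine (TT_expand o 𝒲 m b).trans ?_
    have h1 : ∀ p ∈ Fintype.piFinset (fun _ : Fin 4 => range m),
        TT o 𝒲 (fun j => b j (p j)) ≤ C * P * Lh ^ γ' *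
          (∏ j, √(e j (p j) * K j (p j)) * K j (p j) ^ ς) * 2 ^ w.1 := by
      intro p _
      have hK1 : ∀ j, 1 ≤ K j (p j) := fun j => hK j _
      have hprod1 : ∀ t : Finset (Fin 4), 1 ≤ ∏ j ∈ t, K j (p j) := fun t =>
        Vale.Agent.P141.H337.one_le_prod_real t _ hK1
      have hle : ∀ j, K j (p j) ≤ ∏ i, K i (p i) := by
        intro j
        rw [← mul_prod_erase univ _ (mem_univ j)]
        have h2 := hprod1 (univ.erase j)
        nlinarith [hK1 j]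
      have h2 := h n P hP hroot o ho w 𝒲 hw hR (fun j => b j (p j)) (fun j => e j (p j))
        (fun j => K j (p j)) (fun j => hh j (p j)) Lh (∏ i, K i (p i)) (√(∏ i, K i (p i)))
        (fun j => hb j _) (fun j => he j _) hK1 (fun j => hh0 j _) hLh (hprod1 univ)
        (fun j => hhe j _) hle (Real.sqrt_nonneg _) (by
          intro a c hac
          rw [Real.sq_sqrt (by linarith [hprod1 univ]), ← mul_prod_erase univ _ (mem_univ a),
            ← mul_prod_erase (univ.erase a) _ (mem_erase.2 ⟨hac.symm, mem_univ c⟩)]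
          have h3 := hprod1 ((univ.erase a).erase c)
          have h4 : 0 ≤ K a (p a) * K c (p c) :=
            mul_nonneg (by linarith [hK1 a]) (by linarith [hK1 c])
          nlinarith)
      refine h2.trans (le_of_eq ?_)
      have e1 : (∏ i, K i (p i)) ^ ς = ∏ i, K i (p i) ^ ς :=
        (Real.finsetProd_rpow _ _ (fun i _ => by linarith [hK1 i]) _).symm
      have e2 : √(∏ j, e j (p j)) * √(∏ i, K i (p i)) = ∏ j, √(e j (p j) * K j (p j)) := by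
        rw [← Real.sqrt_mul (prod_nonneg fun j _ => (he j _).le), ← prod_mul_distrib,
          Real.sqrt_eq_rpow]
        rw [← Real.finsetProd_rpow _ _ (fun i _ => mul_nonneg (he i _).le (by linarith [hK1 i]))]
        exact prod_congr rfl fun i _ => (Real.sqrt_eq_rpow _).symm
      rw [e1, prod_mul_distrib, ← e2]
      ring
    refine (sum_le_sum h1).trans ?_
    rw [← sum_mul, ← mul_sum]
    have h3 := Finset.prod_univ_sum (fun _ : Fin 4 => range m)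
      (fun j l => √(e j l * K j l) * K j l ^ ς)
    rw [← h3]
    have h4 : ∏ j, ∑ l ∈ range m, √(e j l * K j l) * K j l ^ ς ≤ ∏ j, S j :=
      prod_le_prod (fun j _ => sum_nonneg fun l _ => mul_nonneg (Real.sqrt_nonneg _)
        (Real.rpow_nonneg (by linarith [hK j l]) _)) fun j _ => hsum j m
    have h5 : 0 ≤ C * P * Lh ^ γ' := mul_nonneg (mul_nonneg hC hP)
      (Real.rpow_nonneg (by linarith) _)
    exact mul_le_mul_of_nonneg_right (mul_le_mul_of_nonneg_left h4 h5) (by positivity)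
  exact le_of_tendsto' (TT_tendsto ho fun N hN j y hy => hlim j N hN y hy) hpart

end

end Vale.Agent.P141.PL.H855
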