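import Vale.Agent.P141.PL.H855.StepDefs
import Vale.Agent.P141.H501.Alive

/-!
# P141, line W: static combinations of atoms at the top of a region

`AtS S w L Λ x M P`: on the cube `(Λ, x)` the static function `P` is a finite combination of atoms
of scales in `[Λ, L]`, the local mass (at the cell `(Λ, x)`) is at most `M`.
`atS_alive`: data minus residual; `atS_births`: the births of one window above a cell;
`TR_atS`: a combination of atoms pays.
-/

namespace Vale.Agent.P141.PL.H855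

open Finset Function
open Vale.Agent.P141.H315 Vale.Agent.P141.PL.H318
open Vale.Agent.P141.H297 (Alv alive_sum birth_sum)
open Vale.Agent.P141.H347 (LW cd cd_pos Pth lden)
open Vale.Agent.P141.H8

noncomputable section

open scoped Classical

variable {X ι α : Type*} {g : Grid X}

/-- on the cube `(Λ, x)` the function `P` is a combination of atoms of local mass at most `M` -/
def AtS {S : CSys g ι} (w : LW S) (L Λ : ℕ) (x : X) (M : ℝ) (P : X → ℝ) : Prop :=
  ∃ I : Finset (Σ _ : ℕ, ι), ∃ c : (Σ _ : ℕ, ι) → ℝ, (∀ q ∈ I, Λ ≤ q.1 ∧ q.1 ≤ L) ∧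
    (∀ y ∈ g.cube Λ x, P y = ∑ q ∈ I, c q * S.a q.1 q.2 y) ∧
    ∑ q ∈ I, |c q| * w.ω q.1 Λ x q.2 ≤ M

variable {S : CSys g ι} {w : LW S} {L Λ : ℕ} {x : X} {M M' : ℝ} {P P' : X → ℝ}

theorem AtS.mono (h : AtS w L Λ x M P) (hM : M ≤ M') : AtS w L Λ x M' P := by
  obtain ⟨I, c, h1, h2, h3⟩ := h
  exact ⟨I, c, h1, h2, h3.trans hM⟩

theorem AtS.congr (h : AtS w L Λ x M P) (hP : ∀ y ∈ g.cube Λ x, P' y = P y) :
    AtS w L Λ x M P' := by
  obtain ⟨I, c, h1, h2, h3⟩ := h
  exact ⟨I, c, h1, fun y hy => (hP y hy).trans (h2 y hy), h3⟩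

theorem AtS.neg (h : AtS w L Λ x M P) : AtS w L Λ x M fun y => - P y := by
  obtain ⟨I, c, h1, h2, h3⟩ := h
  refine ⟨I, fun q => - c q, h1, fun y hy => ?_, ?_⟩
  · show - P y = _
    rw [h2 y hy, ← sum_neg_distrib]
    exact sum_congr rfl fun q _ => by ring
  · simpa only [abs_neg] using h3

theorem AtS.add (h : AtS w L Λ x M P) (h' : AtS w L Λ x M' P') :
    AtS w L Λ x (M + M') fun y => P y + P' y := by
  obtain ⟨I, c, h1, h2, h3⟩ := h
  obtain ⟨I', c', h1', h2', h3'⟩ := h'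
  have key : ∀ f : (Σ _ : ℕ, ι) → ℝ, ∑ q ∈ I ∪ I', (if q ∈ I then f q else 0) = ∑ q ∈ I, f q := by
    intro f
    rw [← sum_filter]
    congr 1
    ext q
    simp only [mem_filter, mem_union]
    tauto
  have key' : ∀ f : (Σ _ : ℕ, ι) → ℝ, ∑ q ∈ I ∪ I', (if q ∈ I' then f q else 0) =
      ∑ q ∈ I', f q := by
    intro f
    rw [← sum_filter]
    congr 1
    ext q
    simp only [mem_filter, mem_union]
    tauto
  refine ⟨I ∪ I', fun q => (if q ∈ I then c q else 0) + (if q ∈ I' then c' q else 0), ?_, ?_, ?_⟩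
  · intro q hq
    rcases mem_union.1 hq with h | h
    exacts [h1 q h, h1' q h]
  · intro y hy
    have e1 : ∀ q, ((if q ∈ I then c q else 0) + (if q ∈ I' then c' q else 0)) * S.a q.1 q.2 y =
        (if q ∈ I then c q * S.a q.1 q.2 y else 0) +
          (if q ∈ I' then c' q * S.a q.1 q.2 y else 0) := by
      intro q
      split_ifs <;> ring
    rw [sum_congr rfl fun q _ => e1 q, sum_add_distrib, key, key', ← h2 y hy, ← h2' y hy]
  · have e1 : ∀ q ∈ I ∪ I',
        |(if q ∈ I then c q else 0) + (if q ∈ I' then c' q else 0)| * w.ω q.1 Λ x q.2 ≤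
        (if q ∈ I then |c q| * w.ω q.1 Λ x q.2 else 0) +
          (if q ∈ I' then |c' q| * w.ω q.1 Λ x q.2 else 0) := by
      intro q _
      have h0 := w.nonneg q.1 Λ x q.2
      refine (mul_le_mul_of_nonneg_right (abs_add_le _ _) h0).trans (le_of_eq ?_)
      split_ifs <;> simp [add_mul]
    refine (sum_le_sum e1).trans ?_
    rw [sum_add_distrib, key, key']
    exact add_le_add h3 h3'

theorem AtS.sub (h : AtS w L Λ x M P) (h' : AtS w L Λ x M' P') :
    AtS w L Λ x (M + M') fun y => P y - P' y :=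
  (h.add h'.neg).congr fun y _ => sub_eq_add_neg _ _

variable {e : ℝ} {F : X → ℝ} {gd : ℕ → X → Prop} {V H : ℕ → X → ℝ} {rs : ℕ → X → Prop}
  {lm : ℕ → X → ℝ}

/-- **data minus residual** -/
theorem atS_alive (hP : Pth w L e F gd V H rs lm)
    (hgc : ∀ k x y, y ∈ g.cube k x → (gd k y ↔ gd k x))
    (hup : ∀ k < L, ∀ x, gd k x → gd (k + 1) x) {Λ : ℕ} (hΛ : Λ ≤ L) {x : X} (hx : gd Λ x) :
    AtS w L Λ x (lm Λ x) fun y => F y - V Λ y := by
  refine ⟨H501.Rec.idx S L H rs Λ x, fun q => bm S q.1 (H q.1) (g.cube q.1 x) q.2,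
    fun q hq => ?_, fun y hy => ?_, ?_⟩
  · obtain ⟨⟨h1, h2, -⟩, -⟩ := H501.Rec.mem_idx.1 hq
    exact ⟨h1, h2⟩
  · show F y - V Λ y = _
    rw [H501.Rec.sub_eq hP hgc hup hΛ hx hy, Finset.sum_apply]
    exact sum_congr rfl fun q _ => by simp [smul_eq_mul]
  · exact (H501.Rec.lm_eq hP hΛ hx).ge

/-- **a combination of births** of the scales `[Λ, Λ')` above the cell `(Λ, x)` -/
theorem atS_sum {G : ℕ → X → ℝ} {Λ Λ' : ℕ} (hΛ : Λ' ≤ L) {x : X} {P : X → ℝ}
    (hPs : ∀ y ∈ g.cube Λ x, P y = ∑ l ∈ Ico Λ Λ', birth S l (G l) y) :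
    AtS w L Λ x (∑ l ∈ Ico Λ Λ', lden w l Λ (G l) x) P := by
  refine ⟨(Ico Λ Λ').sigma fun l => (bm S l (G l) (g.cube l x)).support,
    fun q => bm S q.1 (G q.1) (g.cube q.1 x) q.2, fun q hq => ?_, fun y hy => ?_, ?_⟩
  · obtain ⟨h1, -⟩ := mem_sigma.1 hq
    have := mem_Ico.1 h1
    exact ⟨this.1, by omega⟩
  · rw [hPs y hy, sum_sigma]
    refine sum_congr rfl fun l hl => ?_
    rw [birth_sum S l (G l) (g.cube_subset (mem_Ico.1 hl).1 (g.mem l x) hy), Finsupp.sum]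
  · rw [sum_sigma]
    exact le_of_eq (sum_congr rfl fun l _ => by unfold lden; rw [Finsupp.sum])

/-- **A combination of atoms pays.** -/
theorem TR_atS {nv : N4 g α} {gd0 ud : ℕ → X → Prop} (hR : Rgn g gd0 Λ x ud)
    (h : AtS w L Λ x M P) (A : Fin 4 → ℕ → X → ℝ) (m : Fin 4) {p : ℝ} (hp : 0 ≤ p)
    (H1 : ∀ j i, Λ ≤ j → j ≤ L → TR nv ud (update A m (st (S.a j i))) ≤
      p * w.ω j Λ x i * cd g Λ x) :
    TR nv ud (update A m (st P)) ≤ p * M * cd g Λ x := by
  obtain ⟨I, c, h1, h2, h3⟩ := h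
  have e1 : TR nv ud (update A m (st P)) =
      TR nv ud (update A m (∑ q ∈ I, c q • st (S.a q.1 q.2))) := by
    refine TR_congr fun k y hy j z hz => ?_
    by_cases hj : j = m
    · subst hj
      rw [update_self, update_self]
      obtain ⟨h4, h5⟩ := hR.bel k y hy
      rw [Finset.sum_apply, Finset.sum_apply]
      refine (h2 z (g.cube_subset h4 h5 hz)).trans (sum_congr rfl fun q _ => ?_)
      simp [st, smul_eq_mul]
    · rw [update_of_ne hj, update_of_ne hj]
  rw [e1]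
  refine (TR_sum I A m _).trans ?_
  have h4 : ∀ q ∈ I, TR nv ud (update A m (c q • st (S.a q.1 q.2))) ≤
      p * (|c q| * w.ω q.1 Λ x q.2) * cd g Λ x := by
    intro q hq
    rw [TR_smul]
    refine (mul_le_mul_of_nonneg_left (H1 q.1 q.2 (h1 q hq).1 (h1 q hq).2)
      (abs_nonneg _)).trans (le_of_eq ?_)
    ring
  refine (sum_le_sum h4).trans ?_
  rw [← sum_mul, ← mul_sum]
  exact mul_le_mul_of_nonneg_right (mul_le_mul_of_nonneg_left h3 hp) (cd_pos g Λ x).le

end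

end Vale.Agent.P141.PL.H855
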