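import Vale.Agent.P141.PL.H855.Slots

/-!
# P141, line W: block families and the statement of the MBB lemma

`Reg 𝒲 w`: the nodes `𝒲` are below the cell `w` and closed under ancestors up to `w`.
`Blk 𝒲 A e K h`: the node function `A` is static on windows; `e` = window average of the square on
every node of the region, `K` = packing of the tops below every node of the region, `h` = height.
`MBB q γ`: the root estimate as a black box for four block families.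
-/

namespace Vale.Agent.P141.PL.H855

open Finset
open Vale.Agent.P141.PL.H571 (W)

noncomputable section

/-- a region of nodes below the cell `w` -/
structure Reg (𝒲 : Finset (ℕ × ℤ)) (w : ℕ × ℤ) : Prop where
  pos : ∀ N ∈ 𝒲, 1 ≤ N.1
  bel : ∀ N ∈ 𝒲, Bel N w
  cl : ∀ N ∈ 𝒲, ∀ M : ℕ × ℤ, Bel N M → Bel M w → M ∈ 𝒲

/-- the tops of a top map below a node -/
def tops (𝒲 : Finset (ℕ × ℤ)) (T : ℕ × ℤ → ℕ × ℤ) (M : ℕ × ℤ) : Finset (ℕ × ℤ) := by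
  classical exact 𝒲.filter fun N => Bel N M ∧ T N = N

theorem mem_tops {𝒲 : Finset (ℕ × ℤ)} {T : ℕ × ℤ → ℕ × ℤ} {M N : ℕ × ℤ} :
    N ∈ tops 𝒲 T M ↔ N ∈ 𝒲 ∧ Bel N M ∧ T N = N := by
  unfold tops; simp only [mem_filter]

/-- `T N` is the top of the window of the node `N`; windows are convex, their tops have the
packing `K` -/
structure TopMap (𝒲 : Finset (ℕ × ℤ)) (T : ℕ × ℤ → ℕ × ℤ) (K : ℝ) : Prop where
  mem : ∀ N ∈ 𝒲, T N ∈ 𝒲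
  bel : ∀ N ∈ 𝒲, Bel N (T N)
  conv : ∀ N ∈ 𝒲, ∀ M ∈ 𝒲, Bel N M → Bel M (T N) → T M = T N
  pack : ∀ M ∈ 𝒲, ∑ N ∈ tops 𝒲 T M, (2 : ℝ) ^ N.1 ≤ K * 2 ^ M.1

/-- block families -/
structure Blk (𝒲 : Finset (ℕ × ℤ)) (A : ℕ × ℤ → ℤ → ℝ) (e K h : ℝ) : Prop where
  win : ∃ (T : ℕ × ℤ → ℕ × ℤ) (G : ℕ × ℤ → ℤ → ℝ), TopMap 𝒲 T K ∧
    ∀ N ∈ 𝒲, ∀ y ∈ W N.1 N.2, A N y = G (T N) y
  sup : ∀ N ∈ 𝒲, ∀ y ∈ W N.1 N.2, |A N y| ≤ h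
  en : ∀ N ∈ 𝒲, ∑ y ∈ W N.1 N.2, A N y ^ 2 ≤ e * 2 ^ (N.1 + 5)

/-- **The MBB lemma (statement).**  Four block families, the root constant `P H^γ` as a black box:
the two families with the highest tops do not pay for their packing. -/
def MBB (q γ : ℝ) : Prop := ∃ C : ℝ, 0 ≤ C ∧ ∀ (n : ℕ) (P : ℝ), 0 ≤ P →
  (∀ H' : ℝ, 1 ≤ H' → RootQ q n H' (P * H' ^ γ)) →
  ∀ o : ℤ, (o = 1 ∨ o = -1) → ∀ (w : ℕ × ℤ) (𝒲 : Finset (ℕ × ℤ)), w.1 ≤ n → Reg 𝒲 w →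
  ∀ (A : Fin 4 → ℕ × ℤ → ℤ → ℝ) (e K h : Fin 4 → ℝ) (ρ Km : ℝ),
    (∀ j, Blk 𝒲 (A j) (e j) (K j) (h j)) → (∀ j, 0 < e j) → (∀ j, 1 ≤ K j) → (∀ j, 0 ≤ h j) →
    1 ≤ ρ → (∀ j, K j ^ 2 ≤ ρ) → (∀ j, (K j * h j) ^ 2 ≤ ρ * e j) →
    0 ≤ Km → (∀ a b, a ≠ b → K a * K b ≤ Km ^ 2) →
    TT o 𝒲 A ≤ C * P * ρ ^ (γ / 2 + 8 * (q - 2)) * (1 + Real.log ρ) ^ 4 *
      √(∏ j, e j) * Km * 2 ^ w.1

end

end Vale.Agent.P141.PL.H855
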