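import Vale.Agent.P141.PL.H855.RootG

/-!
# P141, line W: the bootstrap, level systems give the root estimate
-/

namespace Vale.Agent.P141.PL.H855

open Finset

noncomputable section

theorem sum_geom_le {ρ C : ℝ} (hρ0 : 0 ≤ ρ) {j0 : ℕ}
    (hj : C * ρ ^ j0 ≤ (1 - ρ) / 2) (J : ℕ) : ∑ i ∈ range J, C * ρ ^ (j0 + i) ≤ 1 / 2 := by
  have h1 : ∑ i ∈ range J, C * ρ ^ (j0 + i) = C * ρ ^ j0 * ∑ i ∈ range J, ρ ^ i := by
    rw [mul_sum]
    exact sum_congr rfl fun i _ => by rw [pow_add]; ring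
  have h2 : (1 - ρ) * ∑ i ∈ range J, ρ ^ i ≤ 1 := by
    have h3 := mul_neg_geom_sum ρ J
    rw [h3]
    linarith [pow_nonneg hρ0 J]
  rw [h1]
  have h4 : 0 ≤ ∑ i ∈ range J, ρ ^ i := sum_nonneg fun i _ => pow_nonneg hρ0 i
  calc C * ρ ^ j0 * ∑ i ∈ range J, ρ ^ i ≤ (1 - ρ) / 2 * ∑ i ∈ range J, ρ ^ i :=
        mul_le_mul_of_nonneg_right hj h4
    _ ≤ 1 / 2 := by linarith

/-- telescoping -/
theorem abs_tele_le (w : ℝ) (x : ℕ → ℝ) (j0 m : ℕ) :
    |w| ≤ |w - x j0| + ∑ i ∈ range m, |x (j0 + i) - x (j0 + i + 1)| + |x (j0 + m)| := by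
  induction m with
  | zero =>
    rw [sum_range_zero, add_zero, add_zero]
    have h := abs_add_le (w - x j0) (x j0)
    rwa [sub_add_cancel] at h
  | succ m ih =>
    rw [sum_range_succ]
    have h := abs_add_le (x (j0 + m) - x (j0 + m + 1)) (x (j0 + m + 1))
    rw [sub_add_cancel] at h
    have e : j0 + (m + 1) = j0 + m + 1 := by ring
    rw [e]
    linarith

/-- one step of the bootstrap for one datum -/
theorem boot_dat {q ρ C H M : ℝ} {A j0 n : ℕ} (hρ0 : 0 ≤ ρ)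
    {f : Fin 4 → ℤ → ℝ} {o : ℤ} {K : ℕ} {V : ℤ} {𝒩 : Finset (ℕ × ℤ)}
    (hd : Dat q n H f o K V 𝒩) {X : ℕ → ℕ × ℤ → ℝ} {ℬ : ℕ → Finset (ℕ × ℤ)}
    (hs : LvSys ρ C A j0 f o K 𝒩 X ℬ) (hM : 0 ≤ M) (hroot : RootQ q n H M)
    (hj : C * ρ ^ j0 ≤ (1 - ρ) / 2) :
    ∑ N ∈ 𝒩, |wN o f N| ≤ (C * 2 ^ (A * j0) + 3 / 2 + M / 2) * 2 ^ K := by
  classical
  have h2K : (1 : ℝ) ≤ 2 ^ K := one_le_pow₀ (by norm_num)
  set G : Finset (ℕ × ℤ) := 𝒩.filter fun N => ∀ j, j0 ≤ j → ¬ Bad (ℬ j) N with hG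
  set B : Finset (ℕ × ℤ) := 𝒩.filter fun N => ¬ ∀ j, j0 ≤ j → ¬ Bad (ℬ j) N with hB
  -- the last level
  have hb : ∀ N, ∃ j, N ∈ B → j0 ≤ j ∧ Bad (ℬ j) N := by
    intro N
    by_cases h : N ∈ B
    · have h1 := (mem_filter.1 h).2
      push Not at h1
      obtain ⟨j, h2, h3⟩ := h1
      exact ⟨j, fun _ => ⟨h2, h3⟩⟩
    · exact ⟨0, fun h' => absurd h' h⟩
  choose jb hjb using hb
  set ε : ℝ := 1 / (𝒩.card + 1) with hε
  have hε0 : 0 < ε := by positivity
  have hg : ∀ N, ∃ J, N ∈ G → ∀ j, J ≤ j → |X j N| ≤ ε := by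
    intro N
    by_cases h : N ∈ G
    · obtain ⟨J, hJ⟩ := hs.lim N (mem_filter.1 h).1 (mem_filter.1 h).2 ε hε0
      exact ⟨J, fun _ => hJ⟩
    · exact ⟨0, fun h' => absurd h' h⟩
  choose jg hjg using hg
  set m : ℕ := (𝒩.sup jb) + (𝒩.sup jg) + 1 with hm
  -- the good part
  have hgood : ∑ N ∈ G, |wN o f N| ≤ (C * 2 ^ (A * j0) + 3 / 2) * 2 ^ K := by
    have h1 : ∑ N ∈ G, |wN o f N| ≤ ∑ N ∈ G, (|wN o f N - X j0 N| +
        ∑ i ∈ range m, |X (j0 + i) N - X (j0 + i + 1) N| + |X (j0 + m) N|) :=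
      sum_le_sum fun N _ => abs_tele_le _ (fun j => X j N) j0 m
    refine h1.trans ?_
    rw [sum_add_distrib, sum_add_distrib]
    have hsubG : ∀ j, j0 ≤ j → G ⊆ gd 𝒩 (ℬ j) := fun j hj' N hN =>
      mem_gd.2 ⟨(mem_filter.1 hN).1, (mem_filter.1 hN).2 j hj'⟩
    have a1 : ∑ N ∈ G, |wN o f N - X j0 N| ≤ C * 2 ^ (A * j0) * 2 ^ K :=
      (sum_le_sum_of_subset_of_nonneg (hsubG j0 le_rfl) fun _ _ _ => abs_nonneg _).trans hs.first
    have a2 : ∑ N ∈ G, ∑ i ∈ range m, |X (j0 + i) N - X (j0 + i + 1) N| ≤ 1 / 2 * 2 ^ K := by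
      rw [sum_comm]
      have h2 : ∀ i ∈ range m, ∑ N ∈ G, |X (j0 + i) N - X (j0 + i + 1) N| ≤
          C * ρ ^ (j0 + i) * 2 ^ K := by
        intro i _
        refine (sum_le_sum_of_subset_of_nonneg ?_ fun _ _ _ => abs_nonneg _).trans
          (hs.step (j0 + i) (by omega))
        intro N hN
        exact mem_gd.2 ⟨hsubG (j0 + i) (by omega) hN, (mem_filter.1 hN).2 (j0 + i + 1) (by omega)⟩
      refine (sum_le_sum h2).trans ?_
      rw [← sum_mul]
      exact mul_le_mul_of_nonneg_right (sum_geom_le hρ0 hj m) (by positivity)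
    have a3 : ∑ N ∈ G, |X (j0 + m) N| ≤ 1 := by
      have h2 : ∀ N ∈ G, |X (j0 + m) N| ≤ ε := by
        intro N hN
        refine hjg N hN _ ?_
        have := Finset.le_sup (f := jg) (mem_filter.1 hN).1
        omega
      refine (sum_le_sum h2).trans ?_
      rw [sum_const, nsmul_eq_mul]
      have h3 : (G.card : ℝ) ≤ 𝒩.card := by exact_mod_cast card_le_card (filter_subset _ _)
      have h4 : ((𝒩.card : ℝ) + 1) * ε = 1 := by rw [hε]; field_simp
      nlinarith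
    nlinarith
  -- the bad part
  have hbad : ∑ N ∈ B, |wN o f N| ≤ M / 2 * 2 ^ K := by
    have h1 : ∑ N ∈ B, |wN o f N| ≤ ∑ i ∈ range m, ∑ Q ∈ ℬ (j0 + i),
        ∑ N ∈ 𝒩.filter (fun N => Bel N Q), |wN o f N| := by
      have h2 : ∀ N ∈ B, |wN o f N| ≤ ∑ i ∈ range m, ∑ Q ∈ ℬ (j0 + i),
          (if Bel N Q then |wN o f N| else 0) := by
        intro N hN
        obtain ⟨h3, Q, hQ, hNQ⟩ := hjb N hN
        have h4 : jb N - j0 ∈ range m := by
          have := Finset.le_sup (f := jb) (mem_filter.1 hN).1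
          rw [mem_range]
          omega
        have h5 : j0 + (jb N - j0) = jb N := by omega
        have nn : ∀ i ∈ range m, 0 ≤ ∑ Q ∈ ℬ (j0 + i), (if Bel N Q then |wN o f N| else 0) :=
          fun i _ => sum_nonneg fun Q _ => by split_ifs <;> simp
        refine le_trans ?_ (single_le_sum nn h4)
        simp only [h5]
        refine le_trans (le_of_eq ?_) (single_le_sum (f := fun Q => if Bel N Q then |wN o f N|
          else 0) (fun Q _ => by split_ifs <;> simp) hQ)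
        simp only [if_pos hNQ]
      refine (sum_le_sum h2).trans ?_
      rw [sum_comm]
      refine sum_le_sum fun i _ => ?_
      rw [sum_comm]
      refine sum_le_sum fun Q _ => ?_
      have h5 : ∑ N ∈ B, (if Bel N Q then |wN o f N| else 0) ≤
          ∑ N ∈ 𝒩, (if Bel N Q then |wN o f N| else 0) :=
        sum_le_sum_of_subset_of_nonneg (filter_subset _ _) fun _ _ _ => by
          split_ifs <;> simp
      refine h5.trans (le_of_eq ?_)
      rw [sum_filter]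
    refine h1.trans ?_
    have h2 : ∀ i ∈ range m, ∑ Q ∈ ℬ (j0 + i), ∑ N ∈ 𝒩.filter (fun N => Bel N Q), |wN o f N| ≤
        M * 2 ^ K * (C * ρ ^ (j0 + i)) := by
      intro i _
      have h3 : ∀ Q ∈ ℬ (j0 + i), ∑ N ∈ 𝒩.filter (fun N => Bel N Q), |wN o f N| ≤
          M * 2 ^ Q.1 := by
        intro Q hQ
        exact hroot f o Q.1 Q.2 _ (hd.cut (hs.sub (j0 + i) (by omega) hQ) fun N => mem_filter)
      refine (sum_le_sum h3).trans ?_
      rw [← mul_sum]
      have h4 := mul_le_mul_of_nonneg_left (hs.bad (j0 + i) (by omega)) hM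
      linarith
    refine (sum_le_sum h2).trans ?_
    rw [← mul_sum]
    have h3 := mul_le_mul_of_nonneg_left (sum_geom_le hρ0 hj m)
      (by positivity : 0 ≤ M * 2 ^ K)
    linarith
  have hsplit : ∑ N ∈ 𝒩, |wN o f N| = ∑ N ∈ G, |wN o f N| + ∑ N ∈ B, |wN o f N| := by
    rw [hG, hB]
    exact (sum_filter_add_sum_filter_not 𝒩 _ _).symm
  rw [hsplit]
  linarith

theorem RootQ.mono {q : ℝ} {n : ℕ} {H P P' : ℝ} (h : RootQ q n H P) (hP : P ≤ P') :
    RootQ q n H P' := fun f o K V 𝒩 hd => (h f o K V 𝒩 hd).trans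
  (mul_le_mul_of_nonneg_right hP (by positivity))

theorem Dat.mono {q : ℝ} {n : ℕ} {H H' : ℝ} {f : Fin 4 → ℤ → ℝ} {o : ℤ} {K : ℕ} {V : ℤ}
    {𝒩 : Finset (ℕ × ℤ)} (h : Dat q n H f o K V 𝒩) (hH : H ≤ H') : Dat q n H' f o K V 𝒩 :=
  ⟨h.supp, h.ho, h.hK, h.root, h.cl, fun j x => (h.sup j x).trans hH, h.lq⟩

/-- **The bootstrap.** -/
theorem rootG_of_levelSys {q : ℝ} (hq : 2 < q) (h : LevelSys q) : RootG q := by
  obtain ⟨A, h⟩ := h
  intro γ hγ
  obtain ⟨C0, hC0⟩ := exists_nat_ge ((A : ℝ) / γ + 1)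
  have hC01 : (1 : ℝ) ≤ C0 := by
    have : 0 ≤ (A : ℝ) / γ := by positivity
    linarith
  have hC0p : (0 : ℝ) < C0 := by linarith
  obtain ⟨ρ, C, hρ0, hρ1, hC, h⟩ := h C0
  -- the first level for bounded functions
  obtain ⟨js, hjs1, hjs⟩ : ∃ js : ℕ, 1 ≤ js ∧ ∀ j, js ≤ j → C * ρ ^ j ≤ (1 - ρ) / 2 := by
    have h1 : Filter.Tendsto (fun j : ℕ => C * ρ ^ j) Filter.atTop (nhds (C * 0)) :=
      (tendsto_pow_atTop_nhds_zero_of_lt_one hρ0 hρ1).const_mul C
    rw [mul_zero] at h1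
    have h2 : (0 : ℝ) < (1 - ρ) / 2 := by linarith
    obtain ⟨j1, hj1⟩ := Filter.eventually_atTop.1 (h1.eventually_le_const h2)
    exact ⟨j1 + 1, by omega, fun j hj => hj1 j (by omega)⟩
  set Bc : ℝ := C * 2 ^ (A * (js + 1)) + 3 / 2 with hBc
  have hBc0 : 0 ≤ Bc := by positivity
  -- one step
  have hstep : ∀ n : ℕ, ∀ P : ℝ, 0 ≤ P → (∀ H : ℝ, 1 ≤ H → RootQ q n H (P * H ^ γ)) →
      ∀ H : ℝ, 1 ≤ H → RootQ q n H ((Bc + P / 2) * H ^ γ) := by
    intro n P hP hPr H hH f o K V 𝒩 hd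
    have hH0 : 0 < H := by linarith
    have hHγ : 1 ≤ H ^ γ := Real.one_le_rpow hH hγ.le
    -- the first level
    set l : ℕ := ⌈Real.logb 2 H / C0⌉₊ with hl
    set j0 : ℕ := max js l with hj0
    have hlog0 : 0 ≤ Real.logb 2 H := Real.logb_nonneg (by norm_num) hH
    have hj0js : js ≤ j0 := le_max_left _ _
    have hHj : H ≤ 2 ^ (C0 * j0) := by
      have h1 : Real.logb 2 H / C0 ≤ j0 := (Nat.le_ceil _).trans (by
        exact_mod_cast (le_max_right js l))
      rw [div_le_iff₀ hC0p] at h1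
      have h2 : H = (2 : ℝ) ^ Real.logb 2 H :=
        (Real.rpow_logb (by norm_num) (by norm_num) hH0).symm
      rw [h2, ← Real.rpow_natCast]
      refine Real.rpow_le_rpow_of_exponent_le (by norm_num) ?_
      push_cast
      linarith
    have hA : (2 : ℝ) ^ (A * j0) ≤ 2 ^ (A * (js + 1)) * H ^ γ := by
      rcases le_total l js with hlj | hlj
      · have e : j0 = js := max_eq_left hlj
        rw [e]
        have h1 : (2 : ℝ) ^ (A * js) ≤ 2 ^ (A * (js + 1)) :=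
          pow_le_pow_right₀ (by norm_num) (Nat.mul_le_mul_left _ (by omega))
        nlinarith [pow_nonneg (by norm_num : (0 : ℝ) ≤ 2) (A * (js + 1))]
      · have e : j0 = l := max_eq_right hlj
        rw [e]
        have h1 : (l : ℝ) ≤ Real.logb 2 H / C0 + 1 :=
          (Nat.ceil_lt_add_one (by positivity)).le
        have h2 : ((A * l : ℕ) : ℝ) ≤ A + γ * Real.logb 2 H := by
          push_cast
          have h3 : (A : ℝ) * l ≤ A * (Real.logb 2 H / C0 + 1) :=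
            mul_le_mul_of_nonneg_left h1 (Nat.cast_nonneg A)
          have h4 : (A : ℝ) / C0 ≤ γ := by
            rw [div_le_iff₀ hC0p]
            have h5 : (A : ℝ) / γ ≤ C0 := by linarith
            rw [div_le_iff₀ hγ] at h5
            linarith
          have h5 := mul_le_mul_of_nonneg_right h4 hlog0
          have h6 : (A : ℝ) * (Real.logb 2 H / C0 + 1) = A / C0 * Real.logb 2 H + A := by ring
          linarith
        calc (2 : ℝ) ^ (A * l) = (2 : ℝ) ^ ((A * l : ℕ) : ℝ) := (Real.rpow_natCast _ _).symm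
          _ ≤ (2 : ℝ) ^ ((A : ℝ) + γ * Real.logb 2 H) :=
              Real.rpow_le_rpow_of_exponent_le (by norm_num) h2
          _ = 2 ^ A * H ^ γ := by
              rw [Real.rpow_add (by norm_num), Real.rpow_natCast, mul_comm γ,
                Real.rpow_mul (by norm_num), Real.rpow_logb (by norm_num) (by norm_num) hH0]
          _ ≤ 2 ^ (A * (js + 1)) * H ^ γ := by
              refine mul_le_mul_of_nonneg_right ?_ (by positivity)
              exact pow_le_pow_right₀ (by norm_num) (Nat.le_mul_of_pos_right _ (by omega))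
    obtain ⟨X, ℬ, hs⟩ := h j0 (hjs1.trans hj0js) n f o K V 𝒩 (hd.mono hHj)
    have h1 := boot_dat hρ0 hd hs (by positivity) (hPr H hH) (hjs j0 hj0js)
    refine h1.trans (mul_le_mul_of_nonneg_right ?_ (by positivity))
    have h2 := mul_le_mul_of_nonneg_left hA hC
    rw [hBc]
    nlinarith
  refine ⟨2 * Bc, by positivity, fun n H hH f o K V 𝒩 hd => ?_⟩
  -- iteration
  have hit : ∀ i : ℕ, ∀ H : ℝ, 1 ≤ H → RootQ q n H ((2 * Bc + 2 ^ 10 * n / 2 ^ i) * H ^ γ) := by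
    intro i
    induction i with
    | zero =>
      intro H hH
      refine (rootQ_trivial hq n H).mono ?_
      have hHγ : 1 ≤ H ^ γ := Real.one_le_rpow hH hγ.le
      have h1 : (0 : ℝ) ≤ 2 ^ 10 * n := by positivity
      rw [pow_zero, div_one]
      nlinarith
    | succ i ih =>
      intro H hH
      refine (hstep n _ (by positivity) ih H hH).mono (le_of_eq ?_)
      rw [pow_succ]
      field_simp
      ring
  have hlim : Filter.Tendsto (fun i : ℕ => (2 * Bc + 2 ^ 10 * (n : ℝ) / 2 ^ i) * H ^ γ * 2 ^ K)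
      Filter.atTop (nhds ((2 * Bc + 0) * H ^ γ * 2 ^ K)) := by
    have h1 : Filter.Tendsto (fun i : ℕ => 2 ^ 10 * (n : ℝ) / 2 ^ i) Filter.atTop (nhds 0) := by
      have h2 := (tendsto_pow_atTop_nhds_zero_of_lt_one (by norm_num : (0 : ℝ) ≤ 1 / 2)
        (by norm_num)).const_mul (2 ^ 10 * (n : ℝ))
      rw [mul_zero] at h2
      refine h2.congr fun i => ?_
      rw [one_div, inv_pow]
      rfl
    exact ((h1.const_add _).mul_const _).mul_const _
  rw [add_zero] at hlim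
  exact ge_of_tendsto' hlim fun i => hit i H hH f o K V 𝒩 hd

end

end Vale.Agent.P141.PL.H855
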