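import Vale.Agent.P141.PL.H855.Boot
import Vale.Agent.P141.H337.RootG

/-!
# P141, line W: the bootstrap with the root constant as a black box

`LevelSysB q γ`: a system of levels in whose steps the root constant `P H^γ` (of the same number of
scales) may be used, with a gain `ρ ^ j`.  It gives `RootQ q n H (P H^γ)` uniformly in `n`, and the
boundedness of the trilinear Hilbert transform at `(4,4,4)`.
-/

namespace Vale.Agent.P141.PL.H855

open Finset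

noncomputable section

/-- the nodes which are not below a bad cell of a level `≤ j` -/
def gdU (j0 j : ℕ) (𝒩 : Finset (ℕ × ℤ)) (ℬ : ℕ → Finset (ℕ × ℤ)) : Finset (ℕ × ℤ) := by
  classical exact 𝒩.filter fun N => ∀ i, j0 ≤ i → i ≤ j → ¬ Bad (ℬ i) N

theorem mem_gdU {j0 j : ℕ} {𝒩 : Finset (ℕ × ℤ)} {ℬ : ℕ → Finset (ℕ × ℤ)} {N : ℕ × ℤ} :
    N ∈ gdU j0 j 𝒩 ℬ ↔ N ∈ 𝒩 ∧ ∀ i, j0 ≤ i → i ≤ j → ¬ Bad (ℬ i) N := by
  unfold gdU; simp only [mem_filter]

/-- a system of levels; `E` is the size of the black box; nodes below a bad cell of any level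
`≤ j + 1` are not seen by the step `j` -/
structure LvSysB (ρ C : ℝ) (A j0 : ℕ) (E : ℝ) (f : Fin 4 → ℤ → ℝ) (o : ℤ) (K : ℕ)
    (𝒩 : Finset (ℕ × ℤ)) (X : ℕ → ℕ × ℤ → ℝ) (ℬ : ℕ → Finset (ℕ × ℤ)) : Prop where
  sub : ∀ j, j0 ≤ j → ℬ j ⊆ 𝒩
  bad : ∀ j, j0 ≤ j → ∑ Q ∈ ℬ j, (2 : ℝ) ^ Q.1 ≤ C * ρ ^ j * 2 ^ K
  first : ∑ N ∈ gd 𝒩 (ℬ j0), |wN o f N - X j0 N| ≤ (C * 2 ^ (A * j0) + C * ρ ^ j0 * E) * 2 ^ K
  step : ∀ j, j0 ≤ j → ∑ N ∈ gdU j0 (j + 1) 𝒩 ℬ, |X j N - X (j + 1) N| ≤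
    C * ρ ^ j * E * 2 ^ K
  lim : ∀ N ∈ 𝒩, (∀ j, j0 ≤ j → ¬ Bad (ℬ j) N) → ∀ ε : ℝ, 0 < ε → ∃ J, ∀ j, J ≤ j → |X j N| ≤ ε

/-- **The target of the level construction with the black box.** -/
def LevelSysB (q γ : ℝ) : Prop := ∃ A C0 : ℕ, 1 ≤ C0 ∧ (A : ℝ) ≤ γ * C0 ∧ ∃ ρ C : ℝ, 0 ≤ ρ ∧
  ρ < 1 ∧ 0 ≤ C ∧ ∀ j0 : ℕ, 1 ≤ j0 → ∀ (n : ℕ) (P : ℝ), 0 ≤ P →
    (∀ H' : ℝ, 1 ≤ H' → RootQ q n H' (P * H' ^ γ)) → ∀ H : ℝ, 1 ≤ H → H ≤ 2 ^ (C0 * j0) →
    ∀ f o K V 𝒩, Dat q n H f o K V 𝒩 →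
      ∃ X ℬ, LvSysB ρ C A j0 ((1 + P) * H ^ γ) f o K 𝒩 X ℬ

theorem sum_geom_le' {ρ C δ : ℝ} (hρ0 : 0 ≤ ρ) {j0 : ℕ}
    (hj : C * ρ ^ j0 ≤ (1 - ρ) * δ) (hδ : 0 ≤ δ) (J : ℕ) :
    ∑ i ∈ range J, C * ρ ^ (j0 + i) ≤ δ := by
  have h1 : ∑ i ∈ range J, C * ρ ^ (j0 + i) = C * ρ ^ j0 * ∑ i ∈ range J, ρ ^ i := by
    rw [mul_sum]
    exact sum_congr rfl fun i _ => by rw [pow_add]; ring
  have h2 : (1 - ρ) * ∑ i ∈ range J, ρ ^ i ≤ 1 := by
    have h3 := mul_neg_geom_sum ρ J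
    rw [h3]
    linarith [pow_nonneg hρ0 J]
  rw [h1]
  have h4 : 0 ≤ ∑ i ∈ range J, ρ ^ i := sum_nonneg fun i _ => pow_nonneg hρ0 i
  calc C * ρ ^ j0 * ∑ i ∈ range J, ρ ^ i ≤ (1 - ρ) * δ * ∑ i ∈ range J, ρ ^ i :=
        mul_le_mul_of_nonneg_right hj h4
    _ = δ * ((1 - ρ) * ∑ i ∈ range J, ρ ^ i) := by ring
    _ ≤ δ * 1 := mul_le_mul_of_nonneg_left h2 hδ
    _ = δ := mul_one δ

/-- one step of the bootstrap for one datum -/
theorem boot_datB {q ρ C H M E : ℝ} {A j0 n : ℕ} (hρ0 : 0 ≤ ρ)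
    {f : Fin 4 → ℤ → ℝ} {o : ℤ} {K : ℕ} {V : ℤ} {𝒩 : Finset (ℕ × ℤ)}
    (hd : Dat q n H f o K V 𝒩) {X : ℕ → ℕ × ℤ → ℝ} {ℬ : ℕ → Finset (ℕ × ℤ)}
    (hs : LvSysB ρ C A j0 E f o K 𝒩 X ℬ) (hM : 0 ≤ M) (hE : 0 ≤ E) (hroot : RootQ q n H M)
    (hρ1 : ρ < 1) (hj : C * ρ ^ j0 ≤ (1 - ρ) * (1 / 8)) :
    ∑ N ∈ 𝒩, |wN o f N| ≤ (C * 2 ^ (A * j0) + 1 + E / 4 + M / 4) * 2 ^ K := by
  classical
  have h2K : (1 : ℝ) ≤ 2 ^ K := one_le_pow₀ (by norm_num)
  set G : Finset (ℕ × ℤ) := 𝒩.filter fun N => ∀ j, j0 ≤ j → ¬ Bad (ℬ j) N with hG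
  set B : Finset (ℕ × ℤ) := 𝒩.filter fun N => ¬ ∀ j, j0 ≤ j → ¬ Bad (ℬ j) N with hB
  -- the last level
  have hb : ∀ N, ∃ j, N ∈ B → j0 ≤ j ∧ Bad (ℬ j) N := by
    intro N
    by_cases h : N ∈ B
    · have h1 := (mem_filter.1 h).2
      push Not at h1
      obtain ⟨j, h2, h3⟩ := h1
      exact ⟨j, fun _ => ⟨h2, h3⟩⟩
    · exact ⟨0, fun h' => absurd h' h⟩
  choose jb hjb using hb
  set ε : ℝ := 1 / (𝒩.card + 1) with hε
  have hε0 : 0 < ε := by positivity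
  have hg : ∀ N, ∃ J, N ∈ G → ∀ j, J ≤ j → |X j N| ≤ ε := by
    intro N
    by_cases h : N ∈ G
    · obtain ⟨J, hJ⟩ := hs.lim N (mem_filter.1 h).1 (mem_filter.1 h).2 ε hε0
      exact ⟨J, fun _ => hJ⟩
    · exact ⟨0, fun h' => absurd h' h⟩
  choose jg hjg using hg
  set m : ℕ := (𝒩.sup jb) + (𝒩.sup jg) + 1 with hm
  -- the good part
  have hgood : ∑ N ∈ G, |wN o f N| ≤ (C * 2 ^ (A * j0) + 1 + E / 4) * 2 ^ K := by
    have h1 : ∑ N ∈ G, |wN o f N| ≤ ∑ N ∈ G, (|wN o f N - X j0 N| +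
        ∑ i ∈ range m, |X (j0 + i) N - X (j0 + i + 1) N| + |X (j0 + m) N|) :=
      sum_le_sum fun N _ => abs_tele_le _ (fun j => X j N) j0 m
    refine h1.trans ?_
    rw [sum_add_distrib, sum_add_distrib]
    have hsubG : ∀ j, j0 ≤ j → G ⊆ gd 𝒩 (ℬ j) := fun j hj' N hN =>
      mem_gd.2 ⟨(mem_filter.1 hN).1, (mem_filter.1 hN).2 j hj'⟩
    have a1 : ∑ N ∈ G, |wN o f N - X j0 N| ≤ (C * 2 ^ (A * j0) + E / 8) * 2 ^ K := by
      refine (sum_le_sum_of_subset_of_nonneg (hsubG j0 le_rfl) fun _ _ _ =>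
        abs_nonneg _).trans (hs.first.trans ?_)
      refine mul_le_mul_of_nonneg_right ?_ (by positivity)
      have h3 : C * ρ ^ j0 ≤ 1 / 8 := by nlinarith
      have h4 := mul_le_mul_of_nonneg_right h3 hE
      linarith
    have a2 : ∑ N ∈ G, ∑ i ∈ range m, |X (j0 + i) N - X (j0 + i + 1) N| ≤ E / 8 * 2 ^ K := by
      rw [sum_comm]
      have h2 : ∀ i ∈ range m, ∑ N ∈ G, |X (j0 + i) N - X (j0 + i + 1) N| ≤
          C * ρ ^ (j0 + i) * (E * 2 ^ K) := by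
        intro i _
        refine (sum_le_sum_of_subset_of_nonneg ?_ fun _ _ _ => abs_nonneg _).trans
          ((hs.step (j0 + i) (by omega)).trans (le_of_eq (by ring)))
        intro N hN
        exact mem_gdU.2 ⟨(mem_filter.1 hN).1, fun i' h1 _ => (mem_filter.1 hN).2 i' h1⟩
      refine (sum_le_sum h2).trans ?_
      rw [← sum_mul]
      have h3 := mul_le_mul_of_nonneg_right (sum_geom_le' hρ0 hj (by norm_num) m)
        (by positivity : 0 ≤ E * 2 ^ K)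
      linarith
    have a3 : ∑ N ∈ G, |X (j0 + m) N| ≤ 1 := by
      have h2 : ∀ N ∈ G, |X (j0 + m) N| ≤ ε := by
        intro N hN
        refine hjg N hN _ ?_
        have := Finset.le_sup (f := jg) (mem_filter.1 hN).1
        omega
      refine (sum_le_sum h2).trans ?_
      rw [sum_const, nsmul_eq_mul]
      have h3 : (G.card : ℝ) ≤ 𝒩.card := by exact_mod_cast card_le_card (filter_subset _ _)
      have h4 : ((𝒩.card : ℝ) + 1) * ε = 1 := by rw [hε]; field_simp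
      nlinarith
    nlinarith
  -- the bad part
  have hbad : ∑ N ∈ B, |wN o f N| ≤ M / 8 * 2 ^ K := by
    have h1 : ∑ N ∈ B, |wN o f N| ≤ ∑ i ∈ range m, ∑ Q ∈ ℬ (j0 + i),
        ∑ N ∈ 𝒩.filter (fun N => Bel N Q), |wN o f N| := by
      have h2 : ∀ N ∈ B, |wN o f N| ≤ ∑ i ∈ range m, ∑ Q ∈ ℬ (j0 + i),
          (if Bel N Q then |wN o f N| else 0) := by
        intro N hN
        obtain ⟨h3, Q, hQ, hNQ⟩ := hjb N hN
        have h4 : jb N - j0 ∈ range m := by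
          have := Finset.le_sup (f := jb) (mem_filter.1 hN).1
          rw [mem_range]
          omega
        have h5 : j0 + (jb N - j0) = jb N := by omega
        have nn : ∀ i ∈ range m, 0 ≤ ∑ Q ∈ ℬ (j0 + i), (if Bel N Q then |wN o f N| else 0) :=
          fun i _ => sum_nonneg fun Q _ => by split_ifs <;> simp
        refine le_trans ?_ (single_le_sum nn h4)
        simp only [h5]
        refine le_trans (le_of_eq ?_) (single_le_sum (f := fun Q => if Bel N Q then |wN o f N|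
          else 0) (fun Q _ => by split_ifs <;> simp) hQ)
        simp only [if_pos hNQ]
      refine (sum_le_sum h2).trans ?_
      rw [sum_comm]
      refine sum_le_sum fun i _ => ?_
      rw [sum_comm]
      refine sum_le_sum fun Q _ => ?_
      have h5 : ∑ N ∈ B, (if Bel N Q then |wN o f N| else 0) ≤
          ∑ N ∈ 𝒩, (if Bel N Q then |wN o f N| else 0) :=
        sum_le_sum_of_subset_of_nonneg (filter_subset _ _) fun _ _ _ => by
          split_ifs <;> simp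
      refine h5.trans (le_of_eq ?_)
      rw [sum_filter]
    refine h1.trans ?_
    have h2 : ∀ i ∈ range m, ∑ Q ∈ ℬ (j0 + i), ∑ N ∈ 𝒩.filter (fun N => Bel N Q), |wN o f N| ≤
        M * 2 ^ K * (C * ρ ^ (j0 + i)) := by
      intro i _
      have h3 : ∀ Q ∈ ℬ (j0 + i), ∑ N ∈ 𝒩.filter (fun N => Bel N Q), |wN o f N| ≤
          M * 2 ^ Q.1 := by
        intro Q hQ
        exact hroot f o Q.1 Q.2 _ (hd.cut (hs.sub (j0 + i) (by omega) hQ) fun N => mem_filter)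
      refine (sum_le_sum h3).trans ?_
      rw [← mul_sum]
      have h4 := mul_le_mul_of_nonneg_left (hs.bad (j0 + i) (by omega)) hM
      linarith
    refine (sum_le_sum h2).trans ?_
    rw [← mul_sum]
    have h3 := mul_le_mul_of_nonneg_left (sum_geom_le' hρ0 hj (by norm_num) m)
      (by positivity : 0 ≤ M * 2 ^ K)
    linarith
  have hsplit : ∑ N ∈ 𝒩, |wN o f N| = ∑ N ∈ G, |wN o f N| + ∑ N ∈ B, |wN o f N| := by
    rw [hG, hB]
    exact (sum_filter_add_sum_filter_not 𝒩 _ _).symm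
  rw [hsplit]
  have h9 : 0 ≤ M * 2 ^ K := by positivity
  linarith

/-- **The bootstrap.** -/
theorem rootQ_of_levelSysB {q γ : ℝ} (hq : 2 < q) (hγ : 0 < γ) (h : LevelSysB q γ) :
    ∃ P : ℝ, 0 ≤ P ∧ ∀ (n : ℕ) (H : ℝ), 1 ≤ H → RootQ q n H (P * H ^ γ) := by
  obtain ⟨A, C0, hC01', hAC, ρ, C, hρ0, hρ1, hC, h⟩ := h
  have hC01 : (1 : ℝ) ≤ C0 := by exact_mod_cast hC01'
  have hC0p : (0 : ℝ) < C0 := by linarith
  -- the first level for bounded functions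
  obtain ⟨js, hjs1, hjs⟩ : ∃ js : ℕ, 1 ≤ js ∧ ∀ j, js ≤ j → C * ρ ^ j ≤ (1 - ρ) * (1 / 8) := by
    have h1 : Filter.Tendsto (fun j : ℕ => C * ρ ^ j) Filter.atTop (nhds (C * 0)) :=
      (tendsto_pow_atTop_nhds_zero_of_lt_one hρ0 hρ1).const_mul C
    rw [mul_zero] at h1
    have h2 : (0 : ℝ) < (1 - ρ) * (1 / 8) := by linarith
    obtain ⟨j1, hj1⟩ := Filter.eventually_atTop.1 (h1.eventually_le_const h2)
    exact ⟨j1 + 1, by omega, fun j hj => hj1 j (by omega)⟩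
  set Bc : ℝ := C * 2 ^ (A * (js + 1)) + 5 / 4 with hBc
  have hBc0 : 0 ≤ Bc := by positivity
  -- one step
  have hstep : ∀ n : ℕ, ∀ P : ℝ, 0 ≤ P → (∀ H : ℝ, 1 ≤ H → RootQ q n H (P * H ^ γ)) →
      ∀ H : ℝ, 1 ≤ H → RootQ q n H ((Bc + P / 2) * H ^ γ) := by
    intro n P hP hPr H hH f o K V 𝒩 hd
    have hH0 : 0 < H := by linarith
    have hHγ : 1 ≤ H ^ γ := Real.one_le_rpow hH hγ.le
    -- the first level
    set l : ℕ := ⌈Real.logb 2 H / C0⌉₊ with hl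
    set j0 : ℕ := max js l with hj0
    have hlog0 : 0 ≤ Real.logb 2 H := Real.logb_nonneg (by norm_num) hH
    have hj0js : js ≤ j0 := le_max_left _ _
    have hHj : H ≤ 2 ^ (C0 * j0) := by
      have h1 : Real.logb 2 H / C0 ≤ j0 := (Nat.le_ceil _).trans (by
        exact_mod_cast (le_max_right js l))
      rw [div_le_iff₀ hC0p] at h1
      have h2 : H = (2 : ℝ) ^ Real.logb 2 H :=
        (Real.rpow_logb (by norm_num) (by norm_num) hH0).symm
      rw [h2, ← Real.rpow_natCast]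
      refine Real.rpow_le_rpow_of_exponent_le (by norm_num) ?_
      push_cast
      linarith
    have hA : (2 : ℝ) ^ (A * j0) ≤ 2 ^ (A * (js + 1)) * H ^ γ := by
      rcases le_total l js with hlj | hlj
      · have e : j0 = js := max_eq_left hlj
        rw [e]
        have h1 : (2 : ℝ) ^ (A * js) ≤ 2 ^ (A * (js + 1)) :=
          pow_le_pow_right₀ (by norm_num) (Nat.mul_le_mul_left _ (by omega))
        nlinarith [pow_nonneg (by norm_num : (0 : ℝ) ≤ 2) (A * (js + 1))]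
      · have e : j0 = l := max_eq_right hlj
        rw [e]
        have h1 : (l : ℝ) ≤ Real.logb 2 H / C0 + 1 :=
          (Nat.ceil_lt_add_one (by positivity)).le
        have h2 : ((A * l : ℕ) : ℝ) ≤ A + γ * Real.logb 2 H := by
          push_cast
          have h3 : (A : ℝ) * l ≤ A * (Real.logb 2 H / C0 + 1) :=
            mul_le_mul_of_nonneg_left h1 (Nat.cast_nonneg A)
          have h4 : (A : ℝ) / C0 ≤ γ := by
            rw [div_le_iff₀ hC0p]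
            exact hAC
          have h5 := mul_le_mul_of_nonneg_right h4 hlog0
          have h6 : (A : ℝ) * (Real.logb 2 H / C0 + 1) = A / C0 * Real.logb 2 H + A := by ring
          linarith
        calc (2 : ℝ) ^ (A * l) = (2 : ℝ) ^ ((A * l : ℕ) : ℝ) := (Real.rpow_natCast _ _).symm
          _ ≤ (2 : ℝ) ^ ((A : ℝ) + γ * Real.logb 2 H) :=
              Real.rpow_le_rpow_of_exponent_le (by norm_num) h2
          _ = 2 ^ A * H ^ γ := by
              rw [Real.rpow_add (by norm_num), Real.rpow_natCast, mul_comm γ,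
                Real.rpow_mul (by norm_num), Real.rpow_logb (by norm_num) (by norm_num) hH0]
          _ ≤ 2 ^ (A * (js + 1)) * H ^ γ := by
              refine mul_le_mul_of_nonneg_right ?_ (by positivity)
              exact pow_le_pow_right₀ (by norm_num) (Nat.le_mul_of_pos_right _ (by omega))
    obtain ⟨X, ℬ, hs⟩ := h j0 (hjs1.trans hj0js) n P hP hPr H hH hHj f o K V 𝒩 hd
    have h1 := boot_datB hρ0 hd hs (by positivity) (by positivity) (hPr H hH) hρ1 (hjs j0 hj0js)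
    refine h1.trans (mul_le_mul_of_nonneg_right ?_ (by positivity))
    have h2 := mul_le_mul_of_nonneg_left hA hC
    rw [hBc]
    nlinarith
  refine ⟨2 * Bc, by positivity, fun n H hH f o K V 𝒩 hd => ?_⟩
  -- iteration
  have hit : ∀ i : ℕ, ∀ H : ℝ, 1 ≤ H → RootQ q n H ((2 * Bc + 2 ^ 10 * n / 2 ^ i) * H ^ γ) := by
    intro i
    induction i with
    | zero =>
      intro H hH
      refine (rootQ_trivial hq n H).mono ?_
      have hHγ : 1 ≤ H ^ γ := Real.one_le_rpow hH hγ.le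
      have h1 : (0 : ℝ) ≤ 2 ^ 10 * n := by positivity
      rw [pow_zero, div_one]
      nlinarith
    | succ i ih =>
      intro H hH
      refine (hstep n _ (by positivity) ih H hH).mono (le_of_eq ?_)
      rw [pow_succ]
      field_simp
      ring
  have hlim : Filter.Tendsto (fun i : ℕ => (2 * Bc + 2 ^ 10 * (n : ℝ) / 2 ^ i) * H ^ γ * 2 ^ K)
      Filter.atTop (nhds ((2 * Bc + 0) * H ^ γ * 2 ^ K)) := by
    have h1 : Filter.Tendsto (fun i : ℕ => 2 ^ 10 * (n : ℝ) / 2 ^ i) Filter.atTop (nhds 0) := by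
      have h2 := (tendsto_pow_atTop_nhds_zero_of_lt_one (by norm_num : (0 : ℝ) ≤ 1 / 2)
        (by norm_num)).const_mul (2 ^ 10 * (n : ℝ))
      rw [mul_zero] at h2
      refine h2.congr fun i => ?_
      rw [one_div, inv_pow]
      rfl
    exact ((h1.const_add _).mul_const _).mul_const _
  rw [add_zero] at hlim
  exact ge_of_tendsto' hlim fun i => hit i H hH f o K V 𝒩 hd

/-- the two formats of the root estimate -/
theorem RootQ.toRootQH {q : ℝ} {n : ℕ} {H P : ℝ} (h : RootQ q n H P) :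
    Vale.Agent.P141.H337.RootQH q n H P := by
  intro f hf o ho K hK V 𝒩 h1 h2 hs hav
  have hd : Dat q n H f o K V 𝒩 := ⟨hf, ho, hK, h1, h2, hs, hav⟩
  refine le_trans (le_of_eq (sum_congr rfl fun N _ => ?_)) (h f o K V 𝒩 hd)
  rw [wN, abs_mul, abs_of_nonneg (by positivity : (0 : ℝ) ≤ ((4 : ℝ) ^ N.1)⁻¹)]

/-- **Level systems with the black box give the boundedness at `(4, 4, 4)`.** -/
theorem boundedAt_444_of_levelSysB {q q₁ γ : ℝ} (hq : 2 < q) (hq₁ : q < q₁) (hq4 : q₁ < 4)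
    (hγ : 0 < γ) (hγq : γ * q₁ < q₁ - q) (h : LevelSysB q γ) :
    Vale.Agent.P141.BoundedAt 4 4 4 (4 / 3) := by
  obtain ⟨P, hP, H⟩ := rootQ_of_levelSysB hq hγ h
  have hq0 : 0 < q := by linarith
  have h1 : ∀ n, Vale.Agent.P141.H337.RootQ q₁ n (Vale.Agent.P141.H337.cc q q₁ γ ^ 4 * P) :=
    fun n => Vale.Agent.P141.H337.rootQ_of_rootQH hq0 hq₁ hγq hP
      fun H' hH' => (H n H' hH').toRootQH
  exact Vale.Agent.P141.H337.bounded_444 (by linarith) hq4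
    (mul_nonneg (pow_nonneg (Vale.Agent.P141.H337.cc_pos hq0 hγq).le 4) hP) h1

end

end Vale.Agent.P141.PL.H855
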