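import Vale.Agent.P141.PL.H855.Node
import Vale.Agent.P141.PL.H855.Mov

/-!
# P141, line W: moving slots on the cells of a grid

`CBlk s Λ A e K h`: block family on the cells of `gr 7 s` of scale `≤ Λ` (`A k y` = value at the
scale `k` at the point `y`).  `CSlot`: convergent sum of such families.  `mbb_cell`: the black box
for four moving slots on the nodes below one cell.
-/

namespace Vale.Agent.P141.PL.H855

open Finset
open Vale.Agent.P141.PL.H571 (W mem_W)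
open Vale.Agent.P141.PL.H95 (gr mem_gr card_gr)
open Vale.Agent.P141.H315 (dot)

noncomputable section

open scoped Classical in
/-- a block family on the cells of the grid `gr 7 s` of scale `≤ Λ` -/
structure CBlk (s : ℤ) (Λ : ℕ) (A : ℕ → ℤ → ℝ) (e K h : ℝ) : Prop where
  win : ∃ ev : ℕ → ℤ → Prop, (∀ k x y, y ∈ (gr 7 s).cube k x → (ev k y ↔ ev k x)) ∧
    (∀ k y, k < Λ → ¬ ev k y → A k y = A (k + 1) y) ∧
    (∀ k₀ ≤ Λ, ∀ x, ∑ z ∈ (gr 7 s).cube k₀ x, ∑ k ∈ range (k₀ + 1),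
      (if ev k z then (1 : ℝ) else 0) ≤ K * 2 ^ (k₀ + 7))
  en : ∀ k ≤ Λ, ∀ x, dot ((gr 7 s).cube k x) (A k) (A k) ≤ e * 2 ^ (k + 7)
  sup : ∀ k ≤ Λ, ∀ y, |A k y| ≤ h

theorem CBlk.toBlk {s : ℤ} {Λ : ℕ} {A : ℕ → ℤ → ℝ} {e K h : ℝ} (hA : CBlk s Λ A e K h)
    {w : ℕ × ℤ} (hw : w.1 ≤ Λ) {𝒲 : Finset (ℕ × ℤ)} (hW : Reg 𝒲 w) :
    Blk 𝒲 (fun N => A N.1) (8 * e) (1 + 1152 * K) h := by
  obtain ⟨ev, h1, h2, h3⟩ := hA.win
  exact blk_of_cells hW h1 (fun k y hk => h2 k y (by omega)) (fun k₀ hk => h3 k₀ (by omega))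
    (fun k hk => hA.en k (by omega)) (fun k hk => hA.sup k (by omega))

/-- a moving slot on the cells -/
structure CSlot (s : ℤ) (Λ : ℕ) (A : ℕ → ℤ → ℝ) (ς Lh S : ℝ) : Prop where
  ex : ∃ (b : ℕ → ℕ → ℤ → ℝ) (e K h : ℕ → ℝ),
    (∀ l, CBlk s Λ (b l) (e l) (K l) (h l)) ∧ (∀ l, 0 < e l) ∧ (∀ l, 0 ≤ K l) ∧
    (∀ l, 0 ≤ h l) ∧ (∀ l, h l ≤ Lh * √(e l)) ∧
    (∀ L, ∑ l ∈ range L, √(e l * (1 + 1152 * K l)) * (1 + 1152 * K l) ^ ς ≤ S) ∧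
    (∀ k ≤ Λ, ∀ y, Filter.Tendsto (fun L => ∑ l ∈ range L, b l k y) Filter.atTop
      (nhds (A k y)))

theorem CSlot.toSlot {s : ℤ} {Λ : ℕ} {A : ℕ → ℤ → ℝ} {ς Lh S : ℝ} (hLh : 0 ≤ Lh)
    (hA : CSlot s Λ A ς Lh S) {w : ℕ × ℤ} (hw : w.1 ≤ Λ) {𝒲 : Finset (ℕ × ℤ)} (hW : Reg 𝒲 w) :
    Slot 𝒲 (fun N => A N.1) ς Lh (√8 * S) := by
  obtain ⟨b, e, K, h, hb, he, hK, hh, hhe, hs, hl⟩ := hA.ex
  refine ⟨⟨fun l N => b l N.1, fun l => 8 * e l, fun l => 1 + 1152 * K l, h,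
    fun l => (hb l).toBlk hw hW, fun l => by have := he l; positivity, fun l => ?_, hh,
    fun l => ?_, fun L => ?_, fun N hN y _ => hl N.1 ((hW.bel N hN).1.trans hw) y⟩⟩
  · have := hK l; linarith
  · refine (hhe l).trans (mul_le_mul_of_nonneg_left (Real.sqrt_le_sqrt ?_) hLh)
    have := he l; linarith
  · have h1 : ∀ l ∈ range L, √(8 * e l * (1 + 1152 * K l)) * (1 + 1152 * K l) ^ ς =
        √8 * (√(e l * (1 + 1152 * K l)) * (1 + 1152 * K l) ^ ς) := by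
      intro l _
      rw [mul_assoc (8 : ℝ), Real.sqrt_mul (by norm_num : (0 : ℝ) ≤ 8)]
      ring
    rw [sum_congr rfl h1, ← mul_sum]
    exact mul_le_mul_of_nonneg_left (hs L) (Real.sqrt_nonneg _)

/-- all the nodes of scale `≥ 1` below a node -/
def regAll (r : ℕ × ℤ) : Finset (ℕ × ℤ) :=
  (Icc 1 r.1).biUnion fun k => (Ico (2 ^ (r.1 - k) * r.2) (2 ^ (r.1 - k) * (r.2 + 1))).image
    fun v => (k, v)

theorem mem_regAll {r N : ℕ × ℤ} : N ∈ regAll r ↔ 1 ≤ N.1 ∧ Bel N r := by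
  unfold regAll
  rw [mem_biUnion]
  constructor
  · rintro ⟨k, hk, h⟩
    obtain ⟨v, hv, rfl⟩ := mem_image.1 h
    rw [mem_Icc] at hk
    rw [mem_Ico] at hv
    refine ⟨hk.1, hk.2, ?_⟩
    have h2 : (0 : ℤ) < 2 ^ (r.1 - k) := by positivity
    refine le_antisymm ?_ ?_
    · exact Int.lt_add_one_iff.mp (Int.ediv_lt_of_lt_mul h2 (by linarith [hv.2]))
    · exact Int.le_ediv_of_mul_le h2 (by linarith [hv.1])
  · rintro ⟨h1, h2, h3⟩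
    refine ⟨N.1, mem_Icc.2 ⟨h1, h2⟩, mem_image.2 ⟨N.2, ?_, rfl⟩⟩
    have hp : (0 : ℤ) < 2 ^ (r.1 - N.1) := by positivity
    have h5 := Int.mul_ediv_add_emod N.2 (2 ^ (r.1 - N.1))
    have h6 := Int.emod_nonneg N.2 hp.ne'
    have h7 := Int.emod_lt_of_pos N.2 hp
    rw [h3] at h5
    rw [mem_Ico]
    constructor <;> linarith

theorem reg_regAll (r : ℕ × ℤ) : Reg (regAll r) r where
  pos N hN := (mem_regAll.1 hN).1
  bel N hN := (mem_regAll.1 hN).2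
  cl N hN M h1 h2 := mem_regAll.2 ⟨(mem_regAll.1 hN).1.trans h1.1, h2⟩

/-- the roots of the nodes which read a cell -/
def roots (s : ℤ) (Λ : ℕ) (x : ℤ) : Finset (ℕ × ℤ) :=
  (Ioo ((2 ^ (Λ + 7) * ((x + s) / 2 ^ (Λ + 7)) - s) / 2 ^ Λ - 17)
    ((2 ^ (Λ + 7) * ((x + s) / 2 ^ (Λ + 7)) - s) / 2 ^ Λ + 146)).image fun v => (Λ, v)

theorem card_roots (s : ℤ) (Λ : ℕ) (x : ℤ) : (roots s Λ x).card ≤ 162 := by
  unfold roots
  refine card_image_le.trans ?_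
  rw [Int.card_Ioo]
  have : ∀ a : ℤ, (a + 146 - (a - 17) - 1).toNat = 162 := by
    intro a
    rw [show a + 146 - (a - 17) - 1 = 162 by ring]
    rfl
  rw [this]

theorem root_mem {s : ℤ} {Λ : ℕ} {x : ℤ} {N : ℕ × ℤ} (hN : N.1 ≤ Λ)
    (h : ∃ y ∈ W N.1 N.2, y ∈ (gr 7 s).cube Λ x) : anc (Λ - N.1) N ∈ roots s Λ x := by
  obtain ⟨y, hy, hy'⟩ := h
  have h1 := W_anc_sub (Λ - N.1) N hy
  unfold roots
  rw [mem_image]
  refine ⟨(anc (Λ - N.1) N).2, ?_, Prod.ext (by simp only [anc]; omega) rfl⟩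
  have e1 : (anc (Λ - N.1) N).1 = Λ := by simp only [anc]; omega
  rw [mem_W, e1] at h1
  rw [mem_gr] at hy'
  set v := (anc (Λ - N.1) N).2
  have e7 : (2 : ℤ) ^ (Λ + 7) = 2 ^ Λ * 128 := by rw [pow_add]; norm_num
  rw [e7] at hy' ⊢
  have hk : (0 : ℤ) < 2 ^ Λ := by positivity
  have hk7 : (0 : ℤ) < 2 ^ Λ * 128 := by positivity
  have h4 := Int.mul_ediv_add_emod (y + s) (2 ^ Λ * 128)
  have h5 := Int.emod_nonneg (y + s) hk7.ne'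
  have h6 := Int.emod_lt_of_pos (y + s) hk7
  rw [hy'] at h4
  set a : ℤ := 2 ^ Λ * 128 * ((x + s) / (2 ^ Λ * 128)) - s with ha
  have ha1 : a ≤ y := by linarith
  have ha2 : y < a + 2 ^ Λ * 128 := by linarith
  have h7 := Int.mul_ediv_add_emod a (2 ^ Λ)
  have h8 := Int.emod_nonneg a hk.ne'
  have h9 := Int.emod_lt_of_pos a hk
  rw [mem_Ioo]
  constructor
  · by_contra hcon
    push Not at hcon
    have : 2 ^ Λ * (v + 16) ≤ 2 ^ Λ * (a / 2 ^ Λ - 1) :=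
      mul_le_mul_of_nonneg_left (by linarith) hk.le
    nlinarith
  · by_contra hcon
    push Not at hcon
    have : 2 ^ Λ * (a / 2 ^ Λ + 130) ≤ 2 ^ Λ * (v - 16) :=
      mul_le_mul_of_nonneg_left (by linarith) hk.le
    nlinarith

/-- **The black box below one cell.** -/
theorem mbb_cell {q γ γ' ς : ℝ} (h : MBB2 q γ γ' ς) : ∃ C : ℝ, 0 ≤ C ∧
    ∀ (n : ℕ) (P : ℝ), 0 ≤ P → (∀ H' : ℝ, 1 ≤ H' → RootQ q n H' (P * H' ^ γ)) →
    ∀ o : ℤ, (o = 1 ∨ o = -1) → ∀ (s : ℤ) (Λ : ℕ) (x : ℤ), Λ ≤ n →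
    ∀ 𝒮 : Finset (ℕ × ℤ), (∀ N ∈ 𝒮, 1 ≤ N.1 ∧ N.1 ≤ Λ ∧
      ∃ y ∈ W N.1 N.2, y ∈ (gr 7 s).cube Λ x) →
    ∀ (A : Fin 4 → ℕ → ℤ → ℝ) (Lh : ℝ) (S : Fin 4 → ℝ), 1 ≤ Lh → (∀ j, 0 ≤ S j) →
      (∀ j, CSlot s Λ (A j) ς Lh (S j)) →
      TT o 𝒮 (fun j N => A j N.1) ≤ C * P * Lh ^ γ' * (∏ j, S j) * 2 ^ Λ := by
  obtain ⟨C, hC, h⟩ := mbb_mov h
  refine ⟨162 * 64 * C, by positivity, fun n P hP hroot o ho s Λ x hΛ 𝒮 h𝒮 A Lh S hLh hS hA => ?_⟩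
  have h1 := TT_le_sum (roots s Λ x) o 𝒮 regAll (fun N hN => by
    obtain ⟨h2, h3, h4⟩ := h𝒮 N hN
    exact ⟨_, root_mem h3 h4, mem_regAll.2 ⟨h2, bel_anc _ _⟩⟩) (fun j N => A j N.1)
  refine h1.trans ?_
  have h2 : ∀ r ∈ roots s Λ x, TT o (regAll r) (fun j N => A j N.1) ≤
      C * P * Lh ^ γ' * (64 * ∏ j, S j) * 2 ^ Λ := by
    intro r hr
    have hr1 : r.1 = Λ := by
      obtain ⟨v, -, rfl⟩ := mem_image.1 hr
      rfl
    have h3 := h n P hP hroot o ho r (regAll r) (by omega) (reg_regAll r)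
      (fun j N => A j N.1) Lh (fun j => √8 * S j) hLh
      (fun j => mul_nonneg (Real.sqrt_nonneg _) (hS j))
      (fun j => (hA j).toSlot (by linarith) hr1.le (reg_regAll r))
    rw [hr1] at h3
    refine h3.trans (le_of_eq ?_)
    have e1 : ∏ j : Fin 4, (√8 * S j) = 64 * ∏ j, S j := by
      rw [prod_mul_distrib, prod_const]
      have : (√8 : ℝ) ^ (univ : Finset (Fin 4)).card = 64 := by
        rw [card_univ, Fintype.card_fin, show (4 : ℕ) = 2 * 2 by norm_num, pow_mul,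
          Real.sq_sqrt (by norm_num)]
        norm_num
      rw [this]
    rw [e1]
  refine (sum_le_sum h2).trans ?_
  rw [sum_const, nsmul_eq_mul]
  have h4 : ((roots s Λ x).card : ℝ) ≤ 162 := by exact_mod_cast card_roots s Λ x
  have h5 : 0 ≤ C * P * Lh ^ γ' * (64 * ∏ j, S j) * 2 ^ Λ := by
    have : 0 ≤ ∏ j, S j := prod_nonneg fun j _ => hS j
    have : 0 ≤ Lh ^ γ' := Real.rpow_nonneg (by linarith) _
    positivity
  refine (mul_le_mul_of_nonneg_right h4 h5).trans (le_of_eq ?_)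
  ring

end

end Vale.Agent.P141.PL.H855
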