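import Vale.Agent.P141.PL.H855.Blk
import Vale.Agent.P141.PL.H95.Grid

/-!
# P141, line W: from paths on the cells of a grid to block families on the nodes

`A k y`: the value at the scale `k` at the point `y`.  `ev k y`: the cell of the scale `k` of the
point `y` has an event (the path changes between `k + 1` and `k`).  The node family `N ↦ A N.1` is a
block family on every region of nodes; no relation between nodes and cells is needed.
-/

namespace Vale.Agent.P141.PL.H855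

open Finset
open Vale.Agent.P141.PL.H571 (W mem_W)
open Vale.Agent.P141.PL.H95 (gr mem_gr card_gr)
open Vale.Agent.P141.H315 (dot)

noncomputable section

/-- the ancestor `d` scales above -/
def anc (d : ℕ) (N : ℕ × ℤ) : ℕ × ℤ := (N.1 + d, N.2 / 2 ^ d)

theorem anc_zero (N : ℕ × ℤ) : anc 0 N = N := by
  simp [anc]

theorem anc_anc (d d' : ℕ) (N : ℕ × ℤ) : anc d (anc d' N) = anc (d' + d) N := by
  simp only [anc, Prod.mk.injEq]
  refine ⟨by omega, ?_⟩
  rw [ediv_pow_add]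

theorem bel_anc (d : ℕ) (N : ℕ × ℤ) : Bel N (anc d N) := by
  refine ⟨by simp [anc], ?_⟩
  simp [anc]

theorem anc_of_bel {N M : ℕ × ℤ} (h : Bel N M) : anc (M.1 - N.1) N = M := by
  refine Prod.ext ?_ h.2
  have := h.1
  simp only [anc]
  omega

theorem bel_self (N : ℕ × ℤ) : Bel N N := ⟨le_rfl, by simp⟩

theorem bel_tr {A B C : ℕ × ℤ} (h : Bel A B) (h' : Bel B C) : Bel A C := by
  refine ⟨h.1.trans h'.1, ?_⟩
  have e : C.1 - A.1 = (B.1 - A.1) + (C.1 - B.1) := by have := h.1; have := h'.1; omega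
  rw [e, ediv_pow_add, h.2, h'.2]

theorem bel_cmp {N A B : ℕ × ℤ} (h : Bel N A) (h' : Bel N B) (hAB : A.1 ≤ B.1) : Bel A B := by
  refine ⟨hAB, ?_⟩
  have e : B.1 - N.1 = (A.1 - N.1) + (B.1 - A.1) := by have := h.1; omega
  rw [← h.2, ← h'.2, e, ediv_pow_add]

theorem W_anc_sub (d : ℕ) (N : ℕ × ℤ) : W N.1 N.2 ⊆ W (anc d N).1 (anc d N).2 := by
  intro y hy
  rw [mem_W] at hy ⊢
  simp only [anc]
  have h2 : (0 : ℤ) < 2 ^ d := by positivity
  have h3 := Int.mul_ediv_add_emod N.2 (2 ^ d)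
  have h4 := Int.emod_nonneg N.2 h2.ne'
  have h5 := Int.emod_lt_of_pos N.2 h2
  have h6 : (1 : ℤ) ≤ 2 ^ d := h2
  have hk : (0 : ℤ) < 2 ^ N.1 := by positivity
  have e : (2 : ℤ) ^ (N.1 + d) = 2 ^ N.1 * 2 ^ d := pow_add _ _ _
  rw [e]
  set q := N.2 / 2 ^ d
  set r := N.2 % 2 ^ d
  set P : ℤ := 2 ^ d
  set E : ℤ := 2 ^ N.1
  constructor
  · have : E * P * (q - 16) ≤ E * (N.2 - 16) := by
      have : P * (q - 16) ≤ N.2 - 16 := by nlinarith
      calc E * P * (q - 16) = E * (P * (q - 16)) := by ring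
        _ ≤ E * (N.2 - 16) := mul_le_mul_of_nonneg_left this hk.le
    linarith [hy.1]
  · have : E * (N.2 + 16) ≤ E * P * (q + 16) := by
      have h7 : N.2 + 16 ≤ P * (q + 16) := by
        have : r + 16 ≤ P * 16 := by
          have : r ≤ P - 1 := by linarith [Int.lt_iff_add_one_le.mp h5]
          nlinarith
        nlinarith
      calc E * (N.2 + 16) ≤ E * (P * (q + 16)) := mul_le_mul_of_nonneg_left h7 hk.le
        _ = E * P * (q + 16) := by ring
    linarith [hy.2]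

/-- the walk upwards stops -/
def Stop (ev : ℕ → ℤ → Prop) (w N : ℕ × ℤ) (d : ℕ) : Prop :=
  N.1 + d = w.1 ∨ ∃ y ∈ W (anc d N).1 (anc d N).2, ev (N.1 + d) y

open scoped Classical in
/-- the top of the window of a node -/
def topN (ev : ℕ → ℤ → Prop) (w N : ℕ × ℤ) : ℕ × ℤ :=
  if h : ∃ d, Stop ev w N d then anc (Nat.find h) N else N

section
variable {ev : ℕ → ℤ → Prop} {w : ℕ × ℤ} {𝒲 : Finset (ℕ × ℤ)}

theorem exists_stop (ev : ℕ → ℤ → Prop) {N : ℕ × ℤ} (h : Bel N w) : ∃ d, Stop ev w N d :=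
  ⟨w.1 - N.1, Or.inl (by have := h.1; omega)⟩

open scoped Classical in
theorem topN_eq {N : ℕ × ℤ} (h : Bel N w) :
    ∃ d, topN ev w N = anc d N ∧ Stop ev w N d ∧ (∀ i < d, ¬ Stop ev w N i) ∧ N.1 + d ≤ w.1 := by
  have h1 := exists_stop ev h
  refine ⟨Nat.find h1, ?_, Nat.find_spec h1, fun i hi => Nat.find_min h1 hi, ?_⟩
  · unfold topN
    rw [dif_pos h1]
  · have : Nat.find h1 ≤ w.1 - N.1 := Nat.find_min' h1 (Or.inl (by have := h.1; omega))
    have := h.1
    omega

theorem topN_unique {N : ℕ × ℤ} {d : ℕ} (h : Bel N w) (h1 : Stop ev w N d)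
    (h2 : ∀ i < d, ¬ Stop ev w N i) : topN ev w N = anc d N := by
  obtain ⟨d', e, h3, h4, -⟩ := topN_eq (ev := ev) h
  have : d' = d := by
    rcases lt_trichotomy d' d with h5 | h5 | h5
    · exact absurd h3 (h2 _ h5)
    · exact h5
    · exact absurd h1 (h4 _ h5)
  rw [e, this]

theorem stop_anc {N : ℕ × ℤ} {d i : ℕ} : Stop ev w (anc d N) i ↔ Stop ev w N (d + i) := by
  unfold Stop
  rw [anc_anc]
  have e : (anc d N).1 + i = N.1 + (d + i) := by simp only [anc]; omega
  rw [e]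

theorem topN_conv {N : ℕ × ℤ} {i : ℕ} (h : Bel N w) (hi : Bel (anc i N) (topN ev w N)) :
    topN ev w (anc i N) = topN ev w N := by
  obtain ⟨d, e, h1, h2, h3⟩ := topN_eq (ev := ev) h
  rw [e] at hi ⊢
  have h4 : i ≤ d := by
    have := hi.1
    simp only [anc] at this
    omega
  have h5 : Bel (anc i N) w := by
    have h6 : Bel (anc d N) w := bel_cmp (bel_anc d N) h (by simp only [anc]; exact h3)
    exact bel_tr hi h6
  have h6 : topN ev w (anc i N) = anc (d - i) (anc i N) := by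
    refine topN_unique h5 ?_ ?_
    · rw [stop_anc, Nat.add_sub_cancel' h4]; exact h1
    · intro j hj
      rw [stop_anc]
      exact h2 _ (by omega)
  rw [h6, anc_anc, Nat.add_sub_cancel' h4]

/-- the values are static on the windows -/
theorem topN_val {A : ℕ → ℤ → ℝ} (hA : ∀ k y, k < w.1 → ¬ ev k y → A k y = A (k + 1) y)
    {N : ℕ × ℤ} (h : Bel N w) {y : ℤ} (hy : y ∈ W N.1 N.2) :
    A N.1 y = A (topN ev w N).1 y := by
  obtain ⟨d, e, h1, h2, h3⟩ := topN_eq (ev := ev) h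
  rw [e]
  have key : ∀ i, i ≤ d → A N.1 y = A (N.1 + i) y := by
    intro i
    induction i with
    | zero => intro _; rfl
    | succ i ih =>
      intro hi
      rw [ih (by omega)]
      have h4 := h2 i (by omega)
      unfold Stop at h4
      push Not at h4
      exact hA _ _ (by omega) (h4.2 y (W_anc_sub i N hy))
  exact key d le_rfl

end

/-! ### packing and energy -/

/-- the enlarged window -/
def Wl (N : ℕ × ℤ) : Finset ℤ := Ico (2 ^ N.1 * (N.2 - 144)) (2 ^ N.1 * (N.2 + 144))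

theorem mem_Wl {N : ℕ × ℤ} {y : ℤ} :
    y ∈ Wl N ↔ 2 ^ N.1 * (N.2 - 144) ≤ y ∧ y < 2 ^ N.1 * (N.2 + 144) := by
  unfold Wl; rw [mem_Ico]

theorem Wl_anc_sub (d : ℕ) (N : ℕ × ℤ) : Wl N ⊆ Wl (anc d N) := by
  intro y hy
  rw [mem_Wl] at hy ⊢
  simp only [anc]
  have h2 : (0 : ℤ) < 2 ^ d := by positivity
  have h3 := Int.mul_ediv_add_emod N.2 (2 ^ d)
  have h4 := Int.emod_nonneg N.2 h2.ne'
  have h5 := Int.emod_lt_of_pos N.2 h2
  have h6 : (1 : ℤ) ≤ 2 ^ d := h2
  have hk : (0 : ℤ) < 2 ^ N.1 := by positivity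
  have e : (2 : ℤ) ^ (N.1 + d) = 2 ^ N.1 * 2 ^ d := pow_add _ _ _
  rw [e]
  set q := N.2 / 2 ^ d
  set r := N.2 % 2 ^ d
  set P : ℤ := 2 ^ d
  set E : ℤ := 2 ^ N.1
  constructor
  · have : E * P * (q - 144) ≤ E * (N.2 - 144) := by
      have : P * (q - 144) ≤ N.2 - 144 := by nlinarith
      calc E * P * (q - 144) = E * (P * (q - 144)) := by ring
        _ ≤ E * (N.2 - 144) := mul_le_mul_of_nonneg_left this hk.le
    linarith [hy.1]
  · have : E * (N.2 + 144) ≤ E * P * (q + 144) := by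
      have h7 : N.2 + 144 ≤ P * (q + 144) := by
        have : r + 144 ≤ P * 144 := by
          have : r ≤ P - 1 := by linarith [Int.lt_iff_add_one_le.mp h5]
          nlinarith
        nlinarith
      calc E * (N.2 + 144) ≤ E * (P * (q + 144)) := mul_le_mul_of_nonneg_left h7 hk.le
        _ = E * P * (q + 144) := by ring
    linarith [hy.2]

theorem cube_sub_Wl {s : ℤ} {N : ℕ × ℤ} {y : ℤ} (hy : y ∈ W N.1 N.2) :
    (gr 7 s).cube N.1 y ⊆ Wl N := by
  intro z hz
  rw [mem_gr] at hz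
  rw [mem_W] at hy
  rw [mem_Wl]
  have e7 : (2 : ℤ) ^ (N.1 + 7) = 2 ^ N.1 * 128 := by rw [pow_add]; norm_num
  rw [e7] at hz
  have hk : (0 : ℤ) < 2 ^ N.1 := by positivity
  have hk7 : (0 : ℤ) < 2 ^ N.1 * 128 := by positivity
  have h1 := Int.mul_ediv_add_emod (y + s) (2 ^ N.1 * 128)
  have h2 := Int.emod_nonneg (y + s) hk7.ne'
  have h3 := Int.emod_lt_of_pos (y + s) hk7
  have h4 := Int.mul_ediv_add_emod (z + s) (2 ^ N.1 * 128)
  have h5 := Int.emod_nonneg (z + s) hk7.ne'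
  have h6 := Int.emod_lt_of_pos (z + s) hk7
  rw [hz] at h4
  constructor <;> nlinarith

/-- a set between two points is covered by few cells -/
theorem cover_cells {s a z : ℤ} {k m : ℕ} (h1 : a ≤ z) (h2 : z < a + m * 2 ^ (k + 7)) :
    ∃ i ∈ range (m + 1), z ∈ (gr 7 s).cube k (a + i * 2 ^ (k + 7)) := by
  have hk : (0 : ℤ) < 2 ^ (k + 7) := by positivity
  have e : ∀ i : ℤ, (a + i * 2 ^ (k + 7) + s) / 2 ^ (k + 7) = (a + s) / 2 ^ (k + 7) + i := by
    intro i
    rw [show a + i * 2 ^ (k + 7) + s = (a + s) + i * 2 ^ (k + 7) by ring,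
      Int.add_mul_ediv_right _ _ hk.ne']
  have h3 : (a + s) / 2 ^ (k + 7) ≤ (z + s) / 2 ^ (k + 7) := Int.ediv_le_ediv hk (by linarith)
  have h4 : (z + s) / 2 ^ (k + 7) ≤ (a + s) / 2 ^ (k + 7) + m := by
    rw [← e m]
    exact Int.ediv_le_ediv hk (by linarith)
  refine ⟨((z + s) / 2 ^ (k + 7) - (a + s) / 2 ^ (k + 7)).toNat, ?_, ?_⟩
  · rw [mem_range]
    have : ((z + s) / 2 ^ (k + 7) - (a + s) / 2 ^ (k + 7)).toNat ≤ m := by
      rw [Int.toNat_le]; linarith
    omega
  · rw [mem_gr, e, Int.toNat_of_nonneg (by linarith)]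
    ring

theorem sum_le_cells {s a : ℤ} {k m : ℕ} {U : Finset ℤ} (F : ℤ → ℝ) (hF : ∀ z, 0 ≤ F z)
    (hU : ∀ z ∈ U, a ≤ z ∧ z < a + m * 2 ^ (k + 7)) {B : ℝ}
    (hB : ∀ x, ∑ z ∈ (gr 7 s).cube k x, F z ≤ B) : ∑ z ∈ U, F z ≤ (m + 1) * B := by
  classical
  have h1 : U ⊆ (range (m + 1)).biUnion fun i => (gr 7 s).cube k (a + i * 2 ^ (k + 7)) := by
    intro z hz
    obtain ⟨i, hi, h⟩ := cover_cells (s := s) (hU z hz).1 (hU z hz).2
    exact mem_biUnion.2 ⟨i, hi, h⟩
  calc ∑ z ∈ U, F z ≤ ∑ z ∈ (range (m + 1)).biUnion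
        fun i => (gr 7 s).cube k (a + i * 2 ^ (k + 7)), F z :=
        sum_le_sum_of_subset_of_nonneg h1 fun z _ _ => hF z
    _ ≤ ∑ i ∈ range (m + 1), ∑ z ∈ (gr 7 s).cube k (a + i * 2 ^ (k + 7)), F z := by
        have key : ∀ t : Finset ℕ, ∑ z ∈ t.biUnion
            (fun i => (gr 7 s).cube k (a + i * 2 ^ (k + 7))), F z ≤
            ∑ i ∈ t, ∑ z ∈ (gr 7 s).cube k (a + i * 2 ^ (k + 7)), F z := by
          intro t
          induction t using Finset.induction_on with
          | empty => simp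
          | insert i t hi ih =>
            rw [sum_insert hi, biUnion_insert]
            have h2 : ∀ A B : Finset ℤ, ∑ z ∈ A ∪ B, F z ≤ ∑ z ∈ A, F z + ∑ z ∈ B, F z := by
              intro A B
              rw [← sum_union_inter]
              linarith [sum_nonneg (s := A ∩ B) (f := F) fun z _ => hF z]
            exact (h2 _ _).trans (by linarith)
        exact key _
    _ ≤ ∑ _i ∈ range (m + 1), B := sum_le_sum fun i _ => hB _
    _ = (m + 1) * B := by rw [sum_const, card_range, nsmul_eq_mul]; push_cast; ring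

open scoped Classical in
/-- **From cells to nodes.** -/
theorem blk_of_cells {s : ℤ} {A : ℕ → ℤ → ℝ} {ev : ℕ → ℤ → Prop} {w : ℕ × ℤ}
    {𝒲 : Finset (ℕ × ℤ)} (hW : Reg 𝒲 w)
    (hc : ∀ k x y, y ∈ (gr 7 s).cube k x → (ev k y ↔ ev k x))
    (hA : ∀ k y, k < w.1 → ¬ ev k y → A k y = A (k + 1) y)
    {Kc e h : ℝ}
    (hK : ∀ k₀ ≤ w.1, ∀ x, ∑ z ∈ (gr 7 s).cube k₀ x, ∑ k ∈ range (k₀ + 1),
      (if ev k z then (1 : ℝ) else 0) ≤ Kc * 2 ^ (k₀ + 7))
    (he : ∀ k ≤ w.1, ∀ x, dot ((gr 7 s).cube k x) (A k) (A k) ≤ e * 2 ^ (k + 7))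
    (hh : ∀ k ≤ w.1, ∀ y, |A k y| ≤ h) :
    Blk 𝒲 (fun N => A N.1) (8 * e) (1 + 1152 * Kc) h := by
  refine ⟨⟨topN ev w, fun T => A T.1, ⟨?_, ?_, ?_, ?_⟩, ?_⟩, ?_, ?_⟩
  · -- mem
    intro N hN
    obtain ⟨d, e1, -, -, h3⟩ := topN_eq (ev := ev) (hW.bel N hN)
    rw [e1]
    exact hW.cl N hN _ (bel_anc d N) (bel_cmp (bel_anc d N) (hW.bel N hN) (by
      simp only [anc]; exact h3))
  · intro N hN
    obtain ⟨d, e1, -, -, -⟩ := topN_eq (ev := ev) (hW.bel N hN)
    rw [e1]
    exact bel_anc d N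
  · intro N hN M hM hNM hMT
    have e1 : anc (M.1 - N.1) N = M := anc_of_bel hNM
    have h1 := topN_conv (ev := ev) (i := M.1 - N.1) (hW.bel N hN) (by rw [e1]; exact hMT)
    rwa [e1] at h1
  · -- packing
    intro M hM
    have hMw : M.1 ≤ w.1 := (hW.bel M hM).1
    have h1 : ∀ N ∈ tops 𝒲 (topN ev w) M, N ≠ w → ∃ y ∈ W N.1 N.2, ev N.1 y := by
      intro N hN hNw
      rw [mem_tops] at hN
      obtain ⟨d, e1, h1, -, h3⟩ := topN_eq (ev := ev) (hW.bel N hN.1)
      have hd : d = 0 := by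
        have : (anc d N).1 = N.1 := by rw [← e1, hN.2.2]
        simp only [anc] at this
        omega
      subst hd
      unfold Stop at h1
      rw [anc_zero] at h1
      rcases h1 with h1 | h1
      · exfalso
        apply hNw
        have := anc_of_bel (hW.bel N hN.1)
        rw [show w.1 - N.1 = 0 by omega, anc_zero] at this
        exact this
      · simpa using h1
    have h2 : ∀ N ∈ (tops 𝒲 (topN ev w) M).erase w, (2 : ℝ) ^ N.1 ≤
        (2 ^ 7 : ℝ)⁻¹ * ∑ z ∈ Wl M, (if z ∈ Wl N ∧ ev N.1 z then (1 : ℝ) else 0) := by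
      intro N hN
      obtain ⟨hNw, hN⟩ := mem_erase.1 hN
      obtain ⟨y, hy, hev⟩ := h1 N hN hNw
      have hNM : Bel N M := (mem_tops.1 hN).2.1
      have hsub : (gr 7 s).cube N.1 y ⊆ (Wl M).filter fun z => z ∈ Wl N ∧ ev N.1 z := by
        intro z hz
        have h3 := cube_sub_Wl hy hz
        refine mem_filter.2 ⟨?_, h3, (hc _ _ _ hz).2 hev⟩
        have h4 := Wl_anc_sub (M.1 - N.1) N h3
        rwa [anc_of_bel hNM] at h4
      rw [← sum_filter, sum_const, nsmul_eq_mul, mul_one]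
      have h4 : (2 : ℝ) ^ (N.1 + 7) ≤
          ((Wl M).filter fun z => z ∈ Wl N ∧ ev N.1 z).card := by
        have h5 := card_le_card hsub
        rw [card_gr] at h5
        exact_mod_cast h5
      calc (2 : ℝ) ^ N.1 = (2 ^ 7 : ℝ)⁻¹ * 2 ^ (N.1 + 7) := by rw [pow_add]; field_simp
        _ ≤ _ := mul_le_mul_of_nonneg_left h4 (by positivity)
    have h3 : ∑ N ∈ (tops 𝒲 (topN ev w) M).erase w, (2 : ℝ) ^ N.1 ≤
        (2 ^ 7 : ℝ)⁻¹ * (288 * ∑ z ∈ Wl M, ∑ k ∈ range (M.1 + 1),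
          (if ev k z then (1 : ℝ) else 0)) := by
      refine (sum_le_sum h2).trans ?_
      rw [← mul_sum, sum_comm]
      refine mul_le_mul_of_nonneg_left ?_ (by positivity)
      rw [mul_sum]
      refine sum_le_sum fun z _ => ?_
      rw [mul_sum]
      -- group by the scale
      have h4 : ∀ N ∈ (tops 𝒲 (topN ev w) M).erase w, N.1 ∈ range (M.1 + 1) := by
        intro N hN
        have := (mem_tops.1 (mem_erase.1 hN).2).2.1.1
        rw [mem_range]; omega
      rw [← sum_fiberwise_of_maps_to h4]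
      refine sum_le_sum fun k _ => ?_
      by_cases hk : ev k z
      · rw [if_pos hk, mul_one]
        have h5 : ∑ N ∈ ((tops 𝒲 (topN ev w) M).erase w).filter (fun N => N.1 = k),
            (if z ∈ Wl N ∧ ev N.1 z then (1 : ℝ) else 0) ≤
            ((((tops 𝒲 (topN ev w) M).erase w).filter (fun N => N.1 = k)).filter
              fun N => z ∈ Wl N).card := by
          rw [card_filter, Nat.cast_sum]
          refine sum_le_sum fun N _ => ?_
          by_cases h6 : z ∈ Wl N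
          · simp only [h6, true_and, if_true]
            split_ifs <;> simp
          · simp [h6]
        refine h5.trans ?_
        have h6 : ((((tops 𝒲 (topN ev w) M).erase w).filter (fun N => N.1 = k)).filter
            fun N => z ∈ Wl N).card ≤ (Ioc (z / 2 ^ k - 144) (z / 2 ^ k + 144)).card := by
          refine card_le_card_of_injOn Prod.snd ?_ ?_
          · intro N hN
            rw [mem_coe, mem_filter, mem_filter] at hN
            obtain ⟨⟨-, h7⟩, h8⟩ := hN
            rw [mem_Wl, h7] at h8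
            have hk2 : (0 : ℤ) < 2 ^ k := by positivity
            rw [mem_coe, mem_Ioc]
            constructor
            · have : z / 2 ^ k < N.2 + 144 := Int.ediv_lt_of_lt_mul hk2 (by linarith [h8.2])
              linarith
            · have : N.2 - 144 ≤ z / 2 ^ k := Int.le_ediv_of_mul_le hk2 (by linarith [h8.1])
              linarith
          · intro N hN N' hN' h9
            rw [mem_coe, mem_filter, mem_filter] at hN hN'
            exact Prod.ext (hN.1.2.trans hN'.1.2.symm) h9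
        rw [Int.card_Ioc] at h6
        have h7 : (z / 2 ^ k + 144 - (z / 2 ^ k - 144)).toNat = 288 := by
          rw [show z / 2 ^ k + 144 - (z / 2 ^ k - 144) = 288 by ring]; rfl
        rw [h7] at h6
        exact_mod_cast h6
      · rw [if_neg hk, mul_zero]
        refine le_of_eq (sum_eq_zero fun N hN => ?_)
        rw [(mem_filter.1 hN).2]
        simp [hk]
    have h4 : ∑ z ∈ Wl M, ∑ k ∈ range (M.1 + 1), (if ev k z then (1 : ℝ) else 0) ≤
        ((3 : ℕ) + 1) * (Kc * 2 ^ (M.1 + 7)) := by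
      refine sum_le_cells (s := s) (a := 2 ^ M.1 * (M.2 - 144)) (k := M.1) (m := 3) _
        (fun z => sum_nonneg fun k _ => by split_ifs <;> norm_num) ?_ (hK M.1 hMw)
      intro z hz
      rw [mem_Wl] at hz
      refine ⟨hz.1, ?_⟩
      have e7 : (2 : ℤ) ^ (M.1 + 7) = 2 ^ M.1 * 128 := by rw [pow_add]; norm_num
      have hk : (0 : ℤ) < 2 ^ M.1 := by positivity
      rw [e7]
      push_cast
      linarith [hz.2]
    have h5 : ∑ N ∈ tops 𝒲 (topN ev w) M, (2 : ℝ) ^ N.1 ≤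
        2 ^ M.1 + ∑ N ∈ (tops 𝒲 (topN ev w) M).erase w, (2 : ℝ) ^ N.1 := by
      by_cases hw : w ∈ tops 𝒲 (topN ev w) M
      · rw [← add_sum_erase _ _ hw]
        have : w.1 ≤ M.1 := (mem_tops.1 hw).2.1.1
        have := pow_le_pow_right₀ (one_le_two : (1 : ℝ) ≤ 2) this
        linarith
      · rw [erase_eq_of_notMem hw]
        have : (0 : ℝ) ≤ 2 ^ M.1 := by positivity
        linarith
    refine h5.trans ?_
    have h6 : (2 ^ 7 : ℝ)⁻¹ * (288 * ∑ z ∈ Wl M, ∑ k ∈ range (M.1 + 1),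
        (if ev k z then (1 : ℝ) else 0)) ≤ 1152 * Kc * 2 ^ M.1 := by
      have h7 : (2 ^ 7 : ℝ)⁻¹ * (288 * (((3 : ℕ) + 1) * (Kc * 2 ^ (M.1 + 7)))) =
          1152 * Kc * 2 ^ M.1 := by
        rw [pow_add]; push_cast; ring
      rw [← h7]
      exact mul_le_mul_of_nonneg_left (mul_le_mul_of_nonneg_left h4 (by norm_num)) (by positivity)
    linarith [h3.trans h6]
  · intro N hN y hy
    exact topN_val hA (hW.bel N hN) hy
  · intro N hN y _
    exact hh _ (hW.bel N hN).1 y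
  · intro N hN
    have h1 := sum_le_cells (s := s) (a := 2 ^ N.1 * (N.2 - 16)) (k := N.1) (m := 1)
      (U := W N.1 N.2) (fun y => A N.1 y ^ 2) (fun z => sq_nonneg _) (by
        intro z hz
        rw [mem_W] at hz
        refine ⟨hz.1, ?_⟩
        have e7 : (2 : ℤ) ^ (N.1 + 7) = 2 ^ N.1 * 128 := by rw [pow_add]; norm_num
        have hk : (0 : ℤ) < 2 ^ N.1 := by positivity
        rw [e7]
        push_cast
        linarith [hz.2]) (B := e * 2 ^ (N.1 + 7)) (fun x => by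
        have h2 := he N.1 (hW.bel N hN).1 x
        unfold dot at h2
        refine le_trans (le_of_eq (sum_congr rfl fun y _ => ?_)) h2
        ring)
    refine h1.trans (le_of_eq ?_)
    rw [pow_add, pow_add]
    push_cast
    ring

end

end Vale.Agent.P141.PL.H855
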