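import Vale.Agent.P141.PL.H855.StepIn
import Vale.Agent.P141.PL.H855.Uu
import Vale.Agent.P141.H501.L4

/-!
# P141, line W: the number of the term `(GP; G1, X, X)` at the level `j`
-/

namespace Vale.Agent.P141.PL.H855

open Vale.Agent.P141.H8 (K1 MM K1_ge)
open Vale.Agent.P141.H501 (numL4)

noncomputable section

theorem cE0_pos {Cg : ℝ} (h : 0 ≤ Cg) : 0 < cE0 Cg := by
  unfold cE0 cC2
  positivity

theorem szX_eq {Cg : ℝ} (h : 0 ≤ Cg) (κ : ℝ) (j : ℕ) :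
    Vale.Agent.P141.H501.szX (cC2 Cg) Cg (uu κ j) = 68 * √(cE0 Cg) * uu (κ / 2) j := by
  unfold Vale.Agent.P141.H501.szX
  have e : (4 * (2 * cC2 Cg + 3) + 2 * (1 + 2 * Cg)) * uu κ j = cE0 Cg * uu κ j := rfl
  rw [e, Real.sqrt_mul (cE0_pos h).le, uu_sqrt]
  ring

/-- **The number of the recursion at the level `j`.** -/
theorem numL4_le {Cg C0 A Cb κ c p1 q1 eE r : ℝ} (nR : ℕ) (hCg : 0 ≤ Cg) (hA : 0 ≤ A)
    (hCb : 0 ≤ Cb) (h1 : r ≤ p1 - c) (h2 : r ≤ q1 - c) (h3 : r ≤ κ / 2 - c) (hc : 0 ≤ c)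
    (h4 : r ≤ eE) : ∃ C : ℝ, 0 ≤ C ∧ ∀ (j : ℕ) (P : ℝ), 0 ≤ P →
      numL4 (cC2 Cg) Cg (cCk Cg C0) Cg (uu κ j) (cE0 Cg * uu κ j) (uu c j) (Cb * P)
        (A * uu p1 j) (A * uu q1 j) (A * uu (κ + eE) j * (1 + P)) nR ≤
      C * (uu r j * uu κ j * (1 + P)) := by
  have hMM : 0 < MM 2 := by unfold MM; norm_num
  have hK1 : 0 < K1 2 Cg := lt_of_lt_of_le one_pos (K1_ge (by norm_num) hCg)
  have hE0 := cE0_pos hCg
  set G : ℝ := (K1 2 Cg * MM 2) ^ nR with hG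
  have hG0 : 0 < G := by positivity
  set s : ℝ := √(cCk Cg C0) with hs
  have hs0 : 0 ≤ s := Real.sqrt_nonneg _
  set s' : ℝ := √(cE0 Cg) with hs'
  have hs'0 : 0 ≤ s' := Real.sqrt_nonneg _
  set a1 : ℝ := 2 * (68 * s') * (68 * s) * (68 ^ 2 * K1 2 Cg) / 128 with ha1
  set a2 : ℝ := 2 * (68 * s') * (68 * s) * (10 ^ 4 * (cE0 Cg * G)) / 128 with ha2
  have ha10 : 0 ≤ a1 := by positivity
  have ha20 : 0 ≤ a2 := by positivity
  set D : ℝ := nR * (cE0 Cg * G * MM 2) with hD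
  have hD0 : 0 ≤ D := by positivity
  refine ⟨D * (34 * A + 2 * (Cb * a1)) + Cb * a2 + A, by positivity, ?_⟩
  intro j P hP
  have e1 : MM 2 / uu c j = MM 2 * uu (-c) j := by rw [div_eq_mul_inv, uu_inv]
  unfold numL4
  rw [szX_eq hCg, e1]
  have key : (32 * (A * uu p1 j) + 2 * (A * uu q1 j + Cb * P *
        (2 * (68 * s' * uu (κ / 2) j) * (68 * s) * (68 ^ 2 * K1 2 Cg)) / 128)) *
        (nR * (cE0 Cg * uu κ j * G * (MM 2 * uu (-c) j))) +
      Cb * P * (2 * (68 * s' * uu (κ / 2) j) * (68 * s) * (10 ^ 4 * (cE0 Cg * uu κ j * G))) /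
        128 + A * uu (κ + eE) j * (1 + P) =
      D * (32 * A * (uu p1 j * uu (-c) j) + 2 * A * (uu q1 j * uu (-c) j) +
        2 * (Cb * a1) * P * (uu (κ / 2) j * uu (-c) j)) * uu κ j +
      Cb * a2 * P * uu (κ / 2) j * uu κ j + A * (uu κ j * uu eE j) * (1 + P) := by
    rw [uu_mul κ eE, ha1, ha2, hD]
    ring
  rw [key, uu_mul, uu_mul, uu_mul]
  have u0 := uu_nonneg r j
  have uκ := uu_nonneg κ j
  have u1 : uu (p1 + -c) j ≤ uu r j := uu_anti (by linarith) j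
  have u2 : uu (q1 + -c) j ≤ uu r j := uu_anti (by linarith) j
  have u3 : uu (κ / 2 + -c) j ≤ uu r j := uu_anti (by linarith) j
  have u4 : uu (κ / 2) j ≤ uu r j := uu_anti (by linarith) j
  have u5 : uu eE j ≤ uu r j := uu_anti (by linarith) j
  have t1 : D * (32 * A * uu (p1 + -c) j + 2 * A * uu (q1 + -c) j +
      2 * (Cb * a1) * P * uu (κ / 2 + -c) j) * uu κ j ≤
      D * (32 * A * uu r j + 2 * A * uu r j + 2 * (Cb * a1) * P * uu r j) * uu κ j := by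
    gcongr
  have t2 : Cb * a2 * P * uu (κ / 2) j * uu κ j ≤ Cb * a2 * P * uu r j * uu κ j := by
    gcongr
  have t3 : A * (uu κ j * uu eE j) * (1 + P) ≤ A * (uu κ j * uu r j) * (1 + P) := by
    gcongr
  refine (add_le_add (add_le_add t1 t2) t3).trans ?_
  have w0 : 0 ≤ uu r j * uu κ j := mul_nonneg u0 uκ
  have f1 : 0 ≤ D * (34 * A) * P * (uu r j * uu κ j) := by positivity
  have f2 : 0 ≤ D * (2 * (Cb * a1)) * (uu r j * uu κ j) := by positivity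
  have f3 : 0 ≤ Cb * a2 * (uu r j * uu κ j) := by positivity
  nlinarith

end

end Vale.Agent.P141.PL.H855
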