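import Vale.Agent.P141.PL.H855.EndDefs
import Vale.Agent.P141.H610.Pieces

/-!
# P141, line W, module PROC: the input of END on every region of a stage-0 window

`atS_top`: the data minus the residual at the top of the window, seen from a smaller cell.
`endIn_win`: `EndIn` for `P = V_old Λ - V_new Λ` and for an END value `G1`.
-/

namespace Vale.Agent.P141.PL.H855

open Finset Function
open Vale.Agent.P141.H315 Vale.Agent.P141.PL.H318
open Vale.Agent.P141.H297 (Paths tp Ue Mix V_top_eq local_mass gd_le)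
open Vale.Agent.P141.H347 (LW cd cd_pos Pth lden)
open Vale.Agent.P141.H8
open Vale.Agent.P141.H610 (en_sub en_mono en_Ue un_Ue en_sub_Ue)

noncomputable section

open scoped Classical

variable {X ι α : Type*} {g : Grid X}

theorem un_mono {S : CSys g ι} {ud ud' : ℕ → X → Prop} {F : X → ℝ} {C C' : ℝ}
    (h : Un S C ud F) (hs : ∀ k y, ud' k y → ud k y) (hC : C ≤ C') : Un S C' ud' F :=
  fun k y hy i => (h k y (hs k y hy) i).trans
    (mul_le_mul_of_nonneg_right hC (S.W_nonneg _ _ _))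

theorem un_sub {S : CSys g ι} {ud : ℕ → X → Prop} {F G : X → ℝ} {C C' : ℝ}
    (h : Un S C ud F) (h' : Un S C' ud G) : Un S (C + C') ud (F - G) := fun k y hy i => by
  have e1 : dot (g.cube k y) (F - G) (S.a k i) =
      dot (g.cube k y) F (S.a k i) - dot (g.cube k y) G (S.a k i) := by
    unfold dot
    rw [← sum_sub_distrib]
    exact sum_congr rfl fun z _ => by simp only [Pi.sub_apply]; ring
  rw [e1, add_mul]
  exact (abs_sub _ _).trans (add_le_add (h k y hy i) (h' k y hy i))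

section win

variable {J : Type*} [Fintype J] {S : J → CSys g ι} {w : ∀ j, LW (S j)} {L : ℕ} {e : ℝ}
  {F : J → X → ℝ} {gd : ℕ → X → Prop} {V H : J → ℕ → X → ℝ} {rs : J → ℕ → X → Prop}
  {lm : J → ℕ → X → ℝ} {e0 C2 : ℝ}

/-- the data minus the residual at the top of the window, seen from a smaller cell -/
theorem atS_top (hP : Paths w L e F gd V H rs lm) (he0 : 0 ≤ e0) {Λ L0 : ℕ} {x0 : X}
    (hΛ : Λ ≤ L) (hL0 : L0 ≤ Λ) (ht : tp w L gd V H rs e0 C2 L0 x0 = Λ) (hg : gd L0 x0) (j : J) :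
    AtS (w j) L L0 x0 (16 * e + e0) fun y => F j y - V j Λ y := by
  have h1 : AtS (w j) L L0 x0 (16 * e) fun y => F j y - V j L0 y :=
    (atS_alive (hP.path j) hP.gd_const hP.gd_up (hL0.trans hΛ) hg).mono
      ((hP.path j).mass L0 (hL0.trans hΛ) x0 hg)
  have h2 : AtS (w j) L L0 x0 e0 fun y => V j Λ y - V j L0 y :=
    (atS_sum (G := H j) (Λ := L0) (Λ' := Λ) hΛ (P := fun y => V j Λ y - V j L0 y)
      fun y hy => by
        show V j Λ y - V j L0 y = _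
        rw [V_top_eq hP j hΛ hL0 ht hy]; ring).mono (local_mass hP j he0 hΛ hL0 ht)
  exact (h1.sub h2).congr fun y _ => by ring

/-- **`EndIn` on every region of a stage-0 window.**  `jo`, `jn`: the indices of the old and of the
new path of a slot; `i` = role, `a` = another slot, `ja` = its path. -/
theorem endIn_win (hP : Paths w L e F gd V H rs lm) (he0 : 0 ≤ e0) {Λ L0 : ℕ} {z x0 : X}
    (hΛ : Λ ≤ L) {ud : ℕ → X → Prop}
    (hR : Rgn g (Wr g gd (tp w L gd V H rs e0 C2) Λ z) L0 x0 ud) (hx : ud L0 x0) {Cg B : ℝ}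
    (hM : ∀ j, Mix (S j) Cg) (hC : 0 ≤ Cg) (hB : ∀ k x, cd g (k + 1) x ≤ B * cd g k x)
    (hC2 : 0 ≤ C2) (jo jn : Fin 4 → J) {i a : Fin 4} (hF : F (jo i) = F (jn i)) {C1 : ℝ}
    (hcmp : ∀ (m : Fin 4) (ud : ℕ → X → Prop) (G : X → ℝ), Un (S (jn m)) Cg ud G →
      Un (S (jo m)) C1 ud G) {ja : J} (hja : ja = jo a ∨ ja = jn a) {C : ℝ} (he : 0 ≤ e)
    (hCe : 32 * e ≤ C) (hCu : Cg + C1 ≤ C) (hC1 : 0 ≤ C1)
    (hCd : 4 * (4 * (B * C2 + 3) + 2 * (1 + 2 * Cg)) ≤ C) :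
    EndIn (fun m => w (jo m)) (fun m => w (jn m)) (fun m => S (jo m)) L L0 x0 ud i a
      (16 * e + e0) C e0 (V (jo i) Λ - V (jn i) Λ) (Ue w L gd V H rs e0 C2 ja Λ) := by
  obtain ⟨h1, h2, h3, h4⟩ := hR.sub L0 x0 hx
  have hs : ∀ k y, ud k y → Wr g gd (tp w L gd V H rs e0 C2) Λ z k y := hR.sub
  have hO := atS_top hP he0 hΛ h2 h4 h1 (jo i)
  have hN := atS_top hP he0 hΛ h2 h4 h1 (jn i)
  refine ⟨⟨_, _, hO.neg, hN.neg, fun y _ => ?_⟩,
    ⟨Ue w L gd V H rs e0 C2 (jo i) Λ - Ue w L gd V H rs e0 C2 (jn i) Λ,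
      (V (jo i) Λ - Ue w L gd V H rs e0 C2 (jo i) Λ) -
        (V (jn i) Λ - Ue w L gd V H rs e0 C2 (jn i) Λ), fun y _ => ?_, ?_, ?_, ?_⟩, ?_, ?_⟩
  · simp only [Pi.sub_apply]
    rw [hF]; ring
  · simp only [Pi.sub_apply]; ring
  · exact un_mono (un_sub (un_Ue hP hΛ (jo i) (hM _) z)
      (hcmp i _ _ (un_Ue hP hΛ (jn i) (hM _) z))) hs hCu
  · refine en_mono (en_sub (en_Ue (e' := e0) (C2 := C2) hP hΛ (jo i) z)
      (en_Ue (e' := e0) (C2 := C2) hP hΛ (jn i) z)) hs ?_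
    linarith
  · refine en_mono (en_sub (en_sub_Ue hP hΛ (jo i) (hM _) hC hB he0 hC2 z)
      (en_sub_Ue hP hΛ (jn i) (hM _) hC hB he0 hC2 z)) hs ?_
    nlinarith
  · rcases hja with h | h
    · subst h
      exact un_mono (un_Ue hP hΛ (jo a) (hM _) z) hs (by linarith)
    · subst h
      exact un_mono (hcmp a _ _ (un_Ue hP hΛ (jn a) (hM _) z)) hs (by linarith)
  · exact en_mono (en_Ue (e' := e0) (C2 := C2) hP hΛ ja z) hs (by linarith)

/-- **END on the stage-0 window**, in the form of the recursion. -/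
theorem endHyp_win {nv : N4 g α} (hP : Paths w L e F gd V H rs lm) (he0 : 0 ≤ e0) {Λ : ℕ} {z : X}
    (hΛ : Λ ≤ L) {Cg B : ℝ} (hM : ∀ j, Mix (S j) Cg) (hC : 0 ≤ Cg)
    (hB : ∀ k x, cd g (k + 1) x ≤ B * cd g k x) (hC2 : 0 ≤ C2) (jo jn : Fin 4 → J) {C1 : ℝ}
    (hcmp : ∀ (m : Fin 4) (ud : ℕ → X → Prop) (G : X → ℝ), Un (S (jn m)) Cg ud G →
      Un (S (jo m)) C1 ud G) {C : ℝ} (he : 0 ≤ e) (hCe : 32 * e ≤ C) (hCu : Cg + C1 ≤ C)
    (hC1 : 0 ≤ C1) (hCd : 4 * (4 * (B * C2 + 3) + 2 * (1 + 2 * Cg)) ≤ C) {en K c : ℝ}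
    (hE : EndStm nv gd L (fun m => w (jo m)) (fun m => w (jn m)) (fun m => S (jo m))
      (16 * e + e0) C e0 en K c) (σ : Equiv.Perm (Fin 4))
    (hF : F (jo (σ.symm 0)) = F (jn (σ.symm 0))) {ja : J}
    (hja : ja = jo (σ.symm 1) ∨ ja = jn (σ.symm 1)) :
    H610.EndHyp (nv.toNV σ) (Wr g gd (tp w L gd V H rs e0 C2) Λ z)
      (Ue w L gd V H rs e0 C2 ja Λ) (st (V (jo (σ.symm 0)) Λ - V (jn (σ.symm 0)) Λ)) en K c :=
  endHyp_of_stm hE σ (fun _ _ h => h.1) (fun _ _ h => h.2.1.trans hΛ) fun _ _ _ hR hx =>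
    endIn_win hP he0 hΛ hR hx hM hC hB hC2 jo jn hF hcmp hja he hCe hCu hC1 hCd

end win

end

end Vale.Agent.P141.PL.H855
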