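import Vale.Agent.P141.H501.RndP
import Vale.Agent.P141.PL.H855.WinEnd

/-!
# P141, line W, module PROC: the hypotheses of the rounds on a window, static role function

`rnd_static`: the structure `H8.Rnd` on the stage-0 window with the top `(Λ, z)` for the STATIC
function `P = V_old Λ - V_new Λ` (value at the top of the window), `GP = Ue_old - Ue_new`.
-/

namespace Vale.Agent.P141.PL.H855

open Finset Function
open Vale.Agent.P141.PL.H571 (W)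
open Vale.Agent.P141.PL.H95 (gr)
open Vale.Agent.P141.H315 Vale.Agent.P141.PL.H318
open Vale.Agent.P141.H297 (Paths tp Ue Mix gd_le slotX)
open Vale.Agent.P141.H347 (LW cd)
open Vale.Agent.P141.H8
open Vale.Agent.P141.H501 (sl2 PayU.T4_0 PayU.T4_2 PayU.T4_3 En.sub_rgn Un.sub_rgn)
open Vale.Agent.P141.H610 (BoxHyp mbb_of_box cutR)

noncomputable section

open scoped Classical

section atoms

variable {X ι α : Type*} {g : Grid X} {nv : N4 g α} {S : CSys g ι} {w : LW S} {L Λ : ℕ} {x : X}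
  {M : ℝ} {P : X → ℝ}

/-- a combination of atoms in the first slot of the order `σ` pays -/
theorem T4_atS (σ : Equiv.Perm (Fin 4)) {gd0 ud : ℕ → X → Prop} (hR : Rgn g gd0 Λ x ud)
    (h : AtS w L Λ x M P) (B C D : ℕ → X → ℝ) {p : ℝ} (hp : 0 ≤ p)
    (H1 : ∀ j i, Λ ≤ j → j ≤ L → T4 (nv.toNV σ) ud (st (S.a j i)) B C D ≤
      p * w.ω j Λ x i * cd g Λ x) :
    T4 (nv.toNV σ) ud (st P) B C D ≤ p * M * cd g Λ x := by
  rw [T4_toNV, ← ord0 σ (st 0) B C D]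
  refine TR_atS hR h _ _ hp fun j i h1 h2 => ?_
  rw [ord0 σ (st 0) B C D, ← T4_toNV]
  exact H1 j i h1 h2

theorem T4_diff (σ : Equiv.Perm (Fin 4)) (ud : ℕ → X → Prop) (P1 P2 : X → ℝ)
    (B C D : ℕ → X → ℝ) (hP : P = P1 - P2) :
    T4 (nv.toNV σ) ud (st P) B C D ≤
      T4 (nv.toNV σ) ud (st P1) B C D + T4 (nv.toNV σ) ud (st P2) B C D := by
  have h := TR_sub (nv := nv) (ud := ud) (fun j => ![st 0, B, C, D] (σ j)) (σ.symm 0) (st P1)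
    (st P2)
  rw [ord0, ord0, ord0, ← T4_toNV, ← T4_toNV, ← T4_toNV] at h
  rw [hP]
  exact h

end atoms

variable {ι ι' κ α : Type*} {s : ℤ} {J : Type*} [Fintype J] {S : J → CSys (gr 7 s) ι}
  {w : ∀ j, LW (S j)} {L : ℕ} {e : ℝ} {F : J → ℤ → ℝ} {gd : ℕ → ℤ → Prop}
  {V H : J → ℕ → ℤ → ℝ} {rs : J → ℕ → ℤ → Prop} {lm : J → ℕ → ℤ → ℝ} {e0 C2 : ℝ}
  {Λ : ℕ} {z : ℤ} {nv : N4 (gr 7 s) α} {UA : Fin 4 → CSys (gr 7 s) κ}
  {R : Fin 4 → CSys (gr 7 s) ι'} {wR : ∀ m, LW (R m)}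

/-- the size of the slot `V Λ - U` (`H297/SlotW`) -/
def szX (C2 Cg e0 : ℝ) : ℝ := 68 * √((4 * (2 * C2 + 3) + 2 * (1 + 2 * Cg)) * e0)

/-- **The slot** `GP - P`, static. -/
theorem slot_GPs (hP : Paths w L e F gd V H rs lm) (he0 : 0 < e0) (hΛ : Λ ≤ L) {Cg : ℝ}
    (hM : ∀ j, Mix (S j) Cg) (hC : 0 ≤ Cg) (hC2 : 0 ≤ C2) (j0 j1 : J)
    {L0 : ℕ} {x0 : ℤ} {ud : ℕ → ℤ → Prop}
    (hR : Rgn (gr 7 s) (Wr (gr 7 s) gd (tp w L gd V H rs e0 C2) Λ z) L0 x0 ud) :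
    CSlot0 s L0 (cutR ud fun k => (fun y => Ue w L gd V H rs e0 C2 j0 Λ y -
      Ue w L gd V H rs e0 C2 j1 Λ y) - st (fun y => V j0 Λ y - V j1 Λ y) k)
      (2 * szX C2 Cg e0) := by
  have h1 := slotX hP he0 hΛ hR hC2 j1 (hM j1) hC
  have h2 := slotX hP he0 hΛ hR hC2 j0 (hM j0) hC
  refine ((h1.sub h2).congr fun k _ y => ?_).mono (le_of_eq ?_)
  · unfold cutR
    split_ifs
    · simp only [Pi.sub_apply, st]
      ring
    · rw [sub_zero]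
  · unfold szX
    ring

/-- **The hypotheses of a round on the stage-0 window**, static role function. -/
theorem rnd_static (σ : Equiv.Perm (Fin 4)) (hP : Paths w L e F gd V H rs lm) (he0 : 0 < e0)
    (hΛ : Λ ≤ L) {Cm : ℝ} (hM : ∀ j, Mix (S j) Cm) (hC : 0 ≤ Cm) (hC2 : 0 ≤ C2)
    (jo jn : Fin 4 → J) (hF : F (jo (σ.symm 0)) = F (jn (σ.symm 0)))
    {G1 : ℤ → ℝ} {CA EA CP ez Cg c2 c3 : ℝ} (hEA : 0 < EA) (hez : 0 < ez) (hc3 : 0 ≤ c3)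
    (hb : BoxHyp nv (Wr (gr 7 s) gd (tp w L gd V H rs e0 C2) Λ z) CP)
    (hGe : En (gr 7 s) (Wr (gr 7 s) gd (tp w L gd V H rs e0 C2) Λ z) (fun y =>
      Ue w L gd V H rs e0 C2 (jo (σ.symm 0)) Λ y - Ue w L gd V H rs e0 C2 (jn (σ.symm 0)) Λ y) EA)
    (hGu : Un (UA (σ.symm 0)) CA (Wr (gr 7 s) gd (tp w L gd V H rs e0 C2) Λ z) (fun y =>
      Ue w L gd V H rs e0 C2 (jo (σ.symm 0)) Λ y - Ue w L gd V H rs e0 C2 (jn (σ.symm 0)) Λ y))
    (h1e : En (gr 7 s) (Wr (gr 7 s) gd (tp w L gd V H rs e0 C2) Λ z) G1 EA)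
    (h1u : Un (UA (σ.symm 1)) CA (Wr (gr 7 s) gd (tp w L gd V H rs e0 C2) Λ z) G1)
    (H2 : ∀ L', PayU nv (Wr (gr 7 s) gd (tp w L gd V H rs e0 C2) Λ z) L' wR UA UA CA CA EA EA
      ez c2)
    (H3o : PayU nv (Wr (gr 7 s) gd (tp w L gd V H rs e0 C2) Λ z) L (fun m => w (jo m)) UA R CA Cg
      EA ez ez c3)
    (H3n : PayU nv (Wr (gr 7 s) gd (tp w L gd V H rs e0 C2) Λ z) L (fun m => w (jn m)) UA R CA Cg
      EA ez ez c3) :
    Rnd (nv.toNV σ) (Wr (gr 7 s) gd (tp w L gd V H rs e0 C2) Λ z) (fun y =>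
      Ue w L gd V H rs e0 C2 (jo (σ.symm 0)) Λ y - Ue w L gd V H rs e0 C2 (jn (σ.symm 0)) Λ y) G1
      (st (fun y => V (jo (σ.symm 0)) Λ y - V (jn (σ.symm 0)) Λ y)) (fun i => R (sl2 σ i))
      (fun i => wR (sl2 σ i)) ez Cg (c2 * √ez) (c3 * √ez * (32 * e + 2 * e0))
      (CP * (2 * szX C2 Cm e0 * (68 * √EA) * (68 ^ 2 * ez)) / 128) := by
  set Wd : ℕ → ℤ → Prop := Wr (gr 7 s) gd (tp w L gd V H rs e0 C2) Λ z with hWd
  -- the role slot: a combination of atoms at every cell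
  have hfin : ∀ (L' : ℕ) (x : ℤ) (ud : ℕ → ℤ → Prop), Rgn (gr 7 s) Wd L' x ud → ud L' x →
      ∀ B C D : ℕ → ℤ → ℝ, (∀ j, (j = jo (σ.symm 0) ∨ j = jn (σ.symm 0)) → ∀ l, L' ≤ l → l ≤ L →
        ∀ i, T4 (nv.toNV σ) ud (st ((S j).a l i)) B C D ≤
          c3 * √ez * (w j).ω l L' x i * cd (gr 7 s) L' x) →
      T4 (nv.toNV σ) ud (st fun y => V (jo (σ.symm 0)) Λ y - V (jn (σ.symm 0)) Λ y) B C D ≤
        c3 * √ez * (32 * e + 2 * e0) * cd (gr 7 s) L' x := by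
    intro L' x ud hR hx B C D hpay
    obtain ⟨h1, h2, h3, h4⟩ := hR.sub L' x hx
    have hO := (atS_top hP he0.le hΛ h2 h4 h1 (jo (σ.symm 0))).neg
    have hN := (atS_top hP he0.le hΛ h2 h4 h1 (jn (σ.symm 0))).neg
    have hc : 0 ≤ c3 * √ez := mul_nonneg hc3 (Real.sqrt_nonneg _)
    have k1 := T4_atS (nv := nv) σ hR hO B C D hc fun l i h5 h6 =>
      hpay _ (Or.inl rfl) l h5 h6 i
    have k2 := T4_atS (nv := nv) σ hR hN B C D hc fun l i h5 h6 =>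
      hpay _ (Or.inr rfl) l h5 h6 i
    have k3 := T4_diff (nv := nv) σ ud
      (P := fun y => V (jo (σ.symm 0)) Λ y - V (jn (σ.symm 0)) Λ y)
      (fun y => -(F (jo (σ.symm 0)) y - V (jo (σ.symm 0)) Λ y))
      (fun y => -(F (jn (σ.symm 0)) y - V (jn (σ.symm 0)) Λ y)) B C D
      (by funext y; simp only [Pi.sub_apply]; rw [hF]; ring)
    refine k3.trans ((add_le_add k1 k2).trans (le_of_eq ?_))
    ring
  refine ⟨?_, ?_, ?_, ?_, ?_⟩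
  · intro L' x ud hR hx Z hZ j hj i
    exact PayU.T4_2 (H2 j) σ hj hR hx (a := 0) (b := 1) (d := 3) (by decide)
      (En.sub_rgn hR hGe) (Un.sub_rgn hR hGu) (En.sub_rgn hR h1e) (Un.sub_rgn hR h1u) hez.le
      le_rfl hZ hj le_rfl i
  · intro L' x ud hR hx Z hZ j hj i
    exact PayU.T4_3 (H2 j) σ hj hR hx (a := 0) (b := 1) (d := 2) (by decide)
      (En.sub_rgn hR hGe) (Un.sub_rgn hR hGu) (En.sub_rgn hR h1e) (Un.sub_rgn hR h1u) hez.le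
      le_rfl hZ hj le_rfl i
  · intro L' x ud hR hx U Z hU hUe hZe
    refine hfin L' x ud hR hx _ _ _ ?_
    rintro j (rfl | rfl) l hl hlL i
    · exact PayU.T4_0 H3o σ (hl.trans hlL) hR hx (a := 1) (b := 2) (d := 3) (by decide)
        (En.sub_rgn hR h1e) (Un.sub_rgn hR h1u) hUe hU hez.le le_rfl hZe hl hlL i
    · exact PayU.T4_0 H3n σ (hl.trans hlL) hR hx (a := 1) (b := 2) (d := 3) (by decide)
        (En.sub_rgn hR h1e) (Un.sub_rgn hR h1u) hUe hU hez.le le_rfl hZe hl hlL i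
  · intro L' x ud hR hx U Z hU hUe hZe
    refine hfin L' x ud hR hx _ _ _ ?_
    rintro j (rfl | rfl) l hl hlL i
    · exact PayU.T4_0 H3o σ (hl.trans hlL) hR hx (a := 1) (b := 3) (d := 2) (by decide)
        (En.sub_rgn hR h1e) (Un.sub_rgn hR h1u) hUe hU hez.le le_rfl hZe hl hlL i
    · exact PayU.T4_0 H3n σ (hl.trans hlL) hR hx (a := 1) (b := 3) (d := 2) (by decide)
        (En.sub_rgn hR h1e) (Un.sub_rgn hR h1u) hUe hU hez.le le_rfl hZe hl hlL i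
  · intro L' x ud hR hx U Z hU hZ
    exact mbb_of_box hb σ hEA hez (fun L1 x1 ud1 hR1 hx1 =>
      slot_GPs hP he0 hΛ hM hC hC2 _ _ hR1) h1e hR hx hU hZ

end

end Vale.Agent.P141.PL.H855
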