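import Vale.Agent.P141.PL.H571.Single
import Vale.Agent.P141.PL.H571.Defs

/-!
# P141, line W: the root format and the level systems

`RootQ q n H P`: the root estimate for functions of height `≤ H` with window `L^q` averages `≤ 1` on
a closure.  `RootG q`: the root estimate with the loss of an arbitrarily small power of the height
and of nothing else.  `LevelSys q`: what the decomposition into levels has to deliver.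
-/

namespace Vale.Agent.P141.PL.H855

open Finset
open Vale.Agent.P141.PL.H571 (W)
open Vale.Agent.P141.PL.H620 (loc1 nn)

noncomputable section

/-- the value of a node -/
def wN (o : ℤ) (f : Fin 4 → ℤ → ℝ) (N : ℕ × ℤ) : ℝ := ((4 : ℝ) ^ N.1)⁻¹ * loc1 N.1 (nn o N.2 0 0) f

/-- the node `N` is below (or equal to) the node `Q` -/
def Bel (N Q : ℕ × ℤ) : Prop := N.1 ≤ Q.1 ∧ N.2 / 2 ^ (Q.1 - N.1) = Q.2

/-- admissible data: functions of height `≤ H`, window `L^q` averages `≤ 1` on the closure `𝒩` of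
nodes below the root `(K, V)` -/
structure Dat (q : ℝ) (n : ℕ) (H : ℝ) (f : Fin 4 → ℤ → ℝ) (o : ℤ) (K : ℕ) (V : ℤ)
    (𝒩 : Finset (ℕ × ℤ)) : Prop where
  supp : ∀ j, (Function.support (f j)).Finite
  ho : o = 1 ∨ o = -1
  hK : K ≤ n
  root : ∀ N ∈ 𝒩, 1 ≤ N.1 ∧ N.1 ≤ K ∧ N.2 / 2 ^ (K - N.1) = V
  cl : ∀ N ∈ 𝒩, ∀ k', N.1 ≤ k' → k' ≤ K → (k', N.2 / 2 ^ (k' - N.1)) ∈ 𝒩
  sup : ∀ j x, |f j x| ≤ H
  lq : ∀ N ∈ 𝒩, ∀ j, ∑ y ∈ W N.1 N.2, |f j y| ^ q ≤ 2 ^ (N.1 + 5)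

/-- the root estimate -/
def RootQ (q : ℝ) (n : ℕ) (H P : ℝ) : Prop :=
  ∀ f o K V 𝒩, Dat q n H f o K V 𝒩 → ∑ N ∈ 𝒩, |wN o f N| ≤ P * 2 ^ K

/-- the root estimate with the loss of an arbitrarily small power of the height -/
def RootG (q : ℝ) : Prop := ∀ γ : ℝ, 0 < γ → ∃ P : ℝ, 0 ≤ P ∧ ∀ (n : ℕ) (H : ℝ), 1 ≤ H →
  RootQ q n H (P * H ^ γ)

/-- the node is bad with respect to a family of cells -/
def Bad (ℬ : Finset (ℕ × ℤ)) (N : ℕ × ℤ) : Prop := ∃ Q ∈ ℬ, Bel N Q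

/-- the nodes of the closure which are not bad -/
def gd (𝒩 ℬ : Finset (ℕ × ℤ)) : Finset (ℕ × ℤ) := by
  classical exact 𝒩.filter fun N => ¬ Bad ℬ N

/-- a system of levels `j ≥ j0` for the data: `X j N` is the value of the residuals of the level
`2 ^ (-j)` at the node `N`, `ℬ j` are the bad cells of the level -/
structure LvSys (ρ C : ℝ) (A j0 : ℕ) (f : Fin 4 → ℤ → ℝ) (o : ℤ) (K : ℕ)
    (𝒩 : Finset (ℕ × ℤ)) (X : ℕ → ℕ × ℤ → ℝ) (ℬ : ℕ → Finset (ℕ × ℤ)) : Prop where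
  sub : ∀ j, j0 ≤ j → ℬ j ⊆ 𝒩
  bad : ∀ j, j0 ≤ j → ∑ Q ∈ ℬ j, (2 : ℝ) ^ Q.1 ≤ C * ρ ^ j * 2 ^ K
  first : ∑ N ∈ gd 𝒩 (ℬ j0), |wN o f N - X j0 N| ≤ C * 2 ^ (A * j0) * 2 ^ K
  step : ∀ j, j0 ≤ j → ∑ N ∈ gd (gd 𝒩 (ℬ j)) (ℬ (j + 1)), |X j N - X (j + 1) N| ≤
    C * ρ ^ j * 2 ^ K
  lim : ∀ N ∈ 𝒩, (∀ j, j0 ≤ j → ¬ Bad (ℬ j) N) → ∀ ε : ℝ, 0 < ε → ∃ J, ∀ j, J ≤ j → |X j N| ≤ ε

/-- **The target of the level construction**: `A` is the exponent of the cost of the first level,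
`C0` the exponent of the height. -/
def LevelSys (q : ℝ) : Prop := ∃ A : ℕ, ∀ C0 : ℕ, ∃ ρ C : ℝ, 0 ≤ ρ ∧ ρ < 1 ∧ 0 ≤ C ∧
  ∀ j0 : ℕ, 1 ≤ j0 → ∀ n f o K V 𝒩, Dat q n (2 ^ (C0 * j0)) f o K V 𝒩 →
    ∃ X ℬ, LvSys ρ C A j0 f o K 𝒩 X ℬ

theorem mem_gd {𝒩 ℬ : Finset (ℕ × ℤ)} {N : ℕ × ℤ} : N ∈ gd 𝒩 ℬ ↔ N ∈ 𝒩 ∧ ¬ Bad ℬ N := by
  unfold gd; simp only [mem_filter]

theorem ediv_pow_add (v : ℤ) (a b : ℕ) : v / 2 ^ (a + b) = v / 2 ^ a / 2 ^ b := by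
  rw [pow_add, Int.ediv_ediv_of_nonneg (by positivity)]

/-- restriction to a sub-root -/
theorem Dat.cut {q : ℝ} {n : ℕ} {H : ℝ} {f : Fin 4 → ℤ → ℝ} {o : ℤ} {K : ℕ} {V : ℤ}
    {𝒩 : Finset (ℕ × ℤ)} (h : Dat q n H f o K V 𝒩) {Q : ℕ × ℤ} (hQ : Q ∈ 𝒩)
    {𝒩' : Finset (ℕ × ℤ)} (h𝒩' : ∀ N, N ∈ 𝒩' ↔ N ∈ 𝒩 ∧ Bel N Q) :
    Dat q n H f o Q.1 Q.2 𝒩' := by
  have hQK := (h.root Q hQ).2.1
  refine ⟨h.supp, h.ho, hQK.trans h.hK, fun N hN => ?_, fun N hN k' h1 h2 => ?_, h.sup,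
    fun N hN => h.lq N ((h𝒩' N).1 hN).1⟩
  · obtain ⟨h1, h2⟩ := (h𝒩' N).1 hN
    exact ⟨(h.root N h1).1, h2.1, h2.2⟩
  · obtain ⟨h3, h4⟩ := (h𝒩' N).1 hN
    refine (h𝒩' _).2 ⟨h.cl N h3 k' h1 (h2.trans hQK), h2, ?_⟩
    show N.2 / 2 ^ (k' - N.1) / 2 ^ (Q.1 - k') = Q.2
    rw [← ediv_pow_add, ← h4.2]
    congr 2
    omega

/-- the number of nodes -/
theorem sum_two_pow_le {K : ℕ} {V : ℤ} {𝒩 : Finset (ℕ × ℤ)}
    (h : ∀ N ∈ 𝒩, 1 ≤ N.1 ∧ N.1 ≤ K ∧ N.2 / 2 ^ (K - N.1) = V) :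
    ∑ N ∈ 𝒩, (2 : ℝ) ^ N.1 ≤ K * 2 ^ K := by
  classical
  have hcell : ∀ k : ℕ, ∀ v : ℤ, v / 2 ^ (K - k) = V →
      v ∈ Ico (2 ^ (K - k) * V) (2 ^ (K - k) * (V + 1)) := by
    intro k v hv
    have h3 : (0 : ℤ) < 2 ^ (K - k) := by positivity
    have h5 := Int.mul_ediv_add_emod v (2 ^ (K - k))
    have h6 := Int.emod_nonneg v h3.ne'
    have h7 := Int.emod_lt_of_pos v h3
    rw [hv] at h5
    rw [mem_Ico, mul_add, mul_one]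
    constructor <;> linarith
  have hsub : 𝒩 ⊆ (Icc 1 K).biUnion fun k =>
      (Ico (2 ^ (K - k) * V) (2 ^ (K - k) * (V + 1))).image fun v => (k, v) := by
    intro N hN
    obtain ⟨h1, h2, h3⟩ := h N hN
    rw [mem_biUnion]
    exact ⟨N.1, mem_Icc.2 ⟨h1, h2⟩, mem_image.2 ⟨N.2, hcell _ _ h3, rfl⟩⟩
  refine (sum_le_sum_of_subset_of_nonneg hsub fun _ _ _ => by positivity).trans ?_
  rw [sum_biUnion]
  · have h2 : ∀ k ∈ Icc 1 K, ∑ N ∈ (Ico (2 ^ (K - k) * V) (2 ^ (K - k) * (V + 1))).image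
        (fun v => ((k, v) : ℕ × ℤ)), (2 : ℝ) ^ N.1 = 2 ^ K := by
      intro k hk
      rw [mem_Icc] at hk
      rw [sum_image (fun x _ y _ hxy => (Prod.mk.inj hxy).2)]
      simp only
      rw [sum_const, Int.card_Ico, nsmul_eq_mul]
      have e : (2 : ℤ) ^ (K - k) * (V + 1) - 2 ^ (K - k) * V = ((2 ^ (K - k) : ℕ) : ℤ) := by
        push_cast; ring
      rw [e, Int.toNat_natCast]
      push_cast
      rw [← pow_add]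
      congr 1
      omega
    rw [sum_congr rfl h2, sum_const, Nat.card_Icc, nsmul_eq_mul, Nat.add_sub_cancel]
  · intro k _ k' _ hkk'
    refine disjoint_left.2 fun N hN hN' => hkk' ?_
    obtain ⟨_, _, rfl⟩ := mem_image.1 hN
    obtain ⟨_, _, h⟩ := mem_image.1 hN'
    exact (Prod.mk.inj h).1.symm

theorem sq_le_young {q : ℝ} (hq : 2 < q) {t : ℝ} (ht : 0 ≤ t) :
    t ^ 2 ≤ (1 - 2 / q) + 2 / q * t ^ q := by
  have hq0 : 0 < q := by linarith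
  have h1 : 0 ≤ 1 - 2 / q := by
    rw [sub_nonneg, div_le_one hq0]; exact hq.le
  have h := Real.geom_mean_le_arith_mean2_weighted h1 (by positivity : 0 ≤ 2 / q) zero_le_one
    (Real.rpow_nonneg ht q) (by ring)
  rw [Real.one_rpow, one_mul, ← Real.rpow_mul ht, mul_div_cancel₀ _ hq0.ne', mul_one] at h
  rwa [← Real.rpow_natCast]

/-- the `L²` averages -/
theorem Dat.l2 {q : ℝ} (hq : 2 < q) {n : ℕ} {H : ℝ} {f : Fin 4 → ℤ → ℝ} {o : ℤ} {K : ℕ} {V : ℤ}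
    {𝒩 : Finset (ℕ × ℤ)} (h : Dat q n H f o K V 𝒩) {N : ℕ × ℤ} (hN : N ∈ 𝒩) (j : Fin 4) :
    ∑ y ∈ W N.1 N.2, |f j y| ^ 2 ≤ 2 ^ (N.1 + 5) := by
  have hq0 : 0 < q := by linarith
  have h1 : ∑ y ∈ W N.1 N.2, |f j y| ^ 2 ≤
      ∑ y ∈ W N.1 N.2, ((1 - 2 / q) + 2 / q * |f j y| ^ q) :=
    sum_le_sum fun y _ => sq_le_young hq (abs_nonneg _)
  refine h1.trans ?_
  rw [sum_add_distrib, sum_const, H571.card_W, ← mul_sum, nsmul_eq_mul]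
  have h2 := mul_le_mul_of_nonneg_left (h.lq N hN j) (by positivity : 0 ≤ 2 / q)
  push_cast
  nlinarith

/-- the trivial bound -/
theorem rootQ_trivial {q : ℝ} (hq : 2 < q) (n : ℕ) (H : ℝ) : RootQ q n H (2 ^ 10 * n) := by
  intro f o K V 𝒩 h
  have h1 : ∀ N ∈ 𝒩, |wN o f N| ≤ 2 ^ 10 * 2 ^ N.1 := by
    intro N hN
    have h2 := H571.single_scale (k := N.1) (v := N.2) h.ho f (fun _ => 1) (by
      intro j; rw [mul_one]; exact h.l2 hq hN j)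
    rw [Real.sqrt_one, prod_const_one, mul_one] at h2
    unfold wN
    rwa [abs_mul, abs_of_pos (by positivity : (0 : ℝ) < ((4 : ℝ) ^ N.1)⁻¹)]
  refine (sum_le_sum h1).trans ?_
  rw [← mul_sum]
  have h3 := sum_two_pow_le h.root
  have h4 : (K : ℝ) * 2 ^ K ≤ n * 2 ^ K :=
    mul_le_mul_of_nonneg_right (by exact_mod_cast h.hK) (by positivity)
  have h5 := mul_le_mul_of_nonneg_left (h3.trans h4) (by norm_num : (0 : ℝ) ≤ 2 ^ 10)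
  linarith

end

end Vale.Agent.P141.PL.H855
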