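import Vale.Agent.P141.PL.H855.Dig0

/-!
# P141, line W, scale-invariant version: slots on a window

* `slot_sub`: a path minus its value at the top of the window of the threshold `e1`, on a region
  with its own bounds of restarts and drop (`Sub`), is a moving slot.
* `slot_births`: on one window of the threshold `e0` the births below the top are a moving slot of
  the size `C * Kb * e0`.
* `slot_static`: a fixed function cut to a hereditary region is a moving slot of the size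
  `C * √e`.
* `slot_X`: the static difference (value at the top minus END value) on one window.
-/

namespace Vale.Agent.P141.PL.H855

open Finset
open Vale.Agent.P141.PL.H95 (gr mem_gr card_gr)
open Vale.Agent.P141.H315 (dot Grid)
open Vale.Agent.P141.PL.H318
open Vale.Agent.P141.H347
open Vale.Agent.P141.H297

noncomputable section

open scoped Classical

/-- a fixed function cut to a hereditary region is a block family -/
theorem cblk0_static {s : ℤ} {Λ : ℕ} {ud : ℕ → ℤ → Prop} {G : ℤ → ℝ} {e : ℝ}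
    (hud : ∀ k x y, y ∈ (gr 7 s).cube k x → (ud k y ↔ ud k x))
    (hup : ∀ k < Λ, ∀ x, ud k x → ud (k + 1) x) (he : 0 ≤ e)
    (hen : ∀ k ≤ Λ, ∀ x, ud k x → ∑ y ∈ (gr 7 s).cube k x, G y ^ 2 ≤ e * cd (gr 7 s) k x) :
    CBlk0 s Λ (fun k y => if ud k y then G y else 0) e 1 := by
  refine ⟨⟨fun k y => k < Λ ∧ ud (k + 1) y ∧ ¬ ud k y, ?_, ?_, ?_⟩, ?_⟩
  · intro k x y hy
    show (k < Λ ∧ ud (k + 1) y ∧ ¬ ud k y) ↔ (k < Λ ∧ ud (k + 1) x ∧ ¬ ud k x)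
    rw [hud k x y hy, hud (k + 1) x y ((gr 7 s).sub k x hy)]
  · intro k y hk hev
    show (if ud k y then G y else 0) = if ud (k + 1) y then G y else 0
    by_cases h1 : ud k y
    · rw [if_pos h1, if_pos (hup k hk y h1)]
    · rw [if_neg h1, if_neg]
      exact fun h2 => hev ⟨hk, h2, h1⟩
  · intro k₀ hk₀ x
    show ∑ z ∈ (gr 7 s).cube k₀ x, ∑ k ∈ range (k₀ + 1),
      ind (k < Λ ∧ ud (k + 1) z ∧ ¬ ud k z) ≤ 1 * 2 ^ (k₀ + 7)
    calc ∑ z ∈ (gr 7 s).cube k₀ x, ∑ k ∈ range (k₀ + 1),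
          ind (k < Λ ∧ ud (k + 1) z ∧ ¬ ud k z)
        ≤ ∑ _z ∈ (gr 7 s).cube k₀ x, (1 : ℝ) :=
          sum_le_sum fun z _ => exit_le_one hup hk₀ z
      _ = 1 * 2 ^ (k₀ + 7) := by rw [sum_const, card_gr, nsmul_eq_mul, mul_one, one_mul]; push_cast; rfl
  · intro k hk x
    rw [← cd_gr s k x]
    show ∑ y ∈ (gr 7 s).cube k x, (if ud k y then G y else 0) * (if ud k y then G y else 0) ≤ _
    by_cases hx : ud k x
    · refine le_trans (le_of_eq (sum_congr rfl fun y hy => ?_)) (hen k hk x hx)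
      rw [if_pos ((hud k x y hy).mpr hx)]
      ring
    · refine le_trans (le_of_eq (sum_eq_zero fun y hy => ?_))
        (mul_nonneg he (cd_pos _ _ _).le)
      rw [if_neg (fun h => hx ((hud k x y hy).mp h)), mul_zero]

theorem slot_static {s : ℤ} {Λ : ℕ} {ud : ℕ → ℤ → Prop} {G : ℤ → ℝ} {e : ℝ}
    (hud : ∀ k x y, y ∈ (gr 7 s).cube k x → (ud k y ↔ ud k x))
    (hup : ∀ k < Λ, ∀ x, ud k x → ud (k + 1) x) (he : 0 < e)
    (hen : ∀ k ≤ Λ, ∀ x, ud k x → ∑ y ∈ (gr 7 s).cube k x, G y ^ 2 ≤ e * cd (gr 7 s) k x) :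
    CSlot0 s Λ (fun k y => if ud k y then G y else 0) (68 * √e) := by
  refine ((cblk0_static hud hup he.le hen).toCSlot0 he zero_le_one).mono ?_
  rw [Real.sqrt_mul he.le]
  have h1 : √(1 + 1152 * 1 : ℝ) ≤ 34 := by
    rw [Real.sqrt_le_left (by norm_num)]; norm_num
  nlinarith [Real.sqrt_nonneg e, Real.sqrt_nonneg (1 + 1152 * 1 : ℝ)]

section

variable {s : ℤ} {ι : Type*} {J : Type*} [Fintype J] {S : J → CSys (gr 7 s) ι}
  {w : ∀ j, LW (S j)} {L : ℕ} {e : ℝ} {F : J → ℤ → ℝ} {gd : ℕ → ℤ → Prop}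
  {V H : J → ℕ → ℤ → ℝ} {rs : J → ℕ → ℤ → Prop} {lm : J → ℕ → ℤ → ℝ} {C2 : ℝ}

/-- packing of the windows of the thresholds `e1 / 2 ^ l` on a region -/
theorem hpk_sub (hP : Paths w L e F gd V H rs lm) {Λ : ℕ} {ud : ℕ → ℤ → Prop} {R D : ℝ}
    (hU : Sub S L gd H rs Λ ud R D) {Cg : ℝ} (hM : ∀ j, Mix (S j) Cg) (hC : 0 ≤ Cg)
    (hC2 : 4 * Fintype.card J * (1 + 2 * Cg) ≤ C2) {e1 κ : ℝ} (he1 : 0 < e1) (hR : 0 ≤ R)
    (hD : 0 ≤ D) (hκ : 8 + 4 * Fintype.card J * R + 8 * Fintype.card J * (D / e1) ≤ κ) :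
    ∀ l, ∀ k₀ ≤ Λ, ∀ x, ud k₀ x → ∑ i ∈ range (k₀ + 1), ∑ z ∈ (gr 7 s).cube k₀ x,
      ind (ud i z ∧ tp w L gd V H rs (e1 / 2 ^ l) C2 i z = i) ≤
        κ * 2 ^ l * cd (gr 7 s) k₀ x := by
  intro l k₀ hk₀ x hx
  refine (packing_sub hP hU hM hC (cd_gr_succ s) (e' := e1 / 2 ^ l) (by positivity) hC2 hk₀
    hx).trans ?_
  refine mul_le_mul_of_nonneg_right ?_ (cd_pos _ _ _).le
  have hl : (1 : ℝ) ≤ 2 ^ l := one_le_pow₀ (by norm_num)
  have e0 : D / (e1 / 2 ^ l) = D / e1 * 2 ^ l := by field_simp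
  rw [e0]
  have hJ : (0 : ℝ) ≤ Fintype.card J := Nat.cast_nonneg _
  have h1 : 0 ≤ (Fintype.card J : ℝ) * R := mul_nonneg hJ hR
  have h2 : 0 ≤ (Fintype.card J : ℝ) * (D / e1) := mul_nonneg hJ (div_nonneg hD he1.le)
  calc 2 * (2 + 2 + 2 * Fintype.card J * R + 2 * 2 * Fintype.card J * (D / e1 * 2 ^ l))
      = 8 + 4 * (Fintype.card J * R) + 8 * (Fintype.card J * (D / e1)) * 2 ^ l := by ring
    _ ≤ 8 * 2 ^ l + 4 * (Fintype.card J * R) * 2 ^ l +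
        8 * (Fintype.card J * (D / e1)) * 2 ^ l := by nlinarith
    _ = (8 + 4 * Fintype.card J * R + 8 * Fintype.card J * (D / e1)) * 2 ^ l := by ring
    _ ≤ κ * 2 ^ l := mul_le_mul_of_nonneg_right hκ (by positivity)

/-- **The digits on a region.** -/
theorem slot_sub (hP : Paths w L e F gd V H rs lm) {Λ : ℕ} {ud : ℕ → ℤ → Prop} {R D : ℝ}
    (hU : Sub S L gd H rs Λ ud R D) {Cg : ℝ} (hM : ∀ j, Mix (S j) Cg) (hC : 0 ≤ Cg)
    (hC2 : 4 * Fintype.card J * (1 + 2 * Cg) ≤ C2) (j : J) {Kb e1 κ : ℝ} (hKb : 0 < Kb)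
    (hS : L2W (w j) Kb) (he1 : 0 < e1) (hR : 0 ≤ R) (hD : 0 ≤ D)
    (hκ : 8 + 4 * Fintype.card J * R + 8 * Fintype.card J * (D / e1) ≤ κ) :
    CSlot0 s Λ (fun k y => if ud k y then V j k y - V j (tp w L gd V H rs e1 C2 k y) y else 0)
      (Cdig0 C2 κ 1 * Kb * e1) := by
  have hC20 : 0 ≤ C2 := le_trans (by positivity) hC2
  have hJ : (0 : ℝ) ≤ Fintype.card J := Nat.cast_nonneg _
  have hκ0 : 0 ≤ κ := by
    refine le_trans ?_ hκ
    have h1 : 0 ≤ (Fintype.card J : ℝ) * R := mul_nonneg hJ hR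
    have h2 : 0 ≤ (Fintype.card J : ℝ) * (D / e1) := mul_nonneg hJ (div_nonneg hD he1.le)
    nlinarith
  refine (cslot_dig0 hP hU.le hU.const hU.up j hKb hS he1 hC20 one_pos le_rfl hκ0
    (hpk_sub hP hU hM hC hC2 he1 hR hD hκ)).mono (le_of_eq ?_)
  rw [Real.rpow_one]
  calc Cdig0 C2 κ 1 * √e1 * (Kb * √e1) = Cdig0 C2 κ 1 * Kb * (√e1 * √e1) := by ring
    _ = _ := by rw [Real.mul_self_sqrt he1.le]

/-- the region of one window inside a hereditary region `pd` -/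
def udw (w : ∀ j, LW (S j)) (L : ℕ) (gd : ℕ → ℤ → Prop) (V H : J → ℕ → ℤ → ℝ)
    (rs : J → ℕ → ℤ → Prop) (e0 C2 : ℝ) (pd : ℕ → ℤ → Prop) (Λ k : ℕ) (y : ℤ) : Prop :=
  k ≤ Λ ∧ pd k y ∧ gd k y ∧ tp w L gd V H rs e0 C2 k y = Λ

/-- **The births below the top of one window.** -/
theorem slot_births (hP : Paths w L e F gd V H rs lm) {Cg : ℝ} (hM : ∀ j, Mix (S j) Cg)
    (hC : 0 ≤ Cg) (hC2 : 4 * Fintype.card J * (1 + 2 * Cg) ≤ C2) (j : J) {Kb e0 : ℝ}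
    (hKb : 0 < Kb) (hS : L2W (w j) Kb) (he0 : 0 < e0) {Λ : ℕ} (hΛ : Λ ≤ L)
    {pd : ℕ → ℤ → Prop} (hc : ∀ k x y, y ∈ (gr 7 s).cube k x → (pd k y ↔ pd k x))
    (hup : ∀ k < Λ, ∀ x, pd k x → pd (k + 1) x) :
    CSlot0 s Λ (fun k y => if udw w L gd V H rs e0 C2 pd Λ k y then V j k y - V j Λ y else 0)
      (Cdig0 C2 (8 + 8 * Fintype.card J) 1 * Kb * e0) := by
  have hU := sub_window hP he0.le hΛ (C0 := C2) hc hup
  have h1 := slot_sub hP hU hM hC hC2 j hKb hS he0 le_rfl he0.le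
    (κ := 8 + 8 * Fintype.card J) (by rw [div_self he0.ne']; simp)
  refine h1.congr fun k hk y => ?_
  unfold udw
  split_ifs with h
  · rw [h.2.2.2]
  · rfl

/-- **The static difference on one window.** -/
theorem slot_X (hP : Paths w L e F gd V H rs lm) {Cg : ℝ} (j : J) (hM : Mix (S j) Cg)
    (hC : 0 ≤ Cg) (hC2 : 0 ≤ C2) {e0 : ℝ} (he0 : 0 < e0) {Λ : ℕ} (hΛ : Λ ≤ L)
    {pd : ℕ → ℤ → Prop} (hc : ∀ k x y, y ∈ (gr 7 s).cube k x → (pd k y ↔ pd k x))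
    (hup : ∀ k < Λ, ∀ x, pd k x → pd (k + 1) x) :
    CSlot0 s Λ (fun k y => if udw w L gd V H rs e0 C2 pd Λ k y then
      V j Λ y - Ue w L gd V H rs e0 C2 j Λ y else 0)
      (68 * √((4 * (2 * C2 + 3) + 2 * (1 + 2 * Cg)) * e0)) := by
  have hU := sub_window hP he0.le hΛ (C0 := C2) hc hup
  refine slot_static hU.const hU.up (by positivity) fun k hk x hx => ?_
  have hg : gd Λ x := hP.gd_const Λ x x ((gr 7 s).mem _ _) |>.mp (by
    have h1 := hx.2.2.1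
    exact gd_le (L := L) (k := k) hP hk hΛ h1)
  have h1 := X_dist hP j hM hC (cd_gr_succ s) he0.le hC2 hΛ hk hx.2.2.2 hg
  rw [mul_assoc]
  exact h1

end

end

end Vale.Agent.P141.PL.H855
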