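import Vale.Agent.P141.PL.H855.NumL4
import Vale.Agent.P141.H297.MbbJ

/-!
# P141, line W: the number of one window at the level `j`

`winNum`: the bound of the total of one joint window of the step, divided by the area of the top.
`winNum_le`: at the level `j` it is at most `C * (2 ^ (-r j) * e0 j * (1 + P))`.
-/

namespace Vale.Agent.P141.PL.H855

open Vale.Agent.P141.H297 (KS KS_nonneg)
open Vale.Agent.P141.H501 (numL4)

noncomputable section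

/-- **The number of one window.** -/
def winNum (Cg C0 Cb C3 P e0 τ pg Pm Q1 cE Kb θ : ℝ) (nR : ℕ) : ℝ :=
  154 * 4 * (pg * √(cCk Cg C0)) +
    48 * (pg * √(8 * (2 * cC2 Cg + 3)) * ((16 + 150 * 2) * e0) * √e0) +
    4 * (C3 * P * (16 * KS (cC2 Cg) Cg 8 4 θ ^ 4 * (Kb ^ θ) ^ 4) * √e0 ^ 3) +
    3 * numL4 (cC2 Cg) Cg (cCk Cg C0) Cg e0 (cE0 Cg * e0) τ (Cb * P) Pm Q1 cE nR

/-- the exponent of the `L²` constants of the atoms -/
def thK (κ kK : ℝ) : ℝ := min 1 (κ / (16 * (kK + 1)))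

theorem thK_pos {κ kK : ℝ} (h : 0 < κ) (hk : 0 ≤ kK) : 0 < thK κ kK :=
  lt_min one_pos (by positivity)

theorem thK_le_one (κ kK : ℝ) : thK κ kK ≤ 1 := min_le_left _ _

/-- the `L²` constant of the atoms of the levels `j`, `j + 1` -/
def kbj (A kK : ℝ) (j : ℕ) : ℝ := 2 * max A 1 * 2 ^ (kK * ((j + 1 : ℕ) : ℝ))

theorem one_le_kbj {A kK : ℝ} (hk : 0 ≤ kK) (j : ℕ) : 1 ≤ kbj A kK j := by
  unfold kbj
  have h1 : (1 : ℝ) ≤ 2 ^ (kK * ((j + 1 : ℕ) : ℝ)) :=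
    Real.one_le_rpow (by norm_num) (by positivity)
  have h2 : (1 : ℝ) ≤ max A 1 := le_max_right _ _
  nlinarith

theorem kbj_rpow {A κ kK : ℝ} (hκ : 0 < κ) (hk : 0 ≤ kK) (j : ℕ) :
    (kbj A kK j ^ thK κ kK) ^ 4 ≤ (2 * max A 1 * 2 ^ kK) ^ 4 * uu (-(κ / 4)) j := by
  have hθ := thK_pos hκ hk
  have hθ1 := thK_le_one κ kK
  have hm : (1 : ℝ) ≤ max A 1 := le_max_right _ _
  have h2k : (1 : ℝ) ≤ 2 ^ kK := Real.one_le_rpow (by norm_num) hk
  have hB : (1 : ℝ) ≤ 2 * max A 1 * 2 ^ kK := by nlinarith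
  have e1 : kbj A kK j = (2 * max A 1 * 2 ^ kK) * uu (-kK) j := by
    unfold kbj uu
    rw [show kK * ((j + 1 : ℕ) : ℝ) = kK + -(-kK * (j : ℝ)) by push_cast; ring,
      Real.rpow_add (by norm_num)]
    ring
  rw [e1, Real.mul_rpow (by linarith) (uu_nonneg _ _), uu_rpow, mul_pow, uu_pow]
  have h1 : (2 * max A 1 * 2 ^ kK) ^ thK κ kK ≤ 2 * max A 1 * 2 ^ kK := by
    calc (2 * max A 1 * 2 ^ kK) ^ thK κ kK ≤ (2 * max A 1 * 2 ^ kK) ^ (1 : ℝ) :=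
          Real.rpow_le_rpow_of_exponent_le hB hθ1
      _ = _ := Real.rpow_one _
  have h3 : 0 ≤ (2 * max A 1 * 2 ^ kK) ^ thK κ kK := Real.rpow_nonneg (by linarith) _
  have h4 : uu (-kK * thK κ kK * ((4 : ℕ) : ℝ)) j ≤ uu (-(κ / 4)) j := by
    refine uu_anti ?_ j
    have h5 : thK κ kK ≤ κ / (16 * (kK + 1)) := min_le_right _ _
    have h6 : kK * thK κ kK ≤ kK * (κ / (16 * (kK + 1))) := mul_le_mul_of_nonneg_left h5 hk
    have h7 : kK * (κ / (16 * (kK + 1))) ≤ κ / 16 := by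
      rw [mul_div_assoc', div_le_div_iff₀ (by positivity) (by norm_num)]
      nlinarith
    push_cast
    nlinarith
  exact mul_le_mul (pow_le_pow_left₀ h3 h1 4) h4 (uu_nonneg _ _) (by positivity)

/-- **The number of one window at the level `j`.** -/
theorem winNum_le {Cg C0 A Cb C3 κ c g p1 q1 eE kK r : ℝ} (nR : ℕ) (hCg : 0 ≤ Cg) (hA : 0 ≤ A)
    (hCb : 0 ≤ Cb) (hC3 : 0 ≤ C3) (hκ : 0 < κ) (hkK : 0 ≤ kK) (h0 : r ≤ g - κ) (h1 : r ≤ p1 - c)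
    (h2 : r ≤ q1 - c) (h3 : r ≤ κ / 2 - c) (hc : 0 ≤ c) (h4 : r ≤ eE) (h5 : r ≤ κ / 4) :
    ∃ C : ℝ, 0 ≤ C ∧ ∀ (j : ℕ) (P : ℝ), 0 ≤ P →
      winNum Cg C0 Cb C3 P (uu κ j) (uu c j) (A * uu g j) (A * uu p1 j) (A * uu q1 j)
        (A * uu (κ + eE) j * (1 + P)) (kbj A kK j) (thK κ kK) nR ≤
      C * (uu r j * uu κ j * (1 + P)) := by
  obtain ⟨D, hD, hnum⟩ := numL4_le (Cg := Cg) (C0 := C0) (Cb := Cb) nR hCg hA hCb h1 h2 h3 hc h4
  set KS0 := KS (cC2 Cg) Cg 8 4 (thK κ kK) with hKS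
  have hK0 : 0 ≤ KS0 := KS_nonneg (thK_pos hκ hkK)
  set B4 : ℝ := (2 * max A 1 * 2 ^ kK) ^ 4 with hB4
  have hB40 : 0 ≤ B4 := by positivity
  set s1 := √(cCk Cg C0) with hs1
  set s2 := √(8 * (2 * cC2 Cg + 3)) with hs2
  have hs10 : 0 ≤ s1 := Real.sqrt_nonneg _
  have hs20 : 0 ≤ s2 := Real.sqrt_nonneg _
  refine ⟨154 * 4 * (A * s1) + 48 * (A * s2 * 316) + 4 * (C3 * (16 * KS0 ^ 4 * B4)) + 3 * D,
    by positivity, ?_⟩
  intro j P hP
  have u0 := uu_nonneg r j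
  have uκ := uu_nonneg κ j
  have hW : 0 ≤ uu r j * uu κ j := mul_nonneg u0 uκ
  have hgk : uu g j ≤ uu r j * uu κ j := by
    rw [uu_mul]; exact uu_anti (by linarith) j
  have k1 : uu κ j ≤ 1 := uu_le_one hκ.le j
  have k2 : √(uu κ j) = uu (κ / 2) j := uu_sqrt κ j
  have k3 : uu (κ / 2) j ≤ 1 := uu_le_one (by linarith) j
  have k4 : 0 ≤ uu (κ / 2) j := uu_nonneg _ _
  -- the first two terms
  have t1 : 154 * 4 * (A * uu g j * s1) ≤ 154 * 4 * (A * s1) * (uu r j * uu κ j) := by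
    have : A * uu g j * s1 ≤ A * (uu r j * uu κ j) * s1 := by gcongr
    nlinarith
  have t2 : 48 * (A * uu g j * s2 * ((16 + 150 * 2) * uu κ j) * √(uu κ j)) ≤
      48 * (A * s2 * 316) * (uu r j * uu κ j) := by
    rw [k2]
    have i1 : uu κ j * uu (κ / 2) j ≤ 1 := mul_le_one₀ k1 k4 k3
    have i2 : 0 ≤ A * uu g j * s2 * 316 := by have := uu_nonneg g j; positivity
    have i3 : A * uu g j * s2 * ((16 + 150 * 2) * uu κ j) * uu (κ / 2) j ≤
        A * uu g j * s2 * 316 := by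
      calc A * uu g j * s2 * ((16 + 150 * 2) * uu κ j) * uu (κ / 2) j =
            A * uu g j * s2 * 316 * (uu κ j * uu (κ / 2) j) := by ring
        _ ≤ A * uu g j * s2 * 316 * 1 := mul_le_mul_of_nonneg_left i1 i2
        _ = _ := by ring
    have i4 : A * uu g j * s2 * 316 ≤ A * (uu r j * uu κ j) * s2 * 316 := by gcongr
    nlinarith
  -- the black box
  have t3 : 4 * (C3 * P * (16 * KS0 ^ 4 * (kbj A kK j ^ thK κ kK) ^ 4) * √(uu κ j) ^ 3) ≤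
      4 * (C3 * (16 * KS0 ^ 4 * B4)) * (uu r j * uu κ j * P) := by
    have i1 := kbj_rpow (A := A) hκ hkK j
    rw [k2, uu_pow]
    have i2 : 0 ≤ uu (κ / 2 * ((3 : ℕ) : ℝ)) j := uu_nonneg _ _
    have i3 : (kbj A kK j ^ thK κ kK) ^ 4 * uu (κ / 2 * ((3 : ℕ) : ℝ)) j ≤
        B4 * (uu r j * uu κ j) := by
      calc (kbj A kK j ^ thK κ kK) ^ 4 * uu (κ / 2 * ((3 : ℕ) : ℝ)) j
          ≤ (B4 * uu (-(κ / 4)) j) * uu (κ / 2 * ((3 : ℕ) : ℝ)) j :=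
            mul_le_mul_of_nonneg_right i1 i2
        _ = B4 * uu (-(κ / 4) + κ / 2 * ((3 : ℕ) : ℝ)) j := by rw [mul_assoc, uu_mul]
        _ ≤ B4 * (uu r j * uu κ j) := by
            refine mul_le_mul_of_nonneg_left ?_ hB40
            rw [uu_mul]
            refine uu_anti ?_ j
            push_cast
            linarith
    calc 4 * (C3 * P * (16 * KS0 ^ 4 * (kbj A kK j ^ thK κ kK) ^ 4) *
          uu (κ / 2 * ((3 : ℕ) : ℝ)) j) = 4 * (C3 * P * (16 * KS0 ^ 4)) *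
            ((kbj A kK j ^ thK κ kK) ^ 4 * uu (κ / 2 * ((3 : ℕ) : ℝ)) j) := by ring
      _ ≤ 4 * (C3 * P * (16 * KS0 ^ 4)) * (B4 * (uu r j * uu κ j)) :=
          mul_le_mul_of_nonneg_left i3 (by positivity)
      _ = _ := by ring
  have t4 := hnum j P hP
  unfold winNum
  have hP1 : uu r j * uu κ j ≤ uu r j * uu κ j * (1 + P) := le_mul_of_one_le_right hW (by linarith)
  have hP2 : uu r j * uu κ j * P ≤ uu r j * uu κ j * (1 + P) :=
    mul_le_mul_of_nonneg_left (by linarith) hW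
  have w1 : 154 * 4 * (A * s1) * (uu r j * uu κ j) ≤
      154 * 4 * (A * s1) * (uu r j * uu κ j * (1 + P)) :=
    mul_le_mul_of_nonneg_left hP1 (by positivity)
  have w2 : 48 * (A * s2 * 316) * (uu r j * uu κ j) ≤
      48 * (A * s2 * 316) * (uu r j * uu κ j * (1 + P)) :=
    mul_le_mul_of_nonneg_left hP1 (by positivity)
  have w3 : 4 * (C3 * (16 * KS0 ^ 4 * B4)) * (uu r j * uu κ j * P) ≤
      4 * (C3 * (16 * KS0 ^ 4 * B4)) * (uu r j * uu κ j * (1 + P)) :=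
    mul_le_mul_of_nonneg_left hP2 (by positivity)
  linarith [t1.trans w1, t2.trans w2, t3.trans w3]

end

end Vale.Agent.P141.PL.H855
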